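import Vale.Agent.P151.Glue

/-!
The summable bound for middle-sized clusters.
-/

namespace Vale.Agent.P151

open MeasureTheory SimpleGraph Finset Vale.Agent.P165 Filter
open scoped Classical Topology

set_option linter.unusedSectionVars false

lemma exp_rpow_summable {κ a : ℝ} (hκ : 0 < κ) (ha : 0 < a) :
    Summable fun m : ℕ => Real.exp (-(κ * (m : ℝ) ^ a)) := by
  have ht := (tendsto_rpow_mul_exp_neg_mul_atTop_nhds_zero (2 / a) κ hκ).comp
    ((tendsto_rpow_atTop ha).comp (tendsto_natCast_atTop_atTop (R := ℝ)))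
  have hev : ∀ᶠ m : ℕ in atTop, Real.exp (-(κ * (m : ℝ) ^ a)) ≤ 1 / (m : ℝ) ^ 2 := by
    filter_upwards [ht.eventually_le_const (show (0 : ℝ) < 1 by norm_num), eventually_ge_atTop 1]
      with m hm h1m
    have hmpos : (0 : ℝ) < m := by exact_mod_cast h1m
    simp only [Function.comp_apply] at hm
    rw [← Real.rpow_mul hmpos.le, show a * (2 / a) = 2 by field_simp, neg_mul,
      Real.rpow_two] at hm
    rw [le_div_iff₀ (by positivity), mul_comm]
    exact hm
  obtain ⟨N, hN⟩ := eventually_atTop.1 hev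
  have hs : Summable fun m : ℕ => 1 / ((m + N : ℕ) : ℝ) ^ 2 :=
    (summable_nat_add_iff (f := fun m : ℕ => 1 / (m : ℝ) ^ 2) N).2
      (Real.summable_one_div_nat_pow.2 one_lt_two)
  exact (summable_nat_add_iff (f := fun m : ℕ => Real.exp (-(κ * (m : ℝ) ^ a))) N).1
    (Summable.of_nonneg_of_le (fun m => (Real.exp_pos _).le) (fun m => hN _ (by omega)) hs)

variable {Γ : Type*} [Group Γ] (S : Finset Γ)

lemma mid_bound (hS : ∀ s ∈ S, s⁻¹ ∈ S) (h1 : (1 : Γ) ∉ S) (hne : S.Nonempty)
    {γ c : ℝ} (hγ : 1 / 3 < γ) (hγ2 : γ ≤ 1 / 2) (hc : 0 < c)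
    (hret : ∀ᶠ k : ℕ in atTop, walkDist S (2 * k) 1 ≤ Real.exp (-(c * (k : ℝ) ^ γ)))
    {p0 : ℝ} (hp0 : 0 < p0) :
    ∃ ε : ℕ → ℝ, Summable ε ∧ (∀ m, 0 ≤ ε m) ∧ ∀ p : unitInterval, p0 ≤ (p : ℝ) → ∀ m,
      Ex (mulCayley (S : Set Γ)) p (midInd (mulCayley (S : Set Γ)) (2 ^ m) 1) ≤ ε m := by
  set G := mulCayley (S : Set Γ) with hG
  set g := 1 / γ with hg
  have hg2 : 2 ≤ g := by rw [hg, le_div_iff₀ (by linarith)]; linarith
  have hg3 : g < 3 := by rw [hg, div_lt_iff₀ (by linarith)]; linarith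
  set a := (3 - g) / 2 with ha
  have ha0 : 0 < a := by rw [ha]; linarith
  have ha1 : a ≤ 1 := by rw [ha]; linarith
  set A := (5 / c) ^ g with hA
  have hApos : 0 < A := Real.rpow_pos_of_pos (by positivity) _
  set Q := max 1 (1 / p0) with hQ
  have hQ1 : 1 ≤ Q := le_max_left _ _
  have hQ0 : 0 < Q := by linarith
  set B := 121 * Q ^ 4 * Real.exp 1 with hB
  have hB1 : 1 ≤ B := by
    have h1' : (1 : ℝ) ≤ Q ^ 4 := one_le_pow₀ hQ1
    have h2' : (1 : ℝ) ≤ Real.exp 1 := Real.one_le_exp (by norm_num)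
    have := mul_le_mul h1' h2' (by norm_num) (by positivity)
    rw [hB, mul_assoc]; linarith
  set η := 1 / (10 * (Real.log B + 1)) with hη
  have hlogB : 0 ≤ Real.log B := Real.log_nonneg hB1
  have hη0 : 0 < η := by rw [hη]; positivity
  set κ := min (η / Real.sqrt (2 * A)) (1 / 10) with hκ
  have hκ0 : 0 < κ := lt_min (div_pos hη0 (Real.sqrt_pos.2 (by positivity))) (by norm_num)
  set R := 8 + 4 + 4 * (8 * Q) * Real.sqrt (2 * #S) with hR
  have hR0 : 0 < R := by rw [hR]; positivity
  have hev : ∀ᶠ m : ℕ in atTop, ∀ p : unitInterval, p0 ≤ (p : ℝ) →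
      Ex G p (midInd G (2 ^ m) 1) ≤ Real.sqrt R * Real.exp (-(κ / 2 * (m : ℝ) ^ a)) := by
    obtain ⟨K0, hK0⟩ := eventually_atTop.1 hret
    have hg' : Tendsto (fun m : ℕ => A * (m : ℝ) ^ g) atTop atTop :=
      ((tendsto_rpow_atTop (by linarith)).comp tendsto_natCast_atTop_atTop).const_mul_atTop hApos
    filter_upwards [hg'.eventually_ge_atTop (K0 + 1 : ℝ),
      (tendsto_natCast_atTop_atTop (R := ℝ)).eventually_ge_atTop (2 / A),
      (tendsto_natCast_atTop_atTop (R := ℝ)).eventually_ge_atTop (2 / η),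
      eventually_ge_atTop 1] with m hmK hmA hmη hm1
    intro p hp
    have hp' : 0 < (p : ℝ) := lt_of_lt_of_le hp0 hp
    have hm : (1 : ℝ) ≤ m := by exact_mod_cast hm1
    have hmpos : (0 : ℝ) < m := by linarith
    set x := A * (m : ℝ) ^ g with hx
    have hx1 : 1 ≤ x := by
      have : (0 : ℝ) ≤ K0 := Nat.cast_nonneg K0
      linarith
    set k := ⌈x⌉₊ with hk
    have hkge : x ≤ k := Nat.le_ceil x
    have hkle : (k : ℝ) ≤ 2 * x := by
      have := Nat.ceil_lt_add_one (show 0 ≤ x by linarith)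
      linarith
    have hkpos : (0 : ℝ) < k := by linarith
    have h2m : 2 * (m : ℝ) ≤ k := by
      have h2g : (m : ℝ) ^ (2 : ℝ) ≤ (m : ℝ) ^ g := Real.rpow_le_rpow_of_exponent_le hm hg2
      rw [Real.rpow_two] at h2g
      rw [div_le_iff₀ hApos] at hmA
      have := mul_le_mul_of_nonneg_left h2g hApos.le
      have := mul_le_mul_of_nonneg_right hmA hmpos.le
      linarith
    set δ := (m : ℝ) / k with hδ
    have hδ0 : 0 < δ := by positivity
    have hδ2 : δ ≤ 1 / 2 := by rw [hδ, div_le_iff₀ hkpos]; linarith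
    set l := ⌊η * (m : ℝ)⌋₊ with hl
    have hlle : (l : ℝ) ≤ η * m := Nat.floor_le (by positivity)
    have hlge : η * m / 2 ≤ l := by
      have := Nat.lt_floor_add_one (η * (m : ℝ))
      rw [div_le_iff₀ hη0] at hmη
      rw [← hl] at this
      linarith
    have hma : (m : ℝ) ^ a ≤ m := by
      calc (m : ℝ) ^ a ≤ (m : ℝ) ^ (1 : ℝ) := Real.rpow_le_rpow_of_exponent_le hm ha1
        _ = m := Real.rpow_one _
    have hn : 0 < 2 ^ m := by positivity
    have hmain := mid_sq_le S hS h1 p hp' hne hn hδ0 hδ2 l k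
    -- first term
    have t1 : Real.exp (-(2 * (l : ℝ) * Real.sqrt δ)) ≤ Real.exp (-(κ * (m : ℝ) ^ a)) := by
      refine Real.exp_le_exp.2 (neg_le_neg ?_)
      have hd : (m : ℝ) / (2 * x) ≤ δ := by rw [hδ]; gcongr
      have hsq : Real.sqrt ((m : ℝ) / (2 * x))
          = (m : ℝ) ^ ((1 - g) / 2) / Real.sqrt (2 * A) := by
        rw [hx, show (m : ℝ) / (2 * (A * (m : ℝ) ^ g)) = (m : ℝ) ^ (1 - g) / (2 * A) by
          rw [Real.rpow_sub hmpos, Real.rpow_one]; field_simp,
          Real.sqrt_div (Real.rpow_nonneg hmpos.le _)]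
        congr 1
        rw [Real.sqrt_eq_rpow, ← Real.rpow_mul hmpos.le]
        ring_nf
      have hs : (m : ℝ) ^ ((1 - g) / 2) / Real.sqrt (2 * A) ≤ Real.sqrt δ :=
        hsq ▸ Real.sqrt_le_sqrt hd
      calc κ * (m : ℝ) ^ a ≤ η / Real.sqrt (2 * A) * (m : ℝ) ^ a :=
            mul_le_mul_of_nonneg_right (min_le_left _ _) (Real.rpow_nonneg hmpos.le _)
        _ = η * m * ((m : ℝ) ^ ((1 - g) / 2) / Real.sqrt (2 * A)) := by
            rw [show a = 1 + (1 - g) / 2 by rw [ha]; ring, Real.rpow_add hmpos, Real.rpow_one]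
            ring
        _ ≤ 2 * l * Real.sqrt δ := by
            refine mul_le_mul (by linarith) hs (div_nonneg (Real.rpow_nonneg hmpos.le _)
              (Real.sqrt_nonneg _)) (by positivity)
    -- second term
    have t2 : (2 * ((2 ^ m : ℕ) : ℝ) + 1) * walkDist S (2 * k) 1 / (1 - δ) ^ k
        ≤ 4 * Real.exp (-(κ * (m : ℝ) ^ a)) := by
      have hkK : K0 ≤ k := by exact_mod_cast (show (K0 : ℝ) ≤ k by linarith)
      have hw := hK0 k hkK
      have hkg : 5 * (m : ℝ) ≤ c * (k : ℝ) ^ γ := by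
        have hxg : x ^ γ = 5 / c * m := by
          rw [hx, hA, Real.mul_rpow (by positivity) (Real.rpow_nonneg hmpos.le _),
            ← Real.rpow_mul (by positivity), ← Real.rpow_mul hmpos.le]
          have : g * γ = 1 := by rw [hg]; field_simp
          rw [this, Real.rpow_one, Real.rpow_one]
        have := mul_le_mul_of_nonneg_left
          (Real.rpow_le_rpow (by linarith) hkge (show 0 ≤ γ by linarith)) hc.le
        rw [hxg, ← mul_assoc, mul_div_cancel₀ _ hc.ne'] at this
        linarith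
      have hden : 1 / (1 - δ) ^ k ≤ Real.exp (2 * m) := by
        rw [← one_div_pow, show 2 * (m : ℝ) = (k : ℝ) * (2 * δ) by rw [hδ]; field_simp,
          Real.exp_nat_mul]
        refine pow_le_pow_left₀ (by have : 0 < 1 - δ := by linarith
                                    positivity) ?_ k
        rw [div_le_iff₀ (by linarith)]
        have := mul_le_mul_of_nonneg_right (Real.add_one_le_exp (2 * δ))
          (show 0 ≤ 1 - δ by linarith)
        have : 0 ≤ δ * (1 - 2 * δ) := mul_nonneg hδ0.le (by linarith)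
        linarith
      have hpow : ((2 ^ m : ℕ) : ℝ) ≤ Real.exp m := by
        push_cast
        rw [← mul_one (m : ℝ), Real.exp_nat_mul]
        exact pow_le_pow_left₀ (by norm_num) (by have := Real.add_one_le_exp (1 : ℝ); linarith) m
      have hone : (1 : ℝ) ≤ Real.exp m := Real.one_le_exp hmpos.le
      rw [div_eq_mul_one_div]
      calc _ ≤ (4 * Real.exp m) * Real.exp (-(5 * (m : ℝ))) * Real.exp (2 * m) := by
            refine mul_le_mul (mul_le_mul (by linarith) (hw.trans (Real.exp_le_exp.2 (by linarith)))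
              (walkDist_nonneg S _ _) (by positivity)) hden (by
              have : 0 < 1 - δ := by linarith
              positivity) (by positivity)
        _ = 4 * Real.exp (-(2 * (m : ℝ))) := by
            rw [mul_assoc 4, mul_assoc 4, ← Real.exp_add, ← Real.exp_add]; ring_nf
        _ ≤ _ := by
            refine mul_le_mul_of_nonneg_left (Real.exp_le_exp.2 ?_) (by norm_num)
            have : κ ≤ 1 / 10 := min_le_right _ _
            have := mul_le_mul this hma (Real.rpow_nonneg hmpos.le _) (by norm_num)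
            linarith
    -- third term
    have t3 : 121 ^ l * ((4 * l : ℕ) * (1 / (p : ℝ)) ^ (4 * l) * ghostBound S (p : ℝ) (2 ^ m))
        ≤ 4 * (8 * Q) * Real.sqrt (2 * #S) * Real.exp (-(κ * (m : ℝ) ^ a)) := by
      have hpQ : 1 / (p : ℝ) ≤ Q := (one_div_le_one_div_of_le hp0 hp).trans (le_max_right _ _)
      have hl1 : (l : ℝ) ≤ Real.exp l := by linarith [Real.add_one_le_exp (l : ℝ)]
      have hBl : B ^ l ≤ Real.exp ((m : ℝ) / 10) := by
        rw [← Real.exp_log (show 0 < B by linarith), ← Real.exp_nat_mul, Real.exp_le_exp]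
        have h1' := mul_le_mul_of_nonneg_right hlle hlogB
        have h2' : η * (Real.log B + 1) = 1 / 10 := by rw [hη]; field_simp
        have h3' : 0 ≤ η * m := by positivity
        linear_combination h1' + h3' + (m : ℝ) * h2'
      have hroot : Real.sqrt (#S * (2 * (2 ^ m) : ℕ)) / ((2 ^ m : ℕ) : ℝ)
          ≤ Real.sqrt (2 * #S) * Real.exp (-((m : ℝ) * 3 / 10)) := by
        have he : Real.sqrt (#S * (2 * (2 ^ m) : ℕ)) / ((2 ^ m : ℕ) : ℝ)
            = Real.sqrt (2 * #S) * (1 / Real.sqrt ((2 : ℝ) ^ m)) := by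
          push_cast
          rw [show (#S : ℝ) * (2 * (2 : ℝ) ^ m) = 2 * #S * 2 ^ m by ring,
            Real.sqrt_mul (by positivity)]
          rw [mul_div_assoc, Real.sqrt_div_self, one_div]
        rw [he]
        refine mul_le_mul_of_nonneg_left ?_ (Real.sqrt_nonneg _)
        have h2e : Real.exp ((m : ℝ) * 3 / 5) ≤ 2 ^ m := by
          rw [show (m : ℝ) * 3 / 5 = (m : ℝ) * (3 / 5) by ring, Real.exp_nat_mul]
          refine pow_le_pow_left₀ (Real.exp_pos _).le ?_ m
          rw [← Real.le_log_iff_exp_le (by norm_num : (0 : ℝ) < 2)]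
          have := Real.log_two_gt_d9
          linarith
        rw [Real.exp_neg, one_div]
        refine inv_anti₀ (Real.exp_pos _) ?_
        rw [show (m : ℝ) * 3 / 10 = (m : ℝ) * 3 / 5 / 2 by ring, Real.exp_half]
        exact Real.sqrt_le_sqrt h2e
      have hgb : ghostBound S (p : ℝ) (2 ^ m)
          ≤ 8 * Q * (Real.sqrt (2 * #S) * Real.exp (-((m : ℝ) * 3 / 10))) := by
        rw [ghostBound, div_eq_mul_one_div]
        calc _ ≤ 8 * (Real.sqrt (2 * #S) * Real.exp (-((m : ℝ) * 3 / 10))) * Q :=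
              mul_le_mul (mul_le_mul_of_nonneg_left hroot (by norm_num)) hpQ (by positivity)
                (by positivity)
          _ = _ := by ring
      have hcoef : (121 : ℝ) ^ l * ((4 * l : ℕ) * (1 / (p : ℝ)) ^ (4 * l)) ≤ 4 * B ^ l := by
        have h4 : (1 / (p : ℝ)) ^ (4 * l) ≤ (Q ^ 4) ^ l := by
          rw [← pow_mul]; exact pow_le_pow_left₀ (by positivity) hpQ _
        rw [hB, mul_pow, mul_pow, Real.exp_one_pow]
        push_cast
        calc _ ≤ (121 : ℝ) ^ l * (4 * Real.exp l * (Q ^ 4) ^ l) :=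
              mul_le_mul_of_nonneg_left (mul_le_mul (by linarith) h4 (by positivity) (by positivity))
                (by positivity)
          _ = _ := by ring
      calc _ = (121 : ℝ) ^ l * ((4 * l : ℕ) * (1 / (p : ℝ)) ^ (4 * l))
              * ghostBound S (p : ℝ) (2 ^ m) := by ring
        _ ≤ 4 * Real.exp ((m : ℝ) / 10)
              * (8 * Q * (Real.sqrt (2 * #S) * Real.exp (-((m : ℝ) * 3 / 10)))) :=
            mul_le_mul (hcoef.trans (mul_le_mul_of_nonneg_left hBl (by norm_num))) hgb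
              (ghostBound_nonneg S hS h1 hp'.le _) (by positivity)
        _ = 4 * (8 * Q) * Real.sqrt (2 * #S) * Real.exp (-((m : ℝ) / 5)) := by
            rw [show -((m : ℝ) / 5) = (m : ℝ) / 10 + -((m : ℝ) * 3 / 10) by ring, Real.exp_add]
            ring
        _ ≤ _ := by
            refine mul_le_mul_of_nonneg_left (Real.exp_le_exp.2 ?_) (by positivity)
            have : κ ≤ 1 / 10 := min_le_right _ _
            have := mul_le_mul this hma (Real.rpow_nonneg hmpos.le _) (by norm_num)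
            linarith
    have hsq : Ex G p (midInd G (2 ^ m) 1) ^ 2 ≤ R * Real.exp (-(κ * (m : ℝ) ^ a)) := by
      rw [hR, add_mul, add_mul]
      linarith
    have h0 : 0 ≤ Ex G p (midInd G (2 ^ m) 1) :=
      ex_nonneg p (loc_midInd _ _) fun ω => by unfold midInd; split_ifs <;> norm_num
    rw [show Real.exp (-(κ / 2 * (m : ℝ) ^ a)) = Real.sqrt (Real.exp (-(κ * (m : ℝ) ^ a))) by
      rw [← Real.exp_half]; ring_nf, ← Real.sqrt_mul hR0.le, ← Real.sqrt_sq h0]
    exact Real.sqrt_le_sqrt hsq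
  obtain ⟨m0, hm0⟩ := eventually_atTop.1 hev
  refine ⟨fun m => if m < m0 then 1 else Real.sqrt R * Real.exp (-(κ / 2 * (m : ℝ) ^ a)), ?_, ?_, ?_⟩
  · refine (summable_nat_add_iff m0).1 ?_
    simp only [Nat.not_lt.2 (Nat.le_add_left m0 _), if_false]
    exact (summable_nat_add_iff (f := fun m : ℕ =>
      Real.sqrt R * Real.exp (-(κ / 2 * (m : ℝ) ^ a))) m0).2
        ((exp_rpow_summable (by positivity) ha0).mul_left _)
  · intro m; dsimp only; split_ifs <;> positivity
  · intro p hp m
    dsimp only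
    split_ifs with h
    · rw [← ex_const (G := G) p 1]
      exact ex_mono p (loc_midInd _ _) (loc_const _) fun ω => by
        unfold midInd; split_ifs <;> norm_num
    · exact hm0 m (not_lt.1 h) p hp

end Vale.Agent.P151
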