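import Mathlib

/-!
Chebyshev filtering for a self-adjoint contraction of a real inner product space.
-/

namespace Vale.Agent.P151

open scoped InnerProductSpace
open Finset
open scoped Classical

/-- Chebyshev polynomials of the first kind, evaluated in a ring. -/
def cheb {R : Type*} [Ring R] (u : R) : ℕ → R
  | 0 => 1
  | 1 => u
  | n + 2 => 2 * u * cheb u (n + 1) - cheb u n

lemma cheb_cos (t : ℝ) : ∀ n : ℕ, cheb (Real.cos t) n = Real.cos (n * t) := by
  intro n
  induction n using Nat.twoStepInduction with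
  | zero => simp [cheb]
  | one => simp [cheb]
  | more n ih1 ih2 =>
    rw [cheb, ih1, ih2]
    push_cast
    have h1 := Real.cos_add ((n + 1) * t) t
    have h2 := Real.cos_sub ((n + 1) * t) t
    rw [show ((n : ℝ) + 1) * t + t = (n + 2) * t by ring] at h1
    rw [show ((n : ℝ) + 1) * t - t = n * t by ring] at h2
    linear_combination -h1 - h2

lemma cheb_cosh (t : ℝ) : ∀ n : ℕ, cheb (Real.cosh t) n = Real.cosh (n * t) := by
  intro n
  induction n using Nat.twoStepInduction with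
  | zero => simp [cheb]
  | one => simp [cheb]
  | more n ih1 ih2 =>
    rw [cheb, ih1, ih2]
    push_cast
    have h1 := Real.cosh_add ((n + 1) * t) t
    have h2 := Real.cosh_sub ((n + 1) * t) t
    rw [show ((n : ℝ) + 1) * t + t = (n + 2) * t by ring] at h1
    rw [show ((n : ℝ) + 1) * t - t = n * t by ring] at h2
    linear_combination -h1 - h2

lemma abs_cheb_le_one {u : ℝ} (h1 : -1 ≤ u) (h2 : u ≤ 1) (n : ℕ) : |cheb u n| ≤ 1 := by
  rw [← Real.cos_arccos h1 h2, cheb_cos]
  exact Real.abs_cos_le_one _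

lemma abs_cheb_le {u u0 : ℝ} (h1 : -1 ≤ u) (h2 : u ≤ u0) (h0 : 1 ≤ u0) (n : ℕ) :
    |cheb u n| ≤ cheb u0 n := by
  rcases le_total u 1 with hu | hu
  · refine (abs_cheb_le_one h1 hu n).trans ?_
    rw [← Real.cosh_arcosh h0, cheb_cosh]
    exact Real.one_le_cosh _
  · have hab : Real.arcosh u ≤ Real.arcosh u0 := by
      rcases eq_or_lt_of_le h2 with rfl | hlt
      · exact le_rfl
      · by_contra hc
        rw [not_le] at hc
        have hlt' : Real.cosh (Real.arcosh u0) < Real.cosh (Real.arcosh u) := by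
          rw [Real.cosh_lt_cosh, abs_of_nonneg (Real.arcosh_nonneg h0),
            abs_of_nonneg (Real.arcosh_nonneg hu)]
          exact hc
        rw [Real.cosh_arcosh h0, Real.cosh_arcosh hu] at hlt'
        linarith
    rw [← Real.cosh_arcosh h0, ← Real.cosh_arcosh hu, cheb_cosh, cheb_cosh,
      abs_of_pos (Real.cosh_pos _), Real.cosh_le_cosh,
      abs_of_nonneg (mul_nonneg (Nat.cast_nonneg n) (Real.arcosh_nonneg hu)),
      abs_of_nonneg (mul_nonneg (Nat.cast_nonneg n) (Real.arcosh_nonneg h0))]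
    exact mul_le_mul_of_nonneg_left hab (Nat.cast_nonneg n)

/-- The point `2 / a - 1` with `a = 1 - δ` has a large Chebyshev value. -/
lemma exp_le_cheb {δ : ℝ} (h0 : 0 < δ) (h1 : δ ≤ 1 / 2) (n : ℕ) :
    Real.exp (n * Real.sqrt δ) / 2 ≤ cheb (2 / (1 - δ) - 1) n := by
  set u0 := 2 / (1 - δ) - 1 with hu0
  have hge : 1 + 2 * δ ≤ u0 := by
    rw [hu0]
    have hpos : (0 : ℝ) < 1 - δ := by linarith
    rw [le_sub_iff_add_le, le_div_iff₀ hpos]
    nlinarith
  have h1u : 1 ≤ u0 := by linarith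
  have hcs : Real.cosh (Real.sqrt δ) ≤ u0 := by
    have h2 := Real.cosh_le_exp_half_sq (Real.sqrt δ)
    rw [Real.sq_sqrt h0.le] at h2
    have h3 : Real.exp (δ / 2) ≤ 1 + 2 * δ := by
      have h4 := Real.abs_exp_sub_one_le (show |δ / 2| ≤ 1 by rw [abs_le]; constructor <;> linarith)
      rw [abs_le, abs_of_pos (by linarith : (0 : ℝ) < δ / 2)] at h4
      linarith [h4.2]
    linarith
  have ht : Real.sqrt δ ≤ Real.arcosh u0 := by
    have : Real.cosh (Real.sqrt δ) ≤ Real.cosh (Real.arcosh u0) := by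
      rw [Real.cosh_arcosh h1u]; exact hcs
    rwa [Real.cosh_le_cosh, abs_of_nonneg (Real.sqrt_nonneg _),
      abs_of_nonneg (Real.arcosh_nonneg h1u)] at this
  rw [← Real.cosh_arcosh h1u, cheb_cosh, Real.cosh_eq]
  have h5 : Real.exp (n * Real.sqrt δ) ≤ Real.exp (n * Real.arcosh u0) :=
    Real.exp_le_exp.2 (mul_le_mul_of_nonneg_left ht (Nat.cast_nonneg n))
  have h6 := Real.exp_pos (-(n * Real.arcosh u0))
  linarith

variable {H : Type*} [NormedAddCommGroup H] [InnerProductSpace ℝ H]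

/-- The filtering operator: `cheb ((2 / (1 - δ)) A ^ 2 - 1) l`. -/
noncomputable def filterOp (A : H →ₗ[ℝ] H) (δ : ℝ) (l : ℕ) : H →ₗ[ℝ] H :=
  cheb ((2 / (1 - δ)) • A ^ 2 - 1) l

lemma cheb_eigen {A : H →ₗ[ℝ] H} {e : H} {lam : ℝ} (he : A e = lam • e) (c : ℝ) :
    ∀ n : ℕ, (cheb (c • A ^ 2 - 1 : H →ₗ[ℝ] H) n) e = (cheb (c * lam ^ 2 - 1) n) • e := by
  have hU : (c • A ^ 2 - 1 : H →ₗ[ℝ] H) e = (c * lam ^ 2 - 1) • e := by
    simp [pow_two, he, smul_smul, sub_smul, mul_assoc]
  intro n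
  induction n using Nat.twoStepInduction with
  | zero => simp [cheb]
  | one => simpa [cheb] using hU
  | more n ih1 ih2 =>
    simp only [cheb, two_mul, LinearMap.sub_apply, LinearMap.add_apply, Module.End.mul_apply,
      ih1, ih2, map_smul, hU]
    module

lemma cheb_agree {V : Submodule ℝ H} {B : V →ₗ[ℝ] V} {A : H →ₗ[ℝ] H} {v : H} {w : V}
    (D : ℕ) (hw : (w : H) = v) (hB : ∀ j ≤ D, (((B ^ j) w : V) : H) = (A ^ j) v) (c : ℝ) :
    ∀ n : ℕ, ∀ j, 2 * n + j ≤ D →
      (((cheb (c • B ^ 2 - 1 : V →ₗ[ℝ] V) n) ((B ^ j) w) : V) : H)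
        = (cheb (c • A ^ 2 - 1 : H →ₗ[ℝ] H) n) ((A ^ j) v) := by
  have hcB : ∀ n, Commute B (cheb (c • B ^ 2 - 1 : V →ₗ[ℝ] V) n) := by
    intro n
    induction n using Nat.twoStepInduction with
    | zero => simp [cheb]
    | one =>
      simp only [cheb]
      exact (((Commute.refl B).pow_right 2).smul_right c).sub_right (Commute.one_right B)
    | more n ih1 ih2 =>
      simp only [cheb]
      exact ((((Commute.ofNat_right B 2)).mul_right
        ((((Commute.refl B).pow_right 2).smul_right c).sub_right (Commute.one_right B))).mul_right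
          ih2).sub_right ih1
  have hcA : ∀ n, Commute A (cheb (c • A ^ 2 - 1 : H →ₗ[ℝ] H) n) := by
    intro n
    induction n using Nat.twoStepInduction with
    | zero => simp [cheb]
    | one =>
      simp only [cheb]
      exact (((Commute.refl A).pow_right 2).smul_right c).sub_right (Commute.one_right A)
    | more n ih1 ih2 =>
      simp only [cheb]
      exact ((((Commute.ofNat_right A 2)).mul_right
        ((((Commute.refl A).pow_right 2).smul_right c).sub_right (Commute.one_right A))).mul_right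
          ih2).sub_right ih1
  intro n
  induction n using Nat.twoStepInduction with
  | zero => intro j hj; simpa [cheb] using hB j (by omega)
  | one =>
    intro j hj
    simp only [cheb, LinearMap.sub_apply, LinearMap.smul_apply, Module.End.one_apply]
    rw [← Module.End.mul_apply, ← pow_add, ← Module.End.mul_apply, ← pow_add]
    push_cast
    rw [hB _ (by omega), hB _ (by omega)]
  | more n ih1 ih2 =>
    intro j hj
    have e1 : ∀ m, (cheb (c • B ^ 2 - 1 : V →ₗ[ℝ] V) m) ((B ^ (j + 2)) w)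
        = (B ^ 2) ((cheb (c • B ^ 2 - 1 : V →ₗ[ℝ] V) m) ((B ^ j) w)) := by
      intro m
      rw [← Module.End.mul_apply, ← Module.End.mul_apply, ← Module.End.mul_apply,
        ((hcB m).pow_left 2).eq, mul_assoc, ← pow_add, add_comm j 2]
    have e2 : ∀ m, (cheb (c • A ^ 2 - 1 : H →ₗ[ℝ] H) m) ((A ^ (j + 2)) v)
        = (A ^ 2) ((cheb (c • A ^ 2 - 1 : H →ₗ[ℝ] H) m) ((A ^ j) v)) := by
      intro m
      rw [← Module.End.mul_apply, ← Module.End.mul_apply, ← Module.End.mul_apply,
        ((hcA m).pow_left 2).eq, mul_assoc, ← pow_add, add_comm j 2]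
    have k1 := ih2 (j + 2) (by omega)
    rw [e1, e2] at k1
    simp only [cheb, LinearMap.sub_apply, Module.End.mul_apply, two_mul, LinearMap.add_apply,
      LinearMap.smul_apply, Module.End.one_apply]
    push_cast
    rw [k1, ih1 j (by omega), ih2 j (by omega)]

/-- The filtered vector has small norm unless the high moments are large. -/
theorem norm_filter_le (A : H →ₗ[ℝ] H) (hsym : A.IsSymmetric) (hA : ∀ u, ‖A u‖ ≤ ‖u‖)
    (v : H) {δ : ℝ} (h0 : 0 < δ) (h1 : δ ≤ 1 / 2) (l k : ℕ) :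
    ‖filterOp A δ l v‖ ^ 2 / cheb (2 / (1 - δ) - 1) l ^ 2
      ≤ 4 * Real.exp (-(2 * l * Real.sqrt δ)) * ‖v‖ ^ 2
        + ⟪v, (A ^ (2 * k)) v⟫_ℝ / (1 - δ) ^ k := by
  set D := 2 * l + 2 * k with hD
  let V : Submodule ℝ H :=
    Submodule.span ℝ (((Finset.range (D + 1)).image fun j => (A ^ j) v : Finset H) : Set H)
  have : FiniteDimensional ℝ V := FiniteDimensional.span_finset ℝ _
  have hmem : ∀ j ≤ D, (A ^ j) v ∈ V := fun j hj =>
    Submodule.subset_span (Finset.mem_coe.2
      (Finset.mem_image_of_mem (fun j => (A ^ j) v) (Finset.mem_range.2 (Nat.lt_succ_of_le hj))))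
  let B : V →ₗ[ℝ] V := (V.orthogonalProjection : H →ₗ[ℝ] V) ∘ₗ A ∘ₗ V.subtype
  have hBs : B.IsSymmetric := by
    intro x y
    have e1 : ⟪B x, y⟫_ℝ = ⟪A (x : H), (y : H)⟫_ℝ :=
      Submodule.inner_orthogonalProjection_eq_of_mem_right y (A (x : H))
    have e2 : ⟪x, B y⟫_ℝ = ⟪(x : H), A (y : H)⟫_ℝ :=
      Submodule.inner_orthogonalProjection_eq_of_mem_left x (A (y : H))
    rw [e1, e2]
    exact hsym _ _
  let w : V := ⟨v, by simpa using hmem 0 (Nat.zero_le _)⟩
  have hpow : ∀ j ≤ D, (((B ^ j) w : V) : H) = (A ^ j) v := by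
    intro j
    induction j with
    | zero => intro _; simp [w]
    | succ j ih =>
      intro hj
      rw [pow_succ', Module.End.mul_apply, pow_succ', Module.End.mul_apply]
      change ((V.orthogonalProjection (A (((B ^ j) w : V) : H))) : H) = _
      rw [ih (by omega)]
      exact Submodule.starProjection_eq_self_iff.2 (by
        have := hmem (j + 1) hj
        rwa [pow_succ', Module.End.mul_apply] at this)
  have hn : Module.finrank ℝ V = Module.finrank ℝ V := rfl
  set b := hBs.eigenvectorBasis hn with hb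
  set lam := hBs.eigenvalues hn with hlam
  have heig : ∀ i, B (b i) = lam i • b i := fun i => hBs.apply_eigenvectorBasis hn i
  have hlam1 : ∀ i, lam i ^ 2 ≤ 1 := by
    intro i
    have h2 : ‖B (b i)‖ ≤ ‖b i‖ :=
      ((V.norm_orthogonalProjection_apply_le (A (b i : H))).trans (hA _)).trans_eq rfl
    rw [heig, norm_smul, b.orthonormal.1 i, mul_one, Real.norm_eq_abs] at h2
    exact (sq_le_one_iff_abs_le_one _).2 h2
  have hexp : ∀ (T : V →ₗ[ℝ] V) (μ : Fin (Module.finrank ℝ V) → ℝ),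
      (∀ i, T (b i) = μ i • b i) → ∀ u : V, ‖T u‖ ^ 2 = ∑ i, μ i ^ 2 * (b.repr u i) ^ 2 := by
    intro T μ hT u
    have hu : T u = ∑ i, (μ i * b.repr u i) • b i := by
      conv_lhs => rw [← b.sum_repr u, map_sum]
      refine Finset.sum_congr rfl fun i _ => ?_
      rw [map_smul, hT, smul_smul, mul_comm]
    rw [← real_inner_self_eq_norm_sq, hu, b.orthonormal.inner_sum]
    refine Finset.sum_congr rfl fun i _ => ?_
    simp only [conj_trivial]
    ring
  set u0 := 2 / (1 - δ) - 1 with hu0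
  have hδ : (0 : ℝ) < 1 - δ := by linarith
  have hu1 : 1 ≤ u0 := by
    rw [hu0, le_sub_iff_add_le, le_div_iff₀ hδ]; linarith
  have hC := exp_le_cheb h0 h1 l
  have hCpos : 0 < cheb u0 l := lt_of_lt_of_le (by positivity) hC
  have hAB : ‖filterOp A δ l v‖ = ‖cheb ((2 / (1 - δ)) • B ^ 2 - 1 : V →ₗ[ℝ] V) l w‖ := by
    have := cheb_agree (B := B) (A := A) (v := v) (w := w) D rfl hpow (2 / (1 - δ)) l 0 (by omega)
    simp only [pow_zero, Module.End.one_apply] at this
    rw [filterOp, ← this, Submodule.coe_norm]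
  have hBk : ⟪v, (A ^ (2 * k)) v⟫_ℝ = ‖(B ^ k) w‖ ^ 2 := by
    rw [← real_inner_self_eq_norm_sq, ← (hBs.pow k) w ((B ^ k) w) |>.symm,
      ← Module.End.mul_apply, ← pow_add, ← two_mul, Submodule.coe_inner, hpow _ (by omega)]
  have hpowB : ∀ i, (B ^ k) (b i) = lam i ^ k • b i := by
    intro i
    have hgen : ∀ j : ℕ, (B ^ j) (b i) = lam i ^ j • b i := by
      intro j
      induction j with
      | zero => simp
      | succ j ih =>
        rw [pow_succ', Module.End.mul_apply, ih, map_smul, heig, smul_smul, ← pow_succ]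
    exact hgen k
  rw [hBk, hAB, show ‖v‖ = ‖(LinearMap.id : V →ₗ[ℝ] V) w‖ from rfl,
    hexp _ _ (fun i => cheb_eigen (heig i) _ l) w, hexp _ _ hpowB w,
    hexp (LinearMap.id) (fun _ => 1) (fun i => by simp) w, Finset.sum_div, Finset.mul_sum,
    Finset.sum_div, ← Finset.sum_add_distrib]
  refine Finset.sum_le_sum fun i _ => ?_
  have hz := sq_nonneg (b.repr w i)
  set z := (b.repr w i) ^ 2
  set q := cheb (2 / (1 - δ) * lam i ^ 2 - 1) l with hq
  have hlow : -1 ≤ 2 / (1 - δ) * lam i ^ 2 - 1 := by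
    have : 0 ≤ 2 / (1 - δ) * lam i ^ 2 := by positivity
    linarith
  have hpos2 : 0 ≤ 4 * Real.exp (-(2 * l * Real.sqrt δ)) * (1 ^ 2 * z) := by positivity
  have hpos3 : 0 ≤ (lam i ^ k) ^ 2 * z / (1 - δ) ^ k := by positivity
  rcases le_or_gt (lam i ^ 2) (1 - δ) with hsmall | hlarge
  · have hq1 : |q| ≤ 1 := by
      refine abs_cheb_le_one hlow ?_ l
      rw [sub_le_iff_le_add, div_mul_eq_mul_div, div_le_iff₀ hδ]
      linarith
    have hq2 : q ^ 2 ≤ 1 := (sq_le_one_iff_abs_le_one _).2 hq1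
    have hC2 : (Real.exp (l * Real.sqrt δ) / 2) ^ 2 ≤ cheb u0 l ^ 2 :=
      pow_le_pow_left₀ (by positivity) hC 2
    have : q ^ 2 * z / cheb u0 l ^ 2 ≤ 4 * Real.exp (-(2 * l * Real.sqrt δ)) * (1 ^ 2 * z) := by
      rw [div_le_iff₀ (by positivity)]
      have hee : 4 * Real.exp (-(2 * l * Real.sqrt δ)) * (Real.exp (l * Real.sqrt δ) / 2) ^ 2
          = 1 := by
        rw [div_pow, ← Real.exp_nat_mul]
        rw [show 4 * Real.exp (-(2 * (l : ℝ) * Real.sqrt δ))
          * (Real.exp ((2 : ℕ) * ((l : ℝ) * Real.sqrt δ)) / 2 ^ 2)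
          = Real.exp (-(2 * (l : ℝ) * Real.sqrt δ)) * Real.exp ((2 : ℕ) * ((l : ℝ) * Real.sqrt δ))
            by ring, ← Real.exp_add]
        rw [Real.exp_eq_one_iff]; push_cast; ring
      calc q ^ 2 * z ≤ 1 * z := mul_le_mul_of_nonneg_right hq2 hz
        _ = 4 * Real.exp (-(2 * l * Real.sqrt δ)) * (1 ^ 2 * z)
              * (Real.exp (l * Real.sqrt δ) / 2) ^ 2 := by
            linear_combination (-z) * hee
        _ ≤ _ := mul_le_mul_of_nonneg_left hC2 hpos2
    linarith
  · have hq1 : |q| ≤ cheb u0 l := by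
      refine abs_cheb_le hlow ?_ hu1 l
      rw [hu0]
      have := mul_le_mul_of_nonneg_left (hlam1 i) (show (0 : ℝ) ≤ 2 / (1 - δ) by positivity)
      linarith
    have hq2 : q ^ 2 ≤ cheb u0 l ^ 2 := by
      rw [← sq_abs q]; exact pow_le_pow_left₀ (abs_nonneg _) hq1 2
    have hl2 : (1 - δ) ^ k ≤ (lam i ^ k) ^ 2 := by
      rw [← pow_mul, mul_comm, pow_mul]; exact pow_le_pow_left₀ hδ.le hlarge.le k
    have : q ^ 2 * z / cheb u0 l ^ 2 ≤ (lam i ^ k) ^ 2 * z / (1 - δ) ^ k := by
      calc q ^ 2 * z / cheb u0 l ^ 2 ≤ z := by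
            rw [div_le_iff₀ (by positivity), mul_comm z]
            exact mul_le_mul_of_nonneg_right hq2 hz
        _ ≤ _ := by
            rw [le_div_iff₀ (by positivity), mul_comm z]
            exact mul_le_mul_of_nonneg_right hl2 hz
    linarith

end Vale.Agent.P151
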