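import Vale.Agent.P151.Local

/-!
The exploration martingale of a finite cluster.
-/

namespace Vale.Agent.P151

open MeasureTheory SimpleGraph Finset Vale.Agent.P165
open scoped Classical

set_option linter.unusedSectionVars false

variable {V : Type*} {G : SimpleGraph V}

/-- Edges of `U` touching the cluster of `x` in `a`. -/
noncomputable def touching (G : SimpleGraph V) (x : V) (U a : Finset (Sym2 V)) :
    Finset (Sym2 V) :=
  U.filter fun e => ∃ v ∈ e, v ∈ Cl G (↑a) x

lemma cl_mono {ω ω' : Set (Sym2 V)} (h : ω ⊆ ω') (x : V) : Cl G ω x ⊆ Cl G ω' x :=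
  fun _ hy => Reachable.mono (openGraph_mono h) hy

lemma explore (x : V) (p : unitInterval) :
    ∀ (k : ℕ) (U O : Finset (Sym2 V)) (z : ℝ),
      P165.expect (p : ℝ) U (fun a => if #(touching G x U (O ∪ a)) ≤ k then
        (z + ∑ e ∈ touching G x U (O ∪ a), ((p : ℝ) - if e ∈ a then 1 else 0)) ^ 2 else 0)
        ≤ z ^ 2 + k * ((p : ℝ) * (1 - p)) := by
  intro k
  induction k with
  | zero =>
    intro U O z
    refine (P165.expect_mono (g := fun _ => z ^ 2) p.2.1 p.2.2 fun a _ => ?_).trans
      (le_of_eq (by rw [P165.expect_const]; simp))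
    split_ifs with h
    · rw [Finset.card_eq_zero.1 (Nat.le_zero.1 h)]; simp
    · positivity
  | succ k ih =>
    intro U O z
    have hpq : 0 ≤ (p : ℝ) * (1 - p) := mul_nonneg p.2.1 (by linarith [p.2.2])
    rcases (touching G x U O).eq_empty_or_nonempty with hemp | ⟨e, he⟩
    · have hI : ∀ a ⊆ U, touching G x U (O ∪ a) = ∅ := by
        intro a ha
        have hcl : Cl G (↑(O ∪ a)) x = Cl G (↑O) x := cl_congr fun u hu v huv => by
          simp only [Finset.coe_union, Set.mem_union, Finset.mem_coe]
          refine ⟨Or.inl, fun h => h.resolve_right fun hm => ?_⟩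
          have : s(u, v) ∈ touching G x U O :=
            Finset.mem_filter.2 ⟨ha hm, u, Sym2.mem_mk_left _ _, hu⟩
          simp [hemp] at this
        rw [touching, hcl]
        exact hemp
      rw [P165.expect_congr (g := fun _ => z ^ 2) fun a ha => by simp [hI a ha], P165.expect_const]
      have : (0 : ℝ) ≤ (k + 1 : ℕ) * ((p : ℝ) * (1 - p)) := by positivity
      linarith
    · rw [touching, Finset.mem_filter] at he
      obtain ⟨heU, v, hve, hv⟩ := he
      have hn : e ∉ U.erase e := notMem_erase e U
      have hU : insert e (U.erase e) = U := insert_erase heU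
      have hins : ∀ b : Finset (Sym2 V), O ⊆ b →
          touching G x U b = insert e (touching G x (U.erase e) b) := by
        intro b hb
        have : ∃ v ∈ e, v ∈ Cl G (↑b) x := ⟨v, hve, cl_mono (Finset.coe_subset.2 hb) x hv⟩
        conv_lhs => rw [touching, ← hU, Finset.filter_insert, if_pos this]
        rfl
      have hni : ∀ b, e ∉ touching G x (U.erase e) b := fun b h =>
        hn (Finset.mem_filter.1 h).1
      conv_lhs => rw [← hU, P165.expect_insert hn]
      rw [hU]
      have h0 := ih (U.erase e) O (z + p)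
      have h1 := ih (U.erase e) (insert e O) (z + (p - 1))
      have e0 : P165.expect (p : ℝ) (U.erase e)
          (fun a => if #(touching G x U (O ∪ a)) ≤ k + 1 then
            (z + ∑ e ∈ touching G x U (O ∪ a), ((p : ℝ) - if e ∈ a then 1 else 0)) ^ 2 else 0)
          = P165.expect (p : ℝ) (U.erase e)
          (fun a => if #(touching G x (U.erase e) (O ∪ a)) ≤ k then
            (z + p + ∑ e ∈ touching G x (U.erase e) (O ∪ a),
              ((p : ℝ) - if e ∈ a then 1 else 0)) ^ 2 else 0) := by
        refine P165.expect_congr fun a ha => ?_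
        rw [hins _ Finset.subset_union_left, Finset.card_insert_of_notMem (hni _),
          Finset.sum_insert (hni _), if_neg (fun h => hn (ha h))]
        simp only [Nat.add_le_add_iff_right, sub_zero, add_assoc]
      have e1 : P165.expect (p : ℝ) (U.erase e)
          (fun a => if #(touching G x U (O ∪ insert e a)) ≤ k + 1 then
            (z + ∑ e' ∈ touching G x U (O ∪ insert e a),
              ((p : ℝ) - if e' ∈ insert e a then 1 else 0)) ^ 2 else 0)
          = P165.expect (p : ℝ) (U.erase e)
          (fun a => if #(touching G x (U.erase e) (insert e O ∪ a)) ≤ k then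
            (z + (p - 1) + ∑ e' ∈ touching G x (U.erase e) (insert e O ∪ a),
              ((p : ℝ) - if e' ∈ a then 1 else 0)) ^ 2 else 0) := by
        refine P165.expect_congr fun a _ => ?_
        have hu : O ∪ insert e a = insert e O ∪ a := by
          rw [Finset.union_insert, Finset.insert_union]
        have hrest : ∀ e' ∈ touching G x (U.erase e) (insert e O ∪ a),
            (((p : ℝ) - if e' ∈ insert e a then 1 else 0))
              = ((p : ℝ) - if e' ∈ a then 1 else 0) := by
          intro e' h'
          have : e' ≠ e := fun h => hni _ (h ▸ h')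
          simp [this]
        rw [hins _ Finset.subset_union_left, hu, Finset.card_insert_of_notMem (hni _),
          Finset.sum_insert (hni _), if_pos (Finset.mem_insert_self e a), Finset.sum_congr rfl hrest]
        simp only [Nat.add_le_add_iff_right, add_assoc]
      rw [e0, e1]
      calc _ ≤ (1 - (p : ℝ)) * ((z + p) ^ 2 + k * ((p : ℝ) * (1 - p)))
            + (p : ℝ) * ((z + (p - 1)) ^ 2 + k * ((p : ℝ) * (1 - p))) :=
          add_le_add (mul_le_mul_of_nonneg_left h0 (by linarith [p.2.2]))
            (mul_le_mul_of_nonneg_left h1 p.2.1)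
        _ = _ := by push_cast; ring

variable [G.LocallyFinite]

/-- The cluster of `x` as a finite set, when it is small. -/
noncomputable def clF (G : SimpleGraph V) [G.LocallyFinite] (m : ℕ) (ω : Set (Sym2 V)) (x : V) :
    Finset V :=
  (ballF G m x).filter fun y => y ∈ Cl G ω x

lemma coe_clF {m : ℕ} {ω : Set (Sym2 V)} {x : V} (h : Small G m ω x) :
    (clF G m ω x : Set V) = Cl G ω x := by
  ext y
  simp only [clF, Finset.coe_filter, Set.mem_setOf_eq]
  exact ⟨fun hy => hy.2, fun hy => ⟨cl_subset_ball h y hy, hy⟩⟩

lemma card_clF {m : ℕ} {ω : Set (Sym2 V)} {x : V} (h : Small G m ω x) :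
    #(clF G m ω x) = (Cl G ω x).ncard := by
  rw [← coe_clF h, Set.ncard_coe_finset]

/-- The imbalance between closed and open edges at a small cluster. -/
noncomputable def imbalance (G : SimpleGraph V) [G.LocallyFinite] (p : unitInterval) (m : ℕ)
    (x : V) (ω : Set (Sym2 V)) : ℝ :=
  if Small G m ω x then ∑ e ∈ edgesAt G (clF G m ω x), ((p : ℝ) - if e ∈ ω then 1 else 0) else 0

lemma loc_imbalance (p : unitInterval) (m : ℕ) (x : V) : Loc G (imbalance G p m x) := by
  obtain ⟨E0, hE0, h0⟩ := loc_small (G := G) m x
  refine ⟨E0 ∪ edgesAt G (ballF G m x), ?_, fun ω ω' h => ?_⟩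
  · rw [Finset.coe_union]; exact Set.union_subset hE0 (edgesAt_subset _)
  have hs : Small G m ω x = Small G m ω' x := h0 ω ω' fun e he => h e (Finset.mem_union_left _ he)
  unfold imbalance
  by_cases hsm : Small G m ω x
  · have hsm' : Small G m ω' x := hs ▸ hsm
    have hcl : Cl G ω' x = Cl G ω x := cl_congr fun a ha b hab =>
      h _ (Finset.mem_union_right _ ((mem_edgesAt G).2 ⟨hab, Or.inl (cl_subset_ball hsm a ha)⟩))
    have hF : clF G m ω' x = clF G m ω x := by rw [clF, clF, hcl]
    rw [if_pos hsm, if_pos hsm', hF]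
    refine Finset.sum_congr rfl fun e he => ?_
    have : e ∈ ω ↔ e ∈ ω' := h e (Finset.mem_union_right _ (by
      revert he
      induction e using Sym2.ind with
      | h a b =>
        rw [mem_edgesAt, mem_edgesAt]
        exact fun ⟨hab, ho⟩ => ⟨hab, ho.imp (fun ha => (Finset.mem_filter.1 ha).1)
          fun ha => (Finset.mem_filter.1 ha).1⟩))
    simp [this]
  · rw [if_neg hsm, if_neg (show ¬Small G m ω' x from hs ▸ hsm)]

lemma card_edgesAt_le {d : ℕ} (hd : ∀ v, #(G.neighborFinset v) ≤ d) (B : Finset V) :
    #(edgesAt G B) ≤ #B * d := by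
  unfold edgesAt
  refine Finset.card_biUnion_le.trans ?_
  calc _ ≤ ∑ _v ∈ B, d := Finset.sum_le_sum fun v _ => Finset.card_image_le.trans (hd v)
    _ = _ := by rw [Finset.sum_const, smul_eq_mul]

/-- The imbalance of a cluster with fewer than `m` vertices is of order `√(d m)`. -/
lemma ex_abs_imbalance_le {d : ℕ} (hd : ∀ v, #(G.neighborFinset v) ≤ d) (p : unitInterval)
    (m : ℕ) (x : V) : Ex G p (fun ω => |imbalance G p m x ω|) ≤ Real.sqrt (d * m) := by
  set E := edgesAt G (ballF G m x) with hEdef
  have hsq : Ex G p (fun ω => imbalance G p m x ω ^ 2) ≤ (m * d : ℕ) := by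
    obtain ⟨E0, hE0, h0⟩ := loc_imbalance (G := G) p m x
    set U := E0 ∪ E with hUdef
    have hU : (U : Set (Sym2 V)) ⊆ G.edgeSet := by
      rw [hUdef, Finset.coe_union]; exact Set.union_subset hE0 (edgesAt_subset _)
    rw [ex_eq p hU fun a b c => by rw [h0 a b fun e he => c e (Finset.mem_union_left _ he)]]
    refine (P165.expect_mono p.2.1 p.2.2 (g := fun a =>
      if #(touching G x U (∅ ∪ a)) ≤ m * d then
        (0 + ∑ e ∈ touching G x U (∅ ∪ a), ((p : ℝ) - if e ∈ a then 1 else 0)) ^ 2 else 0)
      fun a _ => ?_).trans ((explore x p (m * d) U ∅ 0).trans ?_)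
    · unfold imbalance
      by_cases hs : Small G m (↑a : Set (Sym2 V)) x
      · have hI : touching G x U (∅ ∪ a) = edgesAt G (clF G m (↑a) x) := by
          rw [Finset.empty_union]
          ext e
          induction e using Sym2.ind with
          | h u v =>
            rw [mem_edgesAt, touching, Finset.mem_filter, ← coe_clF hs]
            simp only [Sym2.mem_iff, Finset.mem_coe, exists_eq_or_imp, exists_eq_left]
            refine ⟨fun h => ⟨hU h.1, h.2⟩, fun h => ⟨?_, h.2⟩⟩
            exact Finset.mem_union_right _ ((mem_edgesAt G).2 ⟨h.1,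
              h.2.imp (fun ha => (Finset.mem_filter.1 ha).1) fun ha => (Finset.mem_filter.1 ha).1⟩)
        have hk : #(edgesAt G (clF G m (↑a) x)) ≤ m * d :=
          (card_edgesAt_le hd _).trans (Nat.mul_le_mul_right d (card_clF hs ▸ hs.2.le))
        rw [if_pos hs, hI, if_pos hk]
        simp
      · rw [if_neg hs]
        simp only [ne_eq, OfNat.ofNat_ne_zero, not_false_eq_true, zero_pow]
        split_ifs
        · exact sq_nonneg _
        · exact le_rfl
    · have h1 : (p : ℝ) * (1 - p) ≤ 1 := by nlinarith [p.2.1, p.2.2]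
      have := mul_le_mul_of_nonneg_left h1 (Nat.cast_nonneg (α := ℝ) (m * d))
      linarith
  rcases (Nat.eq_zero_or_pos (m * d)) with h0 | h0
  · have hz : ∀ ω, imbalance G p m x ω = 0 := by
      intro ω
      unfold imbalance
      split_ifs with hs
      · have h1 := card_edgesAt_le hd (clF G m ω x)
        have h2 : #(clF G m ω x) * d ≤ m * d := Nat.mul_le_mul_right d (card_clF hs ▸ hs.2.le)
        rw [Finset.card_eq_zero.1 (Nat.le_zero.1 (h1.trans (h2.trans h0.le)))]
        simp
      · rfl
    simp only [hz, abs_zero, ex_const]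
    exact Real.sqrt_nonneg _
  set t := Real.sqrt (d * m) with ht
  have hdm : (0 : ℝ) < d * m := by
    rw [mul_comm]; exact_mod_cast h0
  have htpos : 0 < t := Real.sqrt_pos.2 hdm
  have htt : t * t = d * m := Real.mul_self_sqrt hdm.le
  have hloc := loc_imbalance (G := G) p m x
  calc Ex G p (fun ω => |imbalance G p m x ω|)
      ≤ Ex G p (fun ω => 1 / (2 * t) * imbalance G p m x ω ^ 2 + t / 2) := by
        refine ex_mono p (hloc.comp fun r => |r|)
          ((hloc.comp fun r => 1 / (2 * t) * r ^ 2 + t / 2)) fun ω => ?_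
        rw [div_mul_eq_mul_div, one_mul, div_add_div _ _ (by positivity) two_ne_zero,
          le_div_iff₀ (by positivity)]
        nlinarith [sq_nonneg (|imbalance G p m x ω| - t), sq_abs (imbalance G p m x ω)]
    _ = 1 / (2 * t) * Ex G p (fun ω => imbalance G p m x ω ^ 2) + t / 2 := by
        rw [ex_add p (hloc.comp fun r => 1 / (2 * t) * r ^ 2) (loc_const _),
          ex_mul p (hloc.comp fun r => r ^ 2), ex_const]
    _ ≤ 1 / (2 * t) * (m * d : ℕ) + t / 2 := by
        have := mul_le_mul_of_nonneg_left hsq (show (0 : ℝ) ≤ 1 / (2 * t) by positivity)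
        linarith
    _ = t := by
        push_cast
        field_simp
        linarith

end Vale.Agent.P151
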