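import Vale.Agent.P151.TwoGhost

/-!
Gluing along a path, and the second moment of the indicator of a middle-sized cluster.
-/

namespace Vale.Agent.P151

open MeasureTheory SimpleGraph Finset Vale.Agent.P165
open scoped Classical InnerProductSpace

set_option linter.unusedSectionVars false

variable {V : Type*} {G : SimpleGraph V}

lemma mid_pull (σ : G ≃g G) (n : ℕ) (ω : Set (Sym2 V)) (x : V) :
    Mid G n (pull σ ω) x ↔ Mid G n ω (σ x) := by simp only [Mid, small_pull]

/-- Indicator of a middle-sized cluster containing two given vertices. -/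
noncomputable def midConn (G : SimpleGraph V) (n : ℕ) (x y : V) (ω : Set (Sym2 V)) : ℝ :=
  if Mid G n ω x ∧ Conn G ω x y then 1 else 0

/-- Indicator of a middle-sized cluster. -/
noncomputable def midInd (G : SimpleGraph V) (n : ℕ) (x : V) (ω : Set (Sym2 V)) : ℝ :=
  if Mid G n ω x then 1 else 0

/-- A big cluster at `a`, a middle-sized one at `b`, not connected. -/
def splitEvent (G : SimpleGraph V) (n : ℕ) (a b : V) (ω : Set (Sym2 V)) : Prop :=
  ¬Small G n ω a ∧ Mid G n ω b ∧ ¬Conn G ω a b

variable [G.LocallyFinite]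

lemma loc_mid (n : ℕ) (x : V) : Loc G fun ω => Mid G n ω x :=
  (loc_small n x).comp₂ (loc_small (2 * n) x) fun a b : Prop => ¬a ∧ b

lemma loc_midInd (n : ℕ) (x : V) : Loc G (midInd G n x) :=
  (loc_mid n x).comp fun a : Prop => if a then (1 : ℝ) else 0

lemma loc_midConn (n : ℕ) (x y : V) : Loc G (midConn G n x y) := by
  have h := (loc_mid (G := G) n x).comp₂
    (loc_cluster (G := G) (2 * n) x (fun C => y ∈ C) False)
    fun a b : Prop => if a ∧ b then (1 : ℝ) else 0
  convert h using 2 with ω
  unfold midConn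
  by_cases hs : Small G (2 * n) ω x
  · simp only [hs, if_true]; rfl
  · simp [Mid, hs]

lemma loc_split (n : ℕ) (a b : V) : Loc G fun ω => if splitEvent G n a b ω then (1 : ℝ) else 0 := by
  have h := (loc_small (G := G) n a).comp₂ ((loc_mid (G := G) n b).comp₂
    (loc_cluster (G := G) (2 * n) b (fun C => a ∈ C) False) fun m c : Prop => m ∧ ¬c)
    fun s r : Prop => if ¬s ∧ r then (1 : ℝ) else 0
  convert h using 2 with ω
  unfold splitEvent
  by_cases hs : Small G (2 * n) ω b
  · simp only [hs, if_true]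
    have : Conn G ω a b ↔ a ∈ Cl G ω b := ⟨fun h => Reachable.symm h, fun h => Reachable.symm h⟩
    simp only [this]
  · simp [Mid, hs]

section Cayley

variable {Γ : Type*} [Group Γ] (S : Finset Γ)
variable (hS : ∀ s ∈ S, s⁻¹ ∈ S) (h1 : (1 : Γ) ∉ S)
include hS h1

/-- The bound of the two-ghost inequality. -/
noncomputable def ghostBound (p : ℝ) (n : ℕ) : ℝ :=
  8 * (Real.sqrt (#S * (2 * n : ℕ)) / n) / p

lemma ghostBound_nonneg {p : ℝ} (hp : 0 ≤ p) (n : ℕ) : 0 ≤ ghostBound S p n := by
  unfold ghostBound; positivity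

lemma ex_ghost_le (p : unitInterval) (hp : 0 < (p : ℝ)) {n : ℕ} (hn : 0 < n) {a b : Γ}
    (hab : (mulCayley (S : Set Γ)).Adj a b) :
    Loc (mulCayley (S : Set Γ)) (fun ω => if ghostEvent S n a b ω then (1 : ℝ) else 0) ∧
    Ex (mulCayley (S : Set Γ)) p (fun ω => if ghostEvent S n a b ω then 1 else 0)
      ≤ ghostBound S (p : ℝ) n := by
  set G := mulCayley (S : Set Γ) with hG
  have hloc : Loc G (fun ω => if ghostEvent S n a b ω then (1 : ℝ) else 0) := by
    convert loc_split (G := G) n b a using 2 with ω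
    exact if_congr ⟨fun h => ⟨h.2.1, h.1, fun c => h.2.2 c.symm⟩,
      fun h => ⟨h.2.1, h.1, fun c => h.2.2 c.symm⟩⟩ rfl rfl
  refine ⟨hloc, ?_⟩
  have hs : a⁻¹ * b ∈ S := (cayley_adj S hS h1).1 hab
  have hpt : ∀ ω, ghostEvent S n 1 (a⁻¹ * b) (pull (leftIso S a) ω) ↔ ghostEvent S n a b ω := by
    intro ω
    simp only [ghostEvent, mid_pull, small_pull, conn_pull, leftIso_apply, mul_one,
      mul_inv_cancel_left]
  have hrw : Ex G p (fun ω => if ghostEvent S n a b ω then 1 else 0)
      = Ex G p (fun ω => if ghostEvent S n 1 (a⁻¹ * b) ω then 1 else 0) := by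
    rw [← ex_map p (ex_ghost_le_dart S hS h1 p hn hs).1 (leftIso S a)]
    congr 1
    funext ω
    exact if_congr (hpt ω).symm rfl rfl
  rw [hrw, ghostBound, le_div_iff₀ hp, mul_comm]
  exact two_ghost S hS h1 p hn hs

lemma ex_split_le (p : unitInterval) (hp : 0 < (p : ℝ)) {n : ℕ} (hn : 0 < n) :
    ∀ {a b : Γ} (w : (mulCayley (S : Set Γ)).Walk a b),
      Ex (mulCayley (S : Set Γ)) p (fun ω => if splitEvent (mulCayley (S : Set Γ)) n a b ω then 1 else 0)
        ≤ w.length * (1 / (p : ℝ)) ^ w.length * ghostBound S (p : ℝ) n := by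
  set G := mulCayley (S : Set Γ) with hG
  intro a b w
  induction w with
  | @nil u =>
    have : ∀ ω, ¬splitEvent G n u u ω := fun ω h => h.2.2 (Reachable.refl _)
    simp [this, ex_const]
  | @cons a c b hac q ih =>
    set e := s(a, c) with he
    set K := ghostBound S (p : ℝ) n with hK
    obtain ⟨hlg, hg⟩ := ex_ghost_le S hS h1 p hp hn hac.symm
    have hpt : ∀ ω, (if splitEvent G n a b ω then (1 : ℝ) else 0)
        ≤ (if ghostEvent S n c a ω then (1 : ℝ) else 0)
          + if splitEvent G n c b (insert e ω) then (1 : ℝ) else 0 := by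
      intro ω
      by_cases h : splitEvent G n a b ω
      · obtain ⟨ha, hb, hc⟩ := h
        have hnn : ∀ P : Prop, [Decidable P] → (0 : ℝ) ≤ if P then 1 else 0 := fun P _ => by
          split_ifs <;> norm_num
        rw [if_pos ⟨ha, hb, hc⟩]
        by_cases hcb : Conn G ω c b
        · have : ghostEvent S n c a ω := ⟨(mid_iff_of_conn hcb).1 hb, ha,
            fun h => hc (Reachable.trans (Reachable.symm h) hcb)⟩
          rw [if_pos this]
          exact le_add_of_nonneg_right (hnn _)
        · have hcl : Cl G (insert e ω) b = Cl G ω b := cl_congr fun u hu v huv => by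
            refine ⟨Or.inr, fun h => h.resolve_left fun he' => ?_⟩
            rcases Sym2.eq_iff.1 he' with ⟨rfl, rfl⟩ | ⟨rfl, rfl⟩
            · exact hc (Reachable.symm hu)
            · exact hcb (Reachable.symm hu)
          have hconn : Conn G (insert e ω) c a :=
            (openGraph_adj.2 ⟨Set.mem_insert _ _, hac⟩).reachable.symm
          have : splitEvent G n c b (insert e ω) := by
            refine ⟨fun hs => ha (small_anti (Set.subset_insert e ω)
              ((small_iff_of_conn hconn).2 hs)), ?_, fun h => ?_⟩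
            · simpa [Mid, Small, hcl] using hb
            · have hmem : c ∈ Cl G (insert e ω) b := Reachable.symm h
              rw [hcl] at hmem
              exact hcb (Reachable.symm hmem)
          rw [if_pos this]
          exact le_add_of_nonneg_left (hnn _)
      · rw [if_neg h]
        refine add_nonneg ?_ ?_ <;> split_ifs <;> norm_num
    have hl2 := loc_split (G := G) n c b
    have hins : Ex G p (fun ω => if splitEvent G n c b (insert e ω) then (1 : ℝ) else 0)
        ≤ 1 / (p : ℝ) * (q.length * (1 / (p : ℝ)) ^ q.length * K) := by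
      refine le_trans ?_ (mul_le_mul_of_nonneg_left ih (by positivity))
      rw [one_div, ← div_eq_inv_mul, le_div_iff₀ hp, mul_comm]
      exact ex_insert_le p hl2 (fun ω => by split_ifs <;> norm_num) (show e ∈ G.edgeSet from hac)
    calc Ex G p (fun ω => if splitEvent G n a b ω then (1 : ℝ) else 0)
        ≤ _ := ex_mono p (loc_split n a b) (hlg.comp₂ (hl2.comp_insert e) (· + ·)) hpt
      _ = Ex G p _ + Ex G p _ := ex_add p hlg (hl2.comp_insert e)
      _ ≤ K + 1 / (p : ℝ) * (q.length * (1 / (p : ℝ)) ^ q.length * K) := add_le_add hg hins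
      _ ≤ _ := by
        rw [Walk.length_cons]
        have h1p : 1 ≤ (1 / (p : ℝ)) ^ (q.length + 1) :=
          one_le_pow₀ ((one_le_div hp).2 p.2.2)
        have := mul_le_mul_of_nonneg_right h1p (ghostBound_nonneg S hS h1 hp.le n)
        push_cast
        rw [pow_succ] at this ⊢
        linarith

/-- Kernel of two points in one middle-sized cluster. -/
noncomputable def tauKer (p : unitInterval) (n : ℕ) : Ker Γ where
  k z := Ex (mulCayley (S : Set Γ)) p (midConn (mulCayley (S : Set Γ)) n 1 z)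
  symm z := by
    rw [← ex_map p (loc_midConn n 1 z⁻¹) (leftIso S z)]
    congr 1
    funext ω
    change midConn _ n 1 z⁻¹ (pull (leftIso S z) ω) = _
    simp only [midConn, mid_pull, conn_pull, leftIso_apply, mul_one, mul_inv_cancel]
    exact if_congr ⟨fun h => ⟨(mid_iff_of_conn h.2).2 h.1, Reachable.symm h.2⟩,
      fun h => ⟨(mid_iff_of_conn h.2).2 h.1, Reachable.symm h.2⟩⟩ rfl rfl
  pos f := by
    set G := mulCayley (S : Set Γ) with hG
    have htr : ∀ x y, Ex G p (midConn G n 1 (x⁻¹ * y)) = Ex G p (midConn G n x y) := by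
      intro x y
      rw [← ex_map p (loc_midConn n 1 (x⁻¹ * y)) (leftIso S x)]
      congr 1
      funext ω
      change midConn _ n 1 (x⁻¹ * y) (pull (leftIso S x) ω) = _
      simp only [midConn, mid_pull, conn_pull, leftIso_apply, mul_one, mul_inv_cancel_left]
      rfl
    simp only [form, Finsupp.sum, htr]
    have hl : ∀ x y, Loc G (fun ω => f x * f y * midConn G n x y ω) := fun x y =>
      (loc_midConn n x y).comp fun r => f x * f y * r
    simp only [← ex_mul p (loc_midConn (G := G) n _ _)]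
    simp only [← ex_sum p f.support fun y _ => hl _ y]
    rw [← ex_sum p f.support fun x _ => Loc.sum f.support fun y _ => hl x y]
    refine ex_nonneg p (Loc.sum f.support fun x _ => Loc.sum f.support fun y _ => hl x y)
      fun ω => ?_
    set s := f.support.filter fun x => Mid G n ω x with hs
    have : ∑ x ∈ f.support, ∑ y ∈ f.support, f x * f y * midConn G n x y ω
        = ∑ C ∈ s.image (Cl G ω), (∑ x ∈ s with Cl G ω x = C, f x) ^ 2 := by
      have h2 : ∀ x ∈ f.support, ∑ y ∈ f.support, f x * f y * midConn G n x y ω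
          = if Mid G n ω x then f x * ∑ y ∈ s with Cl G ω y = Cl G ω x, f y else 0 := by
        intro x _
        by_cases hx : Mid G n ω x
        · rw [if_pos hx, Finset.mul_sum, hs, Finset.filter_filter, Finset.sum_filter]
          refine Finset.sum_congr rfl fun y _ => ?_
          simp only [midConn, hx, true_and]
          by_cases hc : Conn G ω x y
          · rw [if_pos hc, if_pos ⟨(mid_iff_of_conn hc).2 hx, cl_eq_of_conn hc⟩, mul_one]
          · rw [if_neg hc, mul_zero, if_neg]
            rintro ⟨-, h⟩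
            have : y ∈ Cl G ω y := Reachable.refl _
            rw [h] at this
            exact hc this
        · simp [midConn, hx]
      rw [Finset.sum_congr rfl h2, ← Finset.sum_filter, ← hs,
        ← Finset.sum_fiberwise_of_maps_to (g := Cl G ω) (t := s.image (Cl G ω))
          (fun x hx => Finset.mem_image_of_mem _ hx)]
      refine Finset.sum_congr rfl fun C _ => ?_
      rw [pow_two, Finset.sum_mul]
      refine Finset.sum_congr rfl fun x hx => ?_
      rw [(Finset.mem_filter.1 hx).2]
    rw [this]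
    exact Finset.sum_nonneg fun C _ => sq_nonneg _

/-- `ℓ¹` norm. -/
noncomputable def l1 (v : Γ →₀ ℝ) : ℝ := v.sum fun _ a => |a|

/-- Supported within distance `R` of the identity. -/
def Within (R : ℕ) (v : Γ →₀ ℝ) : Prop :=
  ∀ z ∈ v.support, ∃ w : (mulCayley (S : Set Γ)).Walk 1 z, w.length ≤ R

omit hS h1 in
lemma l1_eq {v : Γ →₀ ℝ} {s : Finset Γ} (h : v.support ⊆ s) : l1 v = ∑ z ∈ s, |v z| :=
  Finsupp.sum_of_support_subset v h _ fun _ _ => abs_zero

omit hS h1 in
lemma l1_add (u v : Γ →₀ ℝ) : l1 (u + v) ≤ l1 u + l1 v := by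
  rw [l1_eq (Finsupp.support_add (g₁ := u) (g₂ := v)),
    l1_eq (Finset.subset_union_left (s₁ := u.support) (s₂ := v.support)),
    l1_eq (Finset.subset_union_right (s₁ := u.support) (s₂ := v.support)),
    ← Finset.sum_add_distrib]
  exact Finset.sum_le_sum fun z _ => by rw [Finsupp.add_apply]; exact abs_add_le _ _

omit hS h1 in
lemma l1_smul (c : ℝ) (v : Γ →₀ ℝ) : l1 (c • v) = |c| * l1 v := by
  rw [l1_eq (Finsupp.support_smul (b := c) (g := v)), l1_eq (Finset.Subset.refl v.support),
    Finset.mul_sum]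
  exact Finset.sum_congr rfl fun z _ => by simp [abs_mul]

omit hS h1 in
lemma l1_sum {ι : Type*} (s : Finset ι) (v : ι → Γ →₀ ℝ) :
    l1 (∑ i ∈ s, v i) ≤ ∑ i ∈ s, l1 (v i) := by
  induction s using Finset.induction_on with
  | empty => simp [l1]
  | insert a s ha ih =>
    rw [Finset.sum_insert ha, Finset.sum_insert ha]
    exact (l1_add _ _).trans (add_le_add le_rfl ih)

omit hS h1 in
lemma l1_shiftL (g : Γ) (v : Γ →₀ ℝ) : l1 (shiftL g v) = l1 v := by
  simp only [l1, shiftL, Finsupp.lmapDomain_apply]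
  rw [Finsupp.sum_mapDomain_index_inj (mul_right_injective g)]

omit hS h1 in
lemma l1_avg (v : Γ →₀ ℝ) : l1 (avg S v) ≤ l1 v := by
  rw [avg, LinearMap.smul_apply, LinearMap.sum_apply, l1_smul, abs_of_nonneg (by positivity)]
  refine (mul_le_mul_of_nonneg_left (l1_sum _ _) (by positivity)).trans ?_
  simp only [l1_shiftL, Finset.sum_const, nsmul_eq_mul]
  rcases Nat.eq_zero_or_pos #S with h | h
  · simp [h, l1, Finsupp.sum]; exact Finset.sum_nonneg fun _ _ => abs_nonneg _
  · rw [← mul_assoc, one_div, inv_mul_cancel₀ (by exact_mod_cast h.ne'), one_mul]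

lemma within_avg {R : ℕ} {v : Γ →₀ ℝ} (h : Within S R v) : Within S (R + 1) (avg S v) := by
  intro z hz
  rw [Finsupp.mem_support_iff, avg_apply] at hz
  obtain ⟨s, hs, hne⟩ := Finset.exists_ne_zero_of_sum_ne_zero (right_ne_zero_of_mul hz)
  obtain ⟨w, hw⟩ := h _ (Finsupp.mem_support_iff.2 hne)
  have hadj : (mulCayley (S : Set Γ)).Adj 1 s := (cayley_adj S hS h1).2 (by simpa using hs)
  refine ⟨Walk.cons hadj ((w.map (leftIso S s).toHom).copy (by simp [leftIso])
    (by simp [leftIso])), ?_⟩
  simp only [Walk.length_cons, Walk.length_copy, Walk.length_map]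
  omega

omit hS h1 in
lemma within_mono {R R' : ℕ} (hR : R ≤ R') {v : Γ →₀ ℝ} (h : Within S R v) : Within S R' v :=
  fun z hz => let ⟨w, hw⟩ := h z hz; ⟨w, hw.trans hR⟩

omit hS h1 in
lemma within_add {R : ℕ} {u v : Γ →₀ ℝ} (hu : Within S R u) (hv : Within S R v) :
    Within S R (u + v) := fun z hz =>
  (Finset.mem_union.1 (Finsupp.support_add hz)).elim (hu z) (hv z)

omit hS h1 in
lemma within_smul {R : ℕ} (c : ℝ) {u : Γ →₀ ℝ} (hu : Within S R u) : Within S R (c • u) :=
  fun z hz => hu z (Finsupp.support_smul hz)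

/-- Sum of all coefficients. -/
noncomputable def mass : (Γ →₀ ℝ) →ₗ[ℝ] ℝ := Finsupp.linearCombination ℝ fun _ => (1 : ℝ)

omit hS h1 in
lemma mass_avg (hne : S.Nonempty) (v : Γ →₀ ℝ) : mass (avg S v) = mass v := by
  have hd : (#S : ℝ) ≠ 0 := by exact_mod_cast (card_pos.2 hne).ne'
  have : ∀ g, mass (shiftL g v) = mass v := by
    intro g
    simp only [mass, shiftL, Finsupp.lmapDomain_apply, Finsupp.linearCombination_mapDomain]
    rfl
  simp only [avg, LinearMap.smul_apply, LinearMap.sum_apply, map_smul, map_sum, this,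
    Finset.sum_const, smul_eq_mul, nsmul_eq_mul]
  field_simp

lemma cheb_vector (hne : S.Nonempty) {c : ℝ} (hc0 : 0 ≤ c) (hc : c ≤ 4) (l : ℕ) :
    let v := (cheb (c • avg S ^ 2 - 1 : (Γ →₀ ℝ) →ₗ[ℝ] (Γ →₀ ℝ)) l) (Finsupp.single (1 : Γ) (1 : ℝ))
    Within S (2 * l) v ∧ l1 v ≤ 11 ^ l ∧ mass v = cheb (c - 1) l := by
  set U : (Γ →₀ ℝ) →ₗ[ℝ] (Γ →₀ ℝ) := c • avg S ^ 2 - 1 with hU
  have hUv : ∀ v, U v = c • avg S (avg S v) + (-1 : ℝ) • v := by
    intro v
    simp [hU, pow_two, sub_eq_add_neg]
  have hUw : ∀ R v, Within S R v → Within S (R + 2) (U v) := by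
    intro R v hv
    rw [hUv]
    exact within_add S (within_smul S c (within_avg S hS h1 (within_avg S hS h1 hv)))
      (within_smul S _ (within_mono S (by omega) hv))
  have hUl : ∀ v, l1 (U v) ≤ 5 * l1 v := by
    intro v
    have h0 : 0 ≤ l1 v := Finset.sum_nonneg fun _ _ => abs_nonneg _
    rw [hUv]
    refine (l1_add _ _).trans ?_
    rw [l1_smul, l1_smul, abs_of_nonneg hc0]
    have := (l1_avg S (avg S v)).trans (l1_avg S v)
    have := mul_le_mul_of_nonneg_left this hc0
    have := mul_le_mul_of_nonneg_right hc h0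
    norm_num
    linarith
  have hUm : ∀ v, mass (U v) = (c - 1) * mass v := by
    intro v
    rw [hUv, map_add, map_smul, map_smul, mass_avg S hne, mass_avg S hne]
    simp [smul_eq_mul]; ring
  induction l using Nat.twoStepInduction with
  | zero =>
    refine ⟨?_, by simp [cheb, l1], by simp [cheb, mass]⟩
    intro z hz
    simp [cheb] at hz
    exact ⟨Walk.nil.copy rfl hz.symm, by simp⟩
  | one =>
    have hw : Within S 0 (Finsupp.single (1 : Γ) (1 : ℝ)) := by
      intro z hz
      simp at hz
      exact ⟨Walk.nil.copy rfl hz.symm, by simp⟩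
    refine ⟨hUw 0 _ hw, ?_, ?_⟩
    · exact (hUl _).trans (by norm_num [l1])
    · simp only [cheb]; rw [hUm]; simp [mass]
  | more n ih1 ih2 =>
    obtain ⟨hw1, hl1, hm1⟩ := ih1
    obtain ⟨hw2, hl2, hm2⟩ := ih2
    simp only [cheb, two_mul, LinearMap.sub_apply, LinearMap.add_apply, Module.End.mul_apply,
      sub_eq_add_neg, LinearMap.neg_apply]
    refine ⟨?_, ?_, ?_⟩
    · have hw1' : Within S (2 * (n + 2))
          (-((cheb U n) (Finsupp.single (1 : Γ) (1 : ℝ)))) := by
        rw [← neg_one_smul ℝ]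
        exact within_smul S _ (within_mono S (by omega) hw1)
      have hw2' := within_mono S (R' := 2 * (n + 2)) (by omega) (hUw _ _ hw2)
      rw [two_mul (n + 2)] at hw1' hw2'
      exact within_add S (within_add S hw2' hw2') hw1'
    · have h1' := hUl ((cheb U (n + 1)) (Finsupp.single (1 : Γ) (1 : ℝ)))
      rw [← neg_one_smul ℝ ((cheb U n) (Finsupp.single (1 : Γ) (1 : ℝ)))]
      refine (l1_add _ _).trans ?_
      refine (add_le_add (l1_add _ _) (le_of_eq (l1_smul _ _))).trans ?_
      norm_num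
      have : (11 : ℝ) ^ n ≤ 11 ^ (n + 1) := pow_le_pow_right₀ (by norm_num) (by omega)
      rw [pow_succ (11 : ℝ) (n + 1)]
      linarith [pow_pos (by norm_num : (0 : ℝ) < 11) (n + 1)]
    · rw [map_add, map_add, map_neg, hUm, hm1, hm2]
      ring

/-- The second moment bound. -/
theorem mid_sq_le (p : unitInterval) (hp : 0 < (p : ℝ)) (hne : S.Nonempty) {n : ℕ} (hn : 0 < n)
    {δ : ℝ} (h0 : 0 < δ) (h2 : δ ≤ 1 / 2) (l k : ℕ) :
    (Ex (mulCayley (S : Set Γ)) p (midInd (mulCayley (S : Set Γ)) n 1)) ^ 2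
      ≤ 8 * Real.exp (-(2 * l * Real.sqrt δ))
        + (2 * n + 1) * walkDist S (2 * k) 1 / (1 - δ) ^ k
        + 121 ^ l * ((4 * l : ℕ) * (1 / (p : ℝ)) ^ (4 * l) * ghostBound S (p : ℝ) n) := by
  set G := mulCayley (S : Set Γ) with hG
  set c := 2 / (1 - δ) with hc
  have hδ : (0 : ℝ) < 1 - δ := by linarith
  have hc0 : 0 ≤ c := by positivity
  have hc4 : c ≤ 4 := by rw [hc, div_le_iff₀ hδ]; linarith
  set K := tauKer S p n with hK
  set δ1 : Γ →₀ ℝ := Finsupp.single 1 1 with hδ1
  let e1 : KSp K := δ1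
  obtain ⟨hsupp, hl1, hmass⟩ := cheb_vector S hS h1 hne hc0 hc4 l
  set v := (cheb (c • avg S ^ 2 - 1 : (Γ →₀ ℝ) →ₗ[ℝ] (Γ →₀ ℝ)) l) δ1 with hv
  set C := cheb (c - 1) l with hC
  have hC2 : 1 / 2 ≤ C := by
    have hh := exp_le_cheb h0 h2 l
    have : (1 : ℝ) ≤ Real.exp (l * Real.sqrt δ) := Real.one_le_exp (by positivity)
    rw [hC, hc]
    linarith
  have hCpos : 0 < C := by linarith
  set W : Γ →₀ ℝ := (1 / C) • v with hW
  set M := Ex G p (midInd G n 1) with hM
  have hMx : ∀ x, Ex G p (midInd G n x) = M := by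
    intro x
    rw [hM, ← ex_map p (loc_midInd n 1) (leftIso S x)]
    congr 1
    funext ω
    change _ = midInd _ n 1 (pull (leftIso S x) ω)
    simp only [midInd, mid_pull, leftIso_apply, mul_one]
    rfl
  set g := fun ω => ∑ x ∈ W.support, W x * midInd G n x ω with hg
  have hlg : Loc G g := Loc.sum _ fun x _ => (loc_midInd n x).comp fun r => W x * r
  have hEg : Ex G p g = M := by
    rw [hg, ex_sum p _ fun x _ => (loc_midInd n x).comp fun r => W x * r]
    simp only [ex_mul p (loc_midInd (G := G) n _), hMx, ← Finset.sum_mul]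
    have h1' : mass W = 1 := by
      rw [hW, map_smul, hmass, smul_eq_mul]; field_simp
    have h2' : mass W = ∑ x ∈ W.support, W x := by
      simp [mass, Finsupp.linearCombination_apply, Finsupp.sum]
    rw [← h2', h1', one_mul]
  have hjen : M ^ 2 ≤ Ex G p (fun ω => g ω ^ 2) := by
    have h := ex_nonneg p (hlg.comp fun r => (r - M) ^ 2) fun ω => sq_nonneg _
    have he : (fun ω => (g ω - M) ^ 2) = fun ω => g ω ^ 2 + (-2 * M * g ω + M ^ 2) := by
      funext ω; ring
    rw [he, ex_add p (hlg.comp fun r => r ^ 2) (hlg.comp fun r => -2 * M * r + M ^ 2),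
      ex_add p (hlg.comp fun r => -2 * M * r) (loc_const _), ex_mul p hlg, ex_const, hEg] at h
    linarith
  set D := (4 * l : ℕ) * (1 / (p : ℝ)) ^ (4 * l) * ghostBound S (p : ℝ) n with hD
  set sp := fun x y ω => if splitEvent G n x y ω then (1 : ℝ) else 0 with hsp
  have hlT : ∀ x y, Loc G (fun ω => W x * W y * midConn G n x y ω + |W x| * |W y| * sp x y ω) :=
    fun x y => (loc_midConn n x y).comp₂ (loc_split n x y)
      fun a b => W x * W y * a + |W x| * |W y| * b
  have hpt : ∀ ω, g ω ^ 2 ≤ ∑ x ∈ W.support, ∑ y ∈ W.support,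
      (W x * W y * midConn G n x y ω + |W x| * |W y| * sp x y ω) := by
    intro ω
    rw [hg, pow_two, Finset.sum_mul_sum]
    refine Finset.sum_le_sum fun x _ => Finset.sum_le_sum fun y _ => ?_
    simp only [midInd, midConn, hsp]
    by_cases hx : Mid G n ω x
    · by_cases hc : Conn G ω x y
      · have hy := (mid_iff_of_conn hc).2 hx
        have : ¬splitEvent G n x y ω := fun h => h.2.2 hc
        simp [hx, hy, hc, this]
      · by_cases hy : Mid G n ω y
        · have : splitEvent G n x y ω := ⟨hx.1, hy, hc⟩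
          simp only [hx, hy, hc, this, and_false, if_true, if_false, mul_one, mul_zero, zero_add]
          rw [← abs_mul]; exact le_abs_self _
        · simp only [hx, hy, hc, and_false, if_true, if_false, mul_one, mul_zero, zero_add]
          split_ifs <;> positivity
    · simp only [hx, false_and, if_false, mul_zero, zero_mul, zero_add]
      split_ifs <;> positivity
  have hpair : ∀ x ∈ W.support, ∀ y ∈ W.support, Ex G p (sp x y) ≤ D := by
    intro x hx y hy
    obtain ⟨wx, hwx⟩ := within_smul S (1 / C) hsupp x hx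
    obtain ⟨wy, hwy⟩ := within_smul S (1 / C) hsupp y hy
    set w := wx.reverse.append wy with hw
    have hlen : w.length ≤ 4 * l := by
      rw [hw, Walk.length_append, Walk.length_reverse]; omega
    refine (ex_split_le S hS h1 p hp hn w).trans ?_
    refine mul_le_mul_of_nonneg_right ?_ (ghostBound_nonneg S hS h1 hp.le n)
    exact mul_le_mul (by exact_mod_cast hlen)
      (pow_le_pow_right₀ ((one_le_div hp).2 p.2.2) hlen) (by positivity) (by positivity)
  have hD0 : 0 ≤ D := by
    rw [hD]; exact mul_nonneg (by positivity) (ghostBound_nonneg S hS h1 hp.le n)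
  have hsum : Ex G p (fun ω => g ω ^ 2) ≤ form K.k W W + l1 W ^ 2 * D := by
    refine (ex_mono p (hlg.comp fun r => r ^ 2)
      (Loc.sum _ fun x _ => Loc.sum _ fun y _ => hlT x y) hpt).trans ?_
    rw [ex_sum p _ fun x _ => Loc.sum _ fun y _ => hlT x y]
    simp only [ex_sum p W.support fun y _ => hlT _ y]
    have hterm : ∀ x ∈ W.support, ∀ y ∈ W.support,
        Ex G p (fun ω => W x * W y * midConn G n x y ω + |W x| * |W y| * sp x y ω)
          ≤ W x * W y * K.k (x⁻¹ * y) + |W x| * |W y| * D := by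
      intro x hx y hy
      rw [ex_add p ((loc_midConn n x y).comp fun r => W x * W y * r)
        ((loc_split n x y).comp fun r => |W x| * |W y| * r),
        ex_mul p (loc_midConn n x y), ex_mul p (loc_split n x y)]
      have hk : Ex G p (midConn G n x y) = K.k (x⁻¹ * y) := by
        change _ = Ex G p (midConn G n 1 (x⁻¹ * y))
        rw [← ex_map p (loc_midConn n 1 (x⁻¹ * y)) (leftIso S x)]
        congr 1
        funext ω
        change _ = midConn _ n 1 (x⁻¹ * y) (pull (leftIso S x) ω)
        simp only [midConn, mid_pull, conn_pull, leftIso_apply, mul_one, mul_inv_cancel_left]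
        rfl
      rw [hk]
      have := mul_le_mul_of_nonneg_left (hpair x hx y hy) (show 0 ≤ |W x| * |W y| by positivity)
      linarith
    refine (Finset.sum_le_sum fun x hx => Finset.sum_le_sum fun y hy => hterm x hx y hy).trans
      (le_of_eq ?_)
    simp only [Finset.sum_add_distrib, ← Finset.sum_mul]
    rw [pow_two, ← Finset.sum_mul_sum]
    rfl
  have hform : form K.k W W ≤ ‖filterOp (avgK S K) δ l e1‖ ^ 2 / C ^ 2 := by
    have hkin : ‖filterOp (avgK S K) δ l e1‖ ^ 2 = kin K v v := by
      rw [← real_inner_self_eq_norm_sq]; rfl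
    rw [hkin, kin, hW, form_smul_left, form_comm K.k K.symm v, form_smul_left]
    have := form_idKer_self_nonneg v
    rw [le_div_iff₀ (by positivity)]
    field_simp
    linarith
  have hfilt := norm_filter_le (avgK S K) (avgK_isSymmetric S hS K) (avgK_norm_le S hne K)
    e1 h0 h2 l k
  rw [show (2 / (1 - δ) - 1) = c - 1 from rfl, ← hC] at hfilt
  have hk1 : ∀ z, K.k z ≤ 1 := by
    intro z
    change Ex G p (midConn G n 1 z) ≤ 1
    rw [← ex_const (G := G) p 1]
    exact ex_mono p (loc_midConn n 1 z) (loc_const _) fun ω => by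
      unfold midConn; split_ifs <;> norm_num
  have hnorm : ‖e1‖ ^ 2 ≤ 2 := by
    rw [← real_inner_self_eq_norm_sq]
    change kin K δ1 δ1 ≤ 2
    rw [kin, form_idKer_single, hδ1, Finsupp.single_eq_same, form,
      Finsupp.sum_single_index (by simp), Finsupp.sum_single_index (by simp)]
    have := hk1 ((1 : Γ)⁻¹ * 1)
    linarith
  have hmom : ⟪e1, (avgK S K ^ (2 * k)) e1⟫_ℝ
      ≤ (2 * n + 1) * walkDist S (2 * k) 1 := by
    change kin K δ1 (walkDist S (2 * k)) ≤ _
    rw [kin, form_idKer_single, hδ1, form, Finsupp.sum_single_index (by simp)]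
    set f := walkDist S (2 * k) with hf
    have hfmax : ∀ z, f z ≤ f 1 := fun z => walkDist_le S hS k z
    have hstep : ∑ z ∈ f.support, Ex G p (midConn G n 1 z) ≤ 2 * n := by
      rw [← ex_sum p _ fun z _ => loc_midConn n 1 z, ← ex_const (G := G) p (2 * n : ℝ)]
      refine ex_mono p (Loc.sum _ fun z _ => loc_midConn n 1 z) (loc_const _) fun ω => ?_
      by_cases hm : Mid G n ω 1
      · simp only [midConn, hm, true_and, Finset.sum_boole]
        have hsub : ((f.support.filter fun z => Conn G ω 1 z : Finset Γ) : Set Γ)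
            ⊆ Cl G ω 1 := by
          intro z hz
          simp only [Finset.coe_filter, Set.mem_setOf_eq] at hz
          exact hz.2
        have := Set.ncard_le_ncard hsub hm.2.1
        rw [Set.ncard_coe_finset] at this
        exact_mod_cast this.trans hm.2.2.le
      · simp [midConn, hm]
    have : (f.sum fun y b => 1 * b * K.k ((1 : Γ)⁻¹ * y)) ≤ 2 * n * f 1 := by
      rw [Finsupp.sum]
      calc _ ≤ ∑ z ∈ f.support, f 1 * Ex G p (midConn G n 1 z) := by
            refine Finset.sum_le_sum fun z _ => ?_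
            simp only [one_mul, inv_one]
            exact mul_le_mul_of_nonneg_right (hfmax z) (ex_nonneg p (loc_midConn n 1 z) fun ω => by
              unfold midConn; split_ifs <;> norm_num)
        _ ≤ _ := by
            rw [← Finset.mul_sum, mul_comm (2 * (n : ℝ))]
            exact mul_le_mul_of_nonneg_left hstep (walkDist_nonneg S (2 * k) 1)
    linarith
  have hW1 : l1 W ^ 2 ≤ 4 * 121 ^ l ∧ l1 W ^ 2 * C ^ 2 ≤ 121 ^ l := by
    have h0' : 0 ≤ l1 v := Finset.sum_nonneg fun _ _ => abs_nonneg _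
    have hsq : l1 v ^ 2 ≤ 121 ^ l := by
      rw [show (121 : ℝ) = 11 ^ 2 by norm_num, ← pow_mul, mul_comm, pow_mul]
      exact pow_le_pow_left₀ h0' hl1 2
    have he : l1 W ^ 2 * C ^ 2 = l1 v ^ 2 := by
      rw [hW, l1_smul, abs_of_pos (by positivity)]; field_simp
    refine ⟨?_, he.le.trans hsq⟩
    have : (1 / 4 : ℝ) ≤ C ^ 2 := by nlinarith
    have := mul_le_mul_of_nonneg_left this (sq_nonneg (l1 W))
    linarith
  have hC1 : 1 ≤ C := by
    have hu : 1 ≤ c - 1 := by rw [hc, le_sub_iff_add_le, le_div_iff₀ hδ]; linarith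
    rw [hC, ← Real.cosh_arcosh hu, cheb_cosh]
    exact Real.one_le_cosh _
  have hW2 : l1 W ^ 2 ≤ 121 ^ l := by
    refine le_trans ?_ hW1.2
    have : (1 : ℝ) ≤ C ^ 2 := one_le_pow₀ hC1
    nlinarith [sq_nonneg (l1 W)]
  have h8 := mul_le_mul_of_nonneg_left hnorm
    (show 0 ≤ 4 * Real.exp (-(2 * (l : ℝ) * Real.sqrt δ)) by positivity)
  have hm2 : ⟪e1, (avgK S K ^ (2 * k)) e1⟫_ℝ / (1 - δ) ^ k
      ≤ (2 * n + 1) * walkDist S (2 * k) 1 / (1 - δ) ^ k :=
    div_le_div_of_nonneg_right hmom (by positivity)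
  have hD2 := mul_le_mul_of_nonneg_right hW2 hD0
  linarith

end Cayley

end Vale.Agent.P151
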