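import Vale.Agent.P165.Measure

/-!
Percolation on a graph: clusters, local functions and their expectations.
-/

namespace Vale.Agent.P151

open MeasureTheory SimpleGraph Finset Vale.Agent.P165
open scoped Classical

set_option linter.unusedSectionVars false

variable {V : Type*} {G : SimpleGraph V}

/-- Connection by open edges. -/
def Conn (G : SimpleGraph V) (ω : Set (Sym2 V)) (x y : V) : Prop :=
  (openGraph G ω).Reachable x y

/-- The cluster of a vertex. -/
def Cl (G : SimpleGraph V) (ω : Set (Sym2 V)) (x : V) : Set V := {y | Conn G ω x y}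

/-- The cluster of `x` has fewer than `n` vertices. -/
def Small (G : SimpleGraph V) (n : ℕ) (ω : Set (Sym2 V)) (x : V) : Prop :=
  (Cl G ω x).Finite ∧ (Cl G ω x).ncard < n

/-- The cluster has at least `n` and fewer than `2 * n` vertices. -/
def Mid (G : SimpleGraph V) (n : ℕ) (ω : Set (Sym2 V)) (x : V) : Prop :=
  ¬Small G n ω x ∧ Small G (2 * n) ω x

lemma conn_symm {ω : Set (Sym2 V)} {x y : V} (h : Conn G ω x y) : Conn G ω y x :=
  Reachable.symm h

lemma cl_eq_of_conn {ω : Set (Sym2 V)} {x y : V} (h : Conn G ω x y) : Cl G ω y = Cl G ω x := by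
  ext z
  exact ⟨fun h' => Reachable.trans h h', fun h' => Reachable.trans h.symm h'⟩

lemma small_iff_of_conn {ω : Set (Sym2 V)} {x y : V} {n : ℕ} (h : Conn G ω x y) :
    Small G n ω y ↔ Small G n ω x := by simp [Small, cl_eq_of_conn h]

lemma mid_iff_of_conn {ω : Set (Sym2 V)} {x y : V} {n : ℕ} (h : Conn G ω x y) :
    Mid G n ω y ↔ Mid G n ω x := by simp [Mid, small_iff_of_conn h]

lemma openGraph_adj {ω : Set (Sym2 V)} {x y : V} :
    (openGraph G ω).Adj x y ↔ s(x, y) ∈ ω ∧ G.Adj x y := by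
  simp only [openGraph, fromEdgeSet_adj, Set.mem_inter_iff, mem_edgeSet]
  exact ⟨fun h => h.1, fun h => ⟨h, G.ne_of_adj h.2⟩⟩

lemma openGraph_mono {ω ω' : Set (Sym2 V)} (h : ω ⊆ ω') : openGraph G ω ≤ openGraph G ω' :=
  fromEdgeSet_mono (Set.inter_subset_inter_left _ h)

lemma small_anti {ω ω' : Set (Sym2 V)} (h : ω ⊆ ω') {x : V} {n : ℕ} (hs : Small G n ω' x) :
    Small G n ω x := by
  have : Cl G ω x ⊆ Cl G ω' x := fun y hy => Reachable.mono (openGraph_mono h) hy
  exact ⟨hs.1.subset this, (Set.ncard_le_ncard this hs.1).trans_lt hs.2⟩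

/-- A set containing `x` that is closed under open edges contains the cluster of `x`. -/
lemma cl_subset_of_closed {ω : Set (Sym2 V)} {x : V} {T : Set V} (hx : x ∈ T)
    (h : ∀ a ∈ T, ∀ b, G.Adj a b → s(a, b) ∈ ω → b ∈ T) : Cl G ω x ⊆ T := by
  rintro y ⟨r⟩
  induction r with
  | nil => exact hx
  | @cons a b c hab q ih =>
    rw [openGraph_adj] at hab
    exact ih (h a hx b hab.2 hab.1)

/-- If `ω` and `ω'` agree on the edges at the cluster of `x`, the clusters are equal. -/
lemma cl_congr {ω ω' : Set (Sym2 V)} {x : V}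
    (h : ∀ a ∈ Cl G ω x, ∀ b, G.Adj a b → (s(a, b) ∈ ω ↔ s(a, b) ∈ ω')) :
    Cl G ω' x = Cl G ω x := by
  apply Set.Subset.antisymm
  · refine cl_subset_of_closed (Reachable.refl _) fun a ha b hab hb => ?_
    exact Reachable.trans ha (openGraph_adj.2 ⟨(h a ha b hab).2 hb, hab⟩).reachable
  · intro y hy
    have : ∀ a, (openGraph G ω).Walk a y → Conn G ω x a → Conn G ω' a y := by
      intro a r
      induction r with
      | nil => exact fun _ => Reachable.refl _
      | @cons a b c hab q ih =>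
        intro ha
        have hb : Conn G ω x b := Reachable.trans ha hab.reachable
        rw [openGraph_adj] at hab
        exact Reachable.trans
          (openGraph_adj.2 ⟨(h a ha b hab.2).1 hab.1, hab.2⟩).reachable (ih hy hb)
    obtain ⟨r⟩ := hy
    exact this x r (Reachable.refl _)

lemma openGraph_le' {ω : Set (Sym2 V)} : openGraph G ω ≤ G :=
  fun _ _ h => (openGraph_adj.1 h).2

variable [G.LocallyFinite]

/-- Vertices at distance at most `n` from `x`. -/
noncomputable def ballF (G : SimpleGraph V) [G.LocallyFinite] : ℕ → V → Finset V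
  | 0, x => {x}
  | n + 1, x => ballF G n x ∪ (ballF G n x).biUnion fun y => G.neighborFinset y

lemma self_mem_ballF (n : ℕ) (x : V) : x ∈ ballF G n x := by
  induction n with
  | zero => simp [ballF]
  | succ n ih => simp [ballF, ih]

lemma ballF_mono {m n : ℕ} (h : m ≤ n) (x : V) : ballF G m x ⊆ ballF G n x := by
  induction h with
  | refl => rfl
  | @step k _ ih => exact ih.trans (by simp [ballF])

lemma mem_ballF_of_walk {x y : V} (w : G.Walk x y) : y ∈ ballF G w.length x := by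
  suffices h : ∀ z : V, ∀ w' : G.Walk z x, y ∈ ballF G (w.length) x from h x Walk.nil
  intro _ _
  clear * -
  induction w using Walk.concatRec with
  | Hnil => simp [ballF]
  | Hconcat p h ih =>
    rw [Walk.length_concat]
    simp only [ballF, Finset.mem_union, Finset.mem_biUnion, mem_neighborFinset]
    exact Or.inr ⟨_, ih, h⟩

/-- A cluster with fewer than `n` vertices lies in the ball of radius `n`. -/
lemma cl_subset_ball {n : ℕ} {ω : Set (Sym2 V)} {x : V} (h : Small G n ω x) :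
    ∀ y ∈ Cl G ω x, y ∈ ballF G n x := by
  intro y hy
  obtain ⟨r⟩ := hy
  let p := r.bypass
  have hp : p.IsPath := r.bypass_isPath
  have hsub : (p.support.toFinset : Set V) ⊆ Cl G ω x := by
    intro z hz
    rw [Finset.mem_coe, List.mem_toFinset] at hz
    exact ⟨p.takeUntil z hz⟩
  have hc := Set.ncard_le_ncard hsub h.1
  rw [Set.ncard_coe_finset, List.toFinset_card_of_nodup hp.support_nodup,
    Walk.length_support] at hc
  refine ballF_mono ?_ x (mem_ballF_of_walk (p.mapLe openGraph_le'))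
  rw [Walk.length_mapLe]
  have := h.2
  omega

/-- `f` depends on finitely many edges only. -/
def Loc (G : SimpleGraph V) {β : Sort*} (f : Set (Sym2 V) → β) : Prop :=
  ∃ E : Finset (Sym2 V), (E : Set (Sym2 V)) ⊆ G.edgeSet ∧
    ∀ ω ω' : Set (Sym2 V), (∀ e ∈ E, e ∈ ω ↔ e ∈ ω') → f ω = f ω'

lemma loc_small (n : ℕ) (x : V) : Loc G fun ω => Small G n ω x := by
  refine ⟨edgesAt G (ballF G n x), edgesAt_subset _, fun ω ω' h => ?_⟩
  have key : ∀ ω ω' : Set (Sym2 V), (∀ e ∈ edgesAt G (ballF G n x), e ∈ ω ↔ e ∈ ω') →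
      Small G n ω x → Small G n ω' x := by
    intro ω ω' h hs
    have : Cl G ω' x = Cl G ω x := cl_congr fun a ha b hab =>
      h _ ((mem_edgesAt G).2 ⟨hab, Or.inl (cl_subset_ball hs a ha)⟩)
    exact ⟨this ▸ hs.1, this ▸ hs.2⟩
  exact propext ⟨key ω ω' h, key ω' ω fun e he => (h e he).symm⟩

/-- A function of the cluster, cut off at size `n`, is local. -/
lemma loc_cluster {β : Sort*} (n : ℕ) (x : V) (F : Set V → β) (b : β) :
    Loc G fun ω => if Small G n ω x then F (Cl G ω x) else b := by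
  refine ⟨edgesAt G (ballF G n x), edgesAt_subset _, fun ω ω' h => ?_⟩
  by_cases hs : Small G n ω x
  · have : Cl G ω' x = Cl G ω x := cl_congr fun a ha b hab =>
      h _ ((mem_edgesAt G).2 ⟨hab, Or.inl (cl_subset_ball hs a ha)⟩)
    have hs' : Small G n ω' x := ⟨this ▸ hs.1, this ▸ hs.2⟩
    simp [hs, hs', this]
  · have hs' : ¬Small G n ω' x := by
      intro hs'
      have : Cl G ω x = Cl G ω' x := cl_congr fun a ha b hab =>
        (h _ ((mem_edgesAt G).2 ⟨hab, Or.inl (cl_subset_ball hs' a ha)⟩)).symm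
      exact hs ⟨this ▸ hs'.1, this ▸ hs'.2⟩
    simp [hs, hs']

lemma Loc.comp₂ {β γ δ : Sort*} {f : Set (Sym2 V) → β} {g : Set (Sym2 V) → γ} (hf : Loc G f)
    (hg : Loc G g) (F : β → γ → δ) : Loc G fun ω => F (f ω) (g ω) := by
  obtain ⟨E, hE, hf⟩ := hf
  obtain ⟨E', hE', hg⟩ := hg
  refine ⟨E ∪ E', by rw [Finset.coe_union]; exact Set.union_subset hE hE', fun ω ω' h => ?_⟩
  simp only
  rw [hf ω ω' fun e he => h e (Finset.mem_union_left _ he),
    hg ω ω' fun e he => h e (Finset.mem_union_right _ he)]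

lemma Loc.comp {β δ : Sort*} {f : Set (Sym2 V) → β} (hf : Loc G f) (F : β → δ) :
    Loc G fun ω => F (f ω) := by
  obtain ⟨E, hE, hf⟩ := hf
  exact ⟨E, hE, fun ω ω' h => congrArg F (hf ω ω' h)⟩

lemma loc_const {β : Sort*} (b : β) : Loc G fun _ => b := ⟨∅, by simp, fun _ _ _ => rfl⟩

lemma loc_mem {e : Sym2 V} (he : e ∈ G.edgeSet) : Loc G fun ω => e ∈ ω :=
  ⟨{e}, by simpa using he, fun _ _ h => propext (h e (Finset.mem_singleton_self e))⟩

lemma Loc.sum {ι : Type*} (s : Finset ι) {f : ι → Set (Sym2 V) → ℝ}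
    (h : ∀ i ∈ s, Loc G (f i)) : Loc G fun ω => ∑ i ∈ s, f i ω := by
  induction s using Finset.induction_on with
  | empty => simpa using loc_const (G := G) (0 : ℝ)
  | insert a s ha ih =>
    simp only [Finset.sum_insert ha]
    exact (h a (Finset.mem_insert_self a s)).comp₂
      (ih fun i hi => h i (Finset.mem_insert_of_mem hi)) (· + ·)

/-- Expectation. -/
noncomputable def Ex (G : SimpleGraph V) (p : unitInterval) (f : Set (Sym2 V) → ℝ) : ℝ :=
  ∫ ω, f ω ∂(percMeasure G p)

lemma ex_eq (p : unitInterval) {f : Set (Sym2 V) → ℝ} {E : Finset (Sym2 V)}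
    (hE : (E : Set (Sym2 V)) ⊆ G.edgeSet)
    (hf : ∀ ω ω' : Set (Sym2 V), (∀ e ∈ E, e ∈ ω ↔ e ∈ ω') → f ω = f ω') :
    Ex G p f = expect (p : ℝ) E (fun A => f ↑A) := by
  have hrep : f = fun ω => ∑ A ∈ E.powerset, {ω | tr E ω = A}.indicator (fun _ => f ↑A) ω := by
    funext ω
    rw [Finset.sum_eq_single (tr E ω)]
    · rw [Set.indicator_of_mem (by simp)]
      refine hf _ _ fun e he => ?_
      simp [mem_tr, he]
    · intro A _ hne
      exact Set.indicator_of_notMem (by simpa [eq_comm] using hne) _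
    · exact fun h => absurd (tr_mem_powerset E ω) h
  rw [Ex]
  conv_lhs => rw [hrep]
  rw [integral_finsetSum]
  · refine Finset.sum_congr rfl fun A hA => ?_
    rw [integral_indicator_const _ (measurableSet_tr_eq E A), smul_eq_mul,
      real_tr_eq p hE (Finset.mem_powerset.1 hA)]
  · exact fun A _ => (integrable_const _).indicator (measurableSet_tr_eq E A)

lemma ex_eq' (p : unitInterval) {f g : Set (Sym2 V) → ℝ} (hf : Loc G f) (hg : Loc G g) :
    ∃ E : Finset (Sym2 V), (E : Set (Sym2 V)) ⊆ G.edgeSet ∧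
      (∀ ω ω' : Set (Sym2 V), (∀ e ∈ E, e ∈ ω ↔ e ∈ ω') → f ω = f ω' ∧ g ω = g ω') ∧
      Ex G p f = expect (p : ℝ) E (fun A => f ↑A) ∧
      Ex G p g = expect (p : ℝ) E (fun A => g ↑A) := by
  obtain ⟨E, hE, h⟩ := hf.comp₂ hg Prod.mk
  have h' : ∀ ω ω' : Set (Sym2 V), (∀ e ∈ E, e ∈ ω ↔ e ∈ ω') → f ω = f ω' ∧ g ω = g ω' :=
    fun ω ω' hω => Prod.ext_iff.1 (h ω ω' hω)
  exact ⟨E, hE, h', ex_eq p hE fun a b c => (h' a b c).1, ex_eq p hE fun a b c => (h' a b c).2⟩

lemma ex_add (p : unitInterval) {f g : Set (Sym2 V) → ℝ} (hf : Loc G f) (hg : Loc G g) :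
    Ex G p (fun ω => f ω + g ω) = Ex G p f + Ex G p g := by
  obtain ⟨E, hE, h, e1, e2⟩ := ex_eq' p hf hg
  rw [e1, e2, ex_eq p hE fun a b c => by simp only [(h a b c).1, (h a b c).2], ← expect_add]

lemma ex_const (p : unitInterval) (c : ℝ) : Ex G p (fun _ => c) = c := by simp [Ex]

lemma ex_mul (p : unitInterval) {f : Set (Sym2 V) → ℝ} (hf : Loc G f) (c : ℝ) :
    Ex G p (fun ω => c * f ω) = c * Ex G p f := by
  obtain ⟨E, hE, h⟩ := hf
  rw [ex_eq p hE h, ex_eq p hE fun a b e => by simp only [h a b e], expect_mul_left]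

lemma ex_mono (p : unitInterval) {f g : Set (Sym2 V) → ℝ} (hf : Loc G f) (hg : Loc G g)
    (hle : ∀ ω, f ω ≤ g ω) : Ex G p f ≤ Ex G p g := by
  obtain ⟨E, hE, h, e1, e2⟩ := ex_eq' p hf hg
  rw [e1, e2]
  exact expect_mono p.2.1 p.2.2 fun A _ => hle _

lemma ex_nonneg (p : unitInterval) {f : Set (Sym2 V) → ℝ} (hf : Loc G f) (h : ∀ ω, 0 ≤ f ω) :
    0 ≤ Ex G p f := by
  simpa [ex_const] using ex_mono p (loc_const (0 : ℝ)) hf h

lemma ex_sum (p : unitInterval) {ι : Type*} (s : Finset ι) {f : ι → Set (Sym2 V) → ℝ}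
    (h : ∀ i ∈ s, Loc G (f i)) :
    Ex G p (fun ω => ∑ i ∈ s, f i ω) = ∑ i ∈ s, Ex G p (f i) := by
  induction s using Finset.induction_on with
  | empty => simp [ex_const]
  | insert a s ha ih =>
    have h' : ∀ i ∈ s, Loc G (f i) := fun i hi => h i (Finset.mem_insert_of_mem hi)
    simp only [Finset.sum_insert ha]
    rw [ex_add p (h a (Finset.mem_insert_self a s)) (Loc.sum s h'), ih h']

/-- Resampling one edge. -/
lemma ex_edge (p : unitInterval) {f : Set (Sym2 V) → ℝ} (hf : Loc G f) {e : Sym2 V}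
    (he : e ∈ G.edgeSet) :
    Ex G p f = (1 - (p : ℝ)) * Ex G p (fun ω => f (ω \ {e}))
      + (p : ℝ) * Ex G p (fun ω => f (insert e ω)) := by
  obtain ⟨E, hE, h⟩ := hf
  set E' := insert e E with hE'def
  have hE' : (E' : Set (Sym2 V)) ⊆ G.edgeSet := by
    rw [hE'def, Finset.coe_insert]; exact Set.insert_subset he hE
  have hn : e ∉ E'.erase e := notMem_erase e E'
  have hins : insert e (E'.erase e) = E' := insert_erase (mem_insert_self e E)
  rw [ex_eq p hE' fun a b c => h a b fun x hx => c x (mem_insert_of_mem hx),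
    ex_eq p hE' (f := fun ω => f (ω \ {e})) fun a b c => h _ _ fun x hx => by
      simp [c x (mem_insert_of_mem hx)],
    ex_eq p hE' (f := fun ω => f (insert e ω)) fun a b c => h _ _ fun x hx => by
      simp [c x (mem_insert_of_mem hx)],
    ← hins]
  rw [expect_insert hn, expect_insert hn, expect_insert hn]
  have h1 : expect (p : ℝ) (E'.erase e) (fun A : Finset (Sym2 V) => f ↑A)
      = expect (p : ℝ) (E'.erase e) (fun A : Finset (Sym2 V) => f (↑A \ {e})) := by
    refine expect_congr fun A hA => congrArg f ?_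
    rw [Set.sdiff_singleton_eq_self (by simpa using fun hm => hn (hA hm))]
  have h2 : expect (p : ℝ) (E'.erase e) (fun A : Finset (Sym2 V) => f (↑(insert e A) \ {e}))
      = expect (p : ℝ) (E'.erase e) (fun A : Finset (Sym2 V) => f ↑A) := by
    refine expect_congr fun A hA => congrArg f ?_
    have hm : e ∉ (A : Set (Sym2 V)) := by simpa using fun hm => hn (hA hm)
    ext x
    simp only [Finset.coe_insert, Set.mem_sdiff, Set.mem_insert_iff, Set.mem_singleton_iff]
    exact ⟨fun hx => hx.1.resolve_left hx.2, fun hx => ⟨Or.inr hx, fun hxe => hm (hxe ▸ hx)⟩⟩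
  have h3 : expect (p : ℝ) (E'.erase e) (fun A : Finset (Sym2 V) => f (insert e ↑(insert e A)))
      = expect (p : ℝ) (E'.erase e) (fun A : Finset (Sym2 V) => f (insert e ↑A)) := by
    simp
  have h4 : expect (p : ℝ) (E'.erase e) (fun A : Finset (Sym2 V) => f ↑(insert e A))
      = expect (p : ℝ) (E'.erase e) (fun A : Finset (Sym2 V) => f (insert e ↑A)) := by
    simp
  rw [h2, h3, h4, ← h1]
  ring

lemma Loc.comp_map {β : Sort*} {f : Set (Sym2 V) → β} (hf : Loc G f)
    (T : Set (Sym2 V) → Set (Sym2 V))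
    (hT : ∀ ω ω' e, (e ∈ ω ↔ e ∈ ω') → (e ∈ T ω ↔ e ∈ T ω')) : Loc G fun ω => f (T ω) := by
  obtain ⟨E, hE, hf⟩ := hf
  exact ⟨E, hE, fun ω ω' h => hf _ _ fun e he => hT ω ω' e (h e he)⟩

lemma Loc.comp_insert {β : Sort*} {f : Set (Sym2 V) → β} (hf : Loc G f) (e : Sym2 V) :
    Loc G fun ω => f (insert e ω) :=
  hf.comp_map _ fun ω ω' x h => by simp [h]

lemma Loc.comp_sdiff {β : Sort*} {f : Set (Sym2 V) → β} (hf : Loc G f) (e : Sym2 V) :
    Loc G fun ω => f (ω \ {e}) :=
  hf.comp_map _ fun ω ω' x h => by simp [h]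

/-- Forcing an edge open costs a factor `1 / p`. -/
lemma ex_insert_le (p : unitInterval) {f : Set (Sym2 V) → ℝ} (hf : Loc G f)
    (h : ∀ ω, 0 ≤ f ω) {e : Sym2 V} (he : e ∈ G.edgeSet) :
    (p : ℝ) * Ex G p (fun ω => f (insert e ω)) ≤ Ex G p f := by
  rw [ex_edge p hf he]
  have := mul_nonneg (show (0 : ℝ) ≤ 1 - p by linarith [p.2.2])
    (ex_nonneg p (hf.comp_sdiff e) fun ω => h _)
  linarith

/-- Invariance under an automorphism. -/
lemma ex_map (p : unitInterval) {f : Set (Sym2 V) → ℝ} (hf : Loc G f) (σ : G ≃g G) :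
    Ex G p (fun ω => f (Sym2.map σ ⁻¹' ω)) = Ex G p f := by
  obtain ⟨E, hE, h⟩ := hf
  have hinj : Function.Injective (Sym2.map σ : Sym2 V → Sym2 V) := Sym2.map.injective σ.injective
  have hE' : ((E.image (Sym2.map σ) : Finset (Sym2 V)) : Set (Sym2 V)) ⊆ G.edgeSet := by
    intro e he
    rw [Finset.coe_image] at he
    obtain ⟨d, hd, rfl⟩ := he
    exact σ.toHom.map_mem_edgeSet (hE hd)
  rw [ex_eq p hE' (f := fun ω => f (Sym2.map σ ⁻¹' ω)) fun a b c => h _ _ fun x hx =>
      c _ (Finset.mem_image_of_mem _ hx),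
    ex_eq p hE h]
  unfold P165.expect
  rw [Finset.powerset_image, Finset.sum_image (Finset.image_injective hinj).injOn]
  refine Finset.sum_congr rfl fun A _ => ?_
  rw [Finset.card_image_of_injective _ hinj, Finset.card_image_of_injective _ hinj]
  simp only [Finset.coe_image, Set.preimage_image_eq _ hinj]

end Vale.Agent.P151
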