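import Vale.Agent.P151.Bound

/-!
From the tail bound to continuity of the percolation density.
-/

namespace Vale.Agent.P151

open MeasureTheory SimpleGraph Finset Vale.Agent.P165 Filter
open scoped Classical Topology

set_option linter.unusedSectionVars false

variable {Γ : Type*} [Group Γ] (S : Finset Γ)

lemma cayley_connected (hS : ∀ s ∈ S, s⁻¹ ∈ S) (h1 : (1 : Γ) ∉ S)
    (hgen : Subgroup.closure (S : Set Γ) = ⊤) (x y : Γ) :
    (mulCayley (S : Set Γ)).Reachable x y := by
  set G := mulCayley (S : Set Γ) with hG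
  suffices h : ∀ g x : Γ, G.Reachable x (x * g) by simpa using h (x⁻¹ * y) x
  intro g
  have hmem : g ∈ Subgroup.closure (S : Set Γ) := by rw [hgen]; trivial
  induction hmem using Subgroup.closure_induction with
  | mem s hs => exact fun x => (adj_mul S hS h1 (x := x) hs).reachable
  | one => intro x; simp
  | mul a b _ _ iha ihb =>
    intro x
    rw [← mul_assoc]
    exact (iha x).trans (ihb _)
  | inv a _ iha =>
    intro x
    have := iha (x * a⁻¹)
    rw [inv_mul_cancel_right] at this
    exact this.symm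

lemma cayley_countable (hS : ∀ s ∈ S, s⁻¹ ∈ S) (h1 : (1 : Γ) ∉ S)
    (hgen : Subgroup.closure (S : Set Γ) = ⊤) : Countable Γ := by
  refine Set.countable_univ_iff.1 ((Set.countable_iUnion fun n : ℕ =>
    (ballF (mulCayley (S : Set Γ)) n (1 : Γ)).countable_toSet).mono fun y _ => ?_)
  obtain ⟨w⟩ := cayley_connected S hS h1 hgen 1 y
  exact Set.mem_iUnion.2 ⟨w.length, Finset.mem_coe.2 (mem_ballF_of_walk w)⟩

/-- The probability that the cluster of `x` has at least `2 ^ m` vertices. -/
noncomputable def bigProb (p : unitInterval) (m : ℕ) (x : Γ) : ℝ :=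
  Ex (mulCayley (S : Set Γ)) p fun ω => if Small (mulCayley (S : Set Γ)) (2 ^ m) ω x then 0 else 1

lemma loc_notSmall (m : ℕ) (x : Γ) :
    Loc (mulCayley (S : Set Γ))
      fun ω => if Small (mulCayley (S : Set Γ)) (2 ^ m) ω x then (0 : ℝ) else 1 :=
  (loc_small (2 ^ m) x).comp fun a : Prop => if a then (0 : ℝ) else 1

lemma bigProb_succ (p : unitInterval) (m : ℕ) :
    bigProb S p m 1 = bigProb S p (m + 1) 1
      + Ex (mulCayley (S : Set Γ)) p (midInd (mulCayley (S : Set Γ)) (2 ^ m) 1) := by
  rw [bigProb, bigProb, ← ex_add p (loc_notSmall S (m + 1) 1) (loc_midInd _ _)]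
  congr 1
  funext ω
  rw [pow_succ, mul_comm]
  unfold midInd Mid
  by_cases h : Small (mulCayley (S : Set Γ)) (2 ^ m) ω 1
  · have : Small (mulCayley (S : Set Γ)) (2 * 2 ^ m) ω 1 := ⟨h.1, h.2.trans_le (by omega)⟩
    simp [h, this]
  · by_cases h' : Small (mulCayley (S : Set Γ)) (2 * 2 ^ m) ω 1 <;> simp [h, h']

lemma bigProb_translate (p : unitInterval) (m : ℕ) (x : Γ) :
    bigProb S p m x = bigProb S p m 1 := by
  rw [bigProb, bigProb, ← ex_map p (loc_notSmall S m 1) (leftIso S x)]
  congr 1
  funext ω
  change _ = if Small _ _ (pull (leftIso S x) ω) 1 then (0 : ℝ) else 1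
  simp only [small_pull, leftIso_apply, mul_one]

lemma bigProb_eq_real (p : unitInterval) (m : ℕ) (x : Γ) :
    MeasurableSet {ω | ¬Small (mulCayley (S : Set Γ)) (2 ^ m) ω x} ∧
    bigProb S p m x
      = (percMeasure (mulCayley (S : Set Γ)) p).real
          {ω | ¬Small (mulCayley (S : Set Γ)) (2 ^ m) ω x} := by
  set G := mulCayley (S : Set Γ) with hG
  obtain ⟨E, hE, h⟩ := loc_small (G := G) (2 ^ m) x
  have heq : {ω | ¬Small G (2 ^ m) ω x}
      = {ω : Set (Sym2 Γ) | (fun A : Finset (Sym2 Γ) => ¬Small G (2 ^ m) (↑A) x) (tr E ω)} := by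
    ext ω
    have := h ω (↑(tr E ω)) fun e he => by simp [mem_tr, he]
    simp only at this
    simp only [Set.mem_setOf_eq, this]
  refine ⟨heq ▸ measurableSet_tr E (fun A : Finset (Sym2 Γ) => ¬Small G (2 ^ m) (↑A) x), ?_⟩
  rw [heq, real_tr p hE (fun A : Finset (Sym2 Γ) => ¬Small G (2 ^ m) (↑A) x), bigProb,
    ex_eq p hE fun a b c => by
      have := h a b c
      simp only at this
      simp only [← hG, this]]
  exact expect_congr fun A _ => by by_cases hA : Small G (2 ^ m) (↑A) x <;> simp [hA, ← hG]

/-- The percolation density. -/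
noncomputable def density (p : unitInterval) (x : Γ) : ℝ :=
  (percMeasure (mulCayley (S : Set Γ)) p).real (infAt (mulCayley (S : Set Γ)) x)

lemma tendsto_bigProb (p : unitInterval) (x : Γ) :
    Tendsto (fun m => bigProb S p m x) atTop (𝓝 (density S p x)) := by
  set G := mulCayley (S : Set Γ) with hG
  set A := fun m : ℕ => {ω | ¬Small G (2 ^ m) ω x} with hA
  have hanti : Antitone A := by
    intro a b hab ω hω hs
    exact hω ⟨hs.1, hs.2.trans_le (Nat.pow_le_pow_right (by norm_num) hab)⟩
  have hinter : ⋂ m, A m = infAt G x := by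
    ext ω
    have hsupp : ((openGraph G ω).connectedComponentMk x).supp = Cl G ω x := by
      ext y
      simp only [ConnectedComponent.mem_supp_iff, ConnectedComponent.eq]
      exact ⟨fun h => h.symm, fun h => h.symm⟩
    simp only [Set.mem_iInter, hA, Set.mem_setOf_eq, infAt, hsupp]
    constructor
    · intro h hfin
      exact h (Cl G ω x).ncard ⟨hfin, Nat.lt_two_pow_self⟩
    · exact fun h m hs => h hs.1
  have ht := tendsto_measure_iInter_atTop (μ := percMeasure G p)
    (fun m => (bigProb_eq_real S p m x).1.nullMeasurableSet) hanti ⟨0, measure_ne_top _ _⟩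
  rw [hinter] at ht
  have ht' := (ENNReal.tendsto_toReal (measure_ne_top _ _)).comp ht
  refine ht'.congr fun m => ?_
  rw [(bigProb_eq_real S p m x).2]
  rfl

lemma density_translate (p : unitInterval) (x : Γ) : density S p x = density S p 1 :=
  tendsto_nhds_unique (tendsto_bigProb S p x)
    ((tendsto_bigProb S p 1).congr fun m => (bigProb_translate S p m x).symm)

lemma continuous_bigProb (m : ℕ) : Continuous fun p : unitInterval => bigProb S p m 1 := by
  obtain ⟨E, hE, h⟩ := loc_notSmall S m (1 : Γ)
  have heq : (fun p : unitInterval => bigProb S p m 1) = fun p : unitInterval =>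
      P165.expect (p : ℝ) E fun A => if Small (mulCayley (S : Set Γ)) (2 ^ m) (↑A) 1 then 0 else 1 :=
    funext fun p => ex_eq p hE h
  rw [heq]
  unfold P165.expect
  exact continuous_finsetSum _ fun A _ => ((continuous_subtype_val.pow _).mul
    ((continuous_const.sub continuous_subtype_val).pow _)).mul continuous_const

variable (hS : ∀ s ∈ S, s⁻¹ ∈ S) (h1 : (1 : Γ) ∉ S)
include hS h1

lemma density_continuousOn (hne : S.Nonempty) {γ c : ℝ} (hγ : 1 / 3 < γ) (hγ2 : γ ≤ 1 / 2)
    (hc : 0 < c)
    (hret : ∀ᶠ k : ℕ in atTop, walkDist S (2 * k) 1 ≤ Real.exp (-(c * (k : ℝ) ^ γ))) :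
    ContinuousOn (fun p : unitInterval => density S p 1) {p | 0 < (p : ℝ)} := by
  have key : ∀ p0 : ℝ, 0 < p0 →
      ContinuousOn (fun p : unitInterval => density S p 1) {p | p0 ≤ (p : ℝ)} := by
    intro p0 hp0
    obtain ⟨ε, hs, hnn, hε⟩ := mid_bound S hS h1 hne hγ hγ2 hc hret hp0
    have hunif : TendstoUniformlyOn (fun m (p : unitInterval) => bigProb S p m 1)
        (fun p => density S p 1) atTop {p | p0 ≤ (p : ℝ)} := by
      rw [Metric.tendstoUniformlyOn_iff]
      intro e he
      filter_upwards [(tendsto_sum_nat_add ε).eventually_lt_const he] with m hm p hp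
      have hdiff : ∀ j, bigProb S p m 1 - bigProb S p (m + j) 1
          = ∑ i ∈ range j, Ex (mulCayley (S : Set Γ)) p
              (midInd (mulCayley (S : Set Γ)) (2 ^ (i + m)) 1) := by
        intro j
        induction j with
        | zero => simp
        | succ j ih =>
          rw [Finset.sum_range_succ, ← ih]
          have h := bigProb_succ S p (m + j)
          rw [add_comm j m, ← add_assoc]
          linarith
      have hlim : Tendsto (fun j => bigProb S p m 1 - bigProb S p (m + j) 1) atTop
          (𝓝 (bigProb S p m 1 - density S p 1)) := by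
        refine tendsto_const_nhds.sub ((tendsto_bigProb S p 1).comp ?_)
        exact tendsto_atTop_mono (fun j => Nat.le_add_left j m) tendsto_id
      have hsm : Summable fun i => ε (i + m) := (summable_nat_add_iff m).2 hs
      have hup : bigProb S p m 1 - density S p 1 ≤ ∑' i, ε (i + m) := by
        refine le_of_tendsto' hlim fun j => ?_
        rw [hdiff]
        exact (Finset.sum_le_sum fun i _ => hε p hp (i + m)).trans
          (hsm.sum_le_tsum _ fun i _ => hnn _)
      have hlow : 0 ≤ bigProb S p m 1 - density S p 1 := by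
        refine ge_of_tendsto' hlim fun j => ?_
        rw [hdiff]
        exact Finset.sum_nonneg fun i _ => ex_nonneg p (loc_midInd _ _) fun ω => by
          unfold midInd; split_ifs <;> norm_num
      rw [Real.dist_eq, abs_sub_comm, abs_of_nonneg hlow]
      linarith
    exact hunif.continuousOn (Eventually.of_forall fun m =>
      (continuous_bigProb S m).continuousOn).frequently
  intro p hp
  have hp' : 0 < (p : ℝ) := hp
  refine (key ((p : ℝ) / 2) (by linarith) p (show (p : ℝ) / 2 ≤ p by linarith)).mono_of_mem_nhdsWithin ?_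
  refine mem_nhdsWithin_of_mem_nhds ?_
  exact mem_of_superset
    ((isOpen_lt continuous_const continuous_subtype_val).mem_nhds
      (show (p : ℝ) / 2 < p by linarith)) fun q hq => le_of_lt (show (p : ℝ) / 2 < (q : ℝ) from hq)

lemma density_one [Infinite Γ] (hgen : Subgroup.closure (S : Set Γ) = ⊤) :
    density S (1 : unitInterval) 1 = 1 := by
  have := cayley_countable S hS h1 hgen
  set G := mulCayley (S : Set Γ) with hG
  have hbig : ∀ m, bigProb S (1 : unitInterval) m 1 = 1 := by
    intro m
    rw [(bigProb_eq_real S 1 m 1).2]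
    refine le_antisymm measureReal_le_one ?_
    obtain ⟨T, hT⟩ := Infinite.exists_subset_card_eq Γ (2 ^ m)
    choose w hw using fun y : Γ => ((cayley_connected S hS h1 hgen 1 y).elim fun q => ⟨q, trivial⟩ :
      ∃ _q : G.Walk 1 y, True)
    set Q := T.biUnion fun y => (w y).edges.toFinset with hQ
    have hQG : (Q : Set (Sym2 Γ)) ⊆ G.edgeSet := by
      intro e he
      obtain ⟨y, -, hy⟩ := Finset.mem_biUnion.1 he
      exact walk_edges_subset (w y) hy
    calc (1 : ℝ) = (percMeasure G 1).real (allOpen Q) := by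
          rw [real_allOpen 1 hQG]; simp
      _ ≤ _ := measureReal_mono fun ω hω => by
          intro hs
          have hsub : (T : Set Γ) ⊆ Cl G ω 1 := by
            intro y hy
            refine reachable_of_allOpen (w y) fun e he => hω ?_
            exact Finset.mem_coe.2 (Finset.mem_biUnion.2 ⟨y, hy, he⟩)
          have := Set.ncard_le_ncard hsub hs.1
          rw [Set.ncard_coe_finset, hT] at this
          exact absurd hs.2 (not_lt.2 this)
  exact tendsto_nhds_unique (tendsto_bigProb S 1 1)
    (by simp only [hbig]; exact tendsto_const_nhds)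

lemma density_zero [Countable Γ] : density S (0 : unitInterval) 1 = 0 := by
  set G := mulCayley (S : Set Γ) with hG
  refine le_antisymm ?_ measureReal_nonneg
  have hsub : infAt G 1 ⊆ ⋃ s ∈ S, allOpen {s((1 : Γ), s)} := by
    intro ω hω
    obtain ⟨y, hy, hy1⟩ := hω.exists_notMem_finset {(1 : Γ)}
    obtain ⟨r⟩ := (ConnectedComponent.exact hy).symm
    cases r with
    | nil => simp at hy1
    | @cons a b c hab q =>
      rw [openGraph_adj] at hab
      have hb : (1 : Γ)⁻¹ * b ∈ S := (cayley_adj S hS h1).1 hab.2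
      rw [inv_one, one_mul] at hb
      exact Set.mem_iUnion₂.2 ⟨b, hb, by simpa [allOpen] using hab.1⟩
  refine (measureReal_mono hsub (measure_ne_top _ _)).trans ((measureReal_biUnion_finset_le _ _).trans (le_of_eq ?_))
  refine Finset.sum_eq_zero fun s hs => ?_
  have hsub' : (({s((1 : Γ), s)} : Finset (Sym2 Γ)) : Set (Sym2 Γ)) ⊆ G.edgeSet := by
    intro e he
    rw [Finset.coe_singleton, Set.mem_singleton_iff] at he
    subst he
    simpa using adj_mul S hS h1 (x := (1 : Γ)) hs
  rw [real_allOpen (0 : unitInterval) hsub']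
  simp

theorem no_percolation_at_pc [Infinite Γ] (hgen : Subgroup.closure (S : Set Γ) = ⊤)
    {γ c : ℝ} (hγ : 1 / 3 < γ) (hc : 0 < c)
    (hret : ∀ᶠ k : ℕ in atTop,
      (Nat.card {w : (mulCayley (S : Set Γ)).Walk 1 1 // w.length = 2 * k} : ℝ)
        ≤ (#S : ℝ) ^ (2 * k) * Real.exp (-(c * (k : ℝ) ^ γ))) :
    (∃ p : unitInterval, (p : ℝ) = pc (mulCayley (S : Set Γ)) ∧ (p : ℝ) < 1 ∧
      ∀ x, percMeasure (mulCayley (S : Set Γ)) p (infAt (mulCayley (S : Set Γ)) x) = 0) ∧
    ∀ x, ContinuousOn
      (fun p : unitInterval =>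
        (percMeasure (mulCayley (S : Set Γ)) p).real (infAt (mulCayley (S : Set Γ)) x))
      {p | 0 < (p : ℝ)} := by
  set G := mulCayley (S : Set Γ) with hG
  have hne : S.Nonempty := by
    rw [Finset.nonempty_iff_ne_empty]
    intro he
    rw [he, Finset.coe_empty, Subgroup.closure_empty] at hgen
    obtain ⟨x, hx⟩ := exists_ne (1 : Γ)
    have : x ∈ (⊥ : Subgroup Γ) := hgen ▸ Subgroup.mem_top x
    exact hx (Subgroup.mem_bot.1 this)
  have hcount := cayley_countable S hS h1 hgen
  set γ' := min γ (1 / 2) with hγ'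
  have hret' : ∀ᶠ k : ℕ in atTop, walkDist S (2 * k) 1 ≤ Real.exp (-(c * (k : ℝ) ^ γ')) := by
    filter_upwards [hret, eventually_ge_atTop 1] with k hk h1k
    have hcard : (Nat.card {w : G.Walk 1 1 // w.length = 2 * k} : ℝ)
        = (#S : ℝ) ^ (2 * k) * walkDist S (2 * k) 1 := by
      have h := card_walks S hS h1 hne (2 * k) 1 1
      rw [inv_one, one_mul] at h
      rw [← h, hG]
      congr 1
      exact (Nat.card_congr (Equiv.subtypeEquivRight fun w =>
        (mem_finsetWalkLength_iff (p := w)).symm)).trans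
        (Nat.card_eq_finsetCard (G.finsetWalkLength (2 * k) 1 1))
    rw [hcard] at hk
    refine (le_of_mul_le_mul_left hk (pow_pos (by exact_mod_cast card_pos.2 hne) _)).trans
      (Real.exp_le_exp.2 (neg_le_neg (mul_le_mul_of_nonneg_left ?_ hc.le)))
    exact Real.rpow_le_rpow_of_exponent_le (by exact_mod_cast h1k) (min_le_left _ _)
  have hcont := density_continuousOn S hS h1 hne (lt_min hγ (by norm_num)) (min_le_right _ _) hc hret'
  set A := {p : ℝ | ∃ hp : p ∈ Set.Icc (0 : ℝ) 1, 0 < percMeasure G ⟨p, hp⟩ (percolates G)} with hA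
  have hsub : ∀ x, infAt G x ⊆ percolates G := fun x ω hω => ⟨_, hω⟩
  have hmem1 : (1 : ℝ) ∈ A := by
    refine ⟨⟨zero_le_one, le_rfl⟩, lt_of_lt_of_le ?_ (measure_mono (hsub 1))⟩
    have h := density_one S hS h1 hgen
    rw [pos_iff_ne_zero]
    intro h0
    have h0' : density S (1 : unitInterval) 1 = 0 := by
      rw [density, measureReal_def]
      exact (congrArg ENNReal.toReal h0).trans ENNReal.toReal_zero
    rw [h] at h0'
    norm_num at h0'
  have hbdd : BddBelow A := ⟨0, fun q hq => hq.1.1⟩
  have hpc1 : pc G ≤ 1 := csInf_le hbdd hmem1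
  have hpc0 : 0 ≤ pc G := le_csInf ⟨1, hmem1⟩ fun q hq => hq.1.1
  set q : unitInterval := ⟨pc G, hpc0, hpc1⟩ with hq
  have hbelow : ∀ r : unitInterval, (r : ℝ) < pc G → density S r 1 = 0 := by
    intro r hr
    by_contra hd
    refine absurd (csInf_le hbdd ⟨r.2, ?_⟩) (not_le.2 hr)
    rw [pos_iff_ne_zero]
    intro h0
    exact hd (by rw [density, measureReal_def, measure_mono_null (hsub 1) h0, ENNReal.toReal_zero])
  have hzero : density S q 1 = 0 := by
    rcases hpc0.eq_or_lt with h0 | h0
    · have : q = 0 := Subtype.ext h0.symm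
      rw [this]; exact density_zero S hS h1
    · have hcw := hcont q (show 0 < (q : ℝ) from h0)
      have hpos : ∀ n : ℕ, (0 : ℝ) < (n + 1) / (n + 2) ∧ ((n : ℝ) + 1) / (n + 2) < 1 := fun n =>
        ⟨by positivity, by rw [div_lt_one (by positivity)]; linarith⟩
      set u : ℕ → unitInterval := fun n => ⟨pc G * ((n + 1) / (n + 2)),
        mul_nonneg hpc0 (hpos n).1.le, by
          have := mul_le_mul_of_nonneg_left (hpos n).2.le hpc0
          linarith⟩ with hu
      have hmem : ∀ n, u n ∈ {p : unitInterval | 0 < (p : ℝ)} := fun n => mul_pos h0 (hpos n).1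
      have htq : Tendsto u atTop (𝓝 q) := by
        rw [tendsto_subtype_rng]
        have h2 : Tendsto (fun n : ℕ => (1 : ℝ) - 1 / ((n : ℝ) + 2)) atTop (𝓝 (1 - 0)) := by
          refine tendsto_const_nhds.sub ?_
          simp only [one_div]
          exact tendsto_inv_atTop_zero.comp
            (tendsto_atTop_add_const_right _ 2 tendsto_natCast_atTop_atTop)
        have h3 := h2.const_mul (pc G)
        simp only [sub_zero, mul_one] at h3
        refine h3.congr fun n => ?_
        simp only [hu]
        field_simp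
        ring
      have ht := hcw.tendsto.comp
        (tendsto_nhdsWithin_iff.2 ⟨htq, Eventually.of_forall hmem⟩)
      refine tendsto_nhds_unique ht (tendsto_const_nhds.congr fun n => (hbelow (u n) ?_).symm)
      exact lt_of_lt_of_eq (mul_lt_mul_of_pos_left (hpos n).2 h0) (mul_one _)
  refine ⟨⟨q, rfl, ?_, fun x => ?_⟩, fun x => ?_⟩
  · refine lt_of_le_of_ne hpc1 fun he => ?_
    have : q = 1 := Subtype.ext he
    rw [this, density_one S hS h1 hgen] at hzero
    norm_num at hzero
  · have h := density_translate S q x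
    rw [hzero, density, measureReal_def, ENNReal.toReal_eq_zero_iff] at h
    exact h.resolve_right (measure_ne_top _ _)
  · exact hcont.congr fun p _ => density_translate S p x

end Vale.Agent.P151
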