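import Vale.Agent.P151.QTransport
import Vale.Agent.P151.Cheb

/-!
Invariant fields of finitely supported functions and the random walk operator on them.
-/

namespace Vale.Agent.P151

open SimpleGraph Finset
open scoped Classical InnerProductSpace

set_option linter.unusedSectionVars false

variable {V : Type*} {G : SimpleGraph V}

/-- Fields that commute with the automorphisms. -/
noncomputable def invSub (G : SimpleGraph V) : Submodule ℝ (V → V →₀ ℝ) where
  carrier := {f | ∀ (φ : G ≃g G) x, f (φ x) = Finsupp.mapDomain φ (f x)}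
  add_mem' {a b} ha hb φ x := by
    simp only [Pi.add_apply, ha φ x, hb φ x, Finsupp.mapDomain_add]
  zero_mem' φ x := by simp
  smul_mem' c a ha φ x := by
    simp only [Pi.smul_apply, ha φ x, Finsupp.mapDomain_smul]

/-- The bilinear form of a kernel. -/
noncomputable def bil (k : V → V → ℝ) (f g : V →₀ ℝ) : ℝ :=
  f.sum fun y a => g.sum fun z b => a * b * k y z

lemma bil_add_left (k : V → V → ℝ) (f f' g : V →₀ ℝ) :
    bil k (f + f') g = bil k f g + bil k f' g := by
  rw [bil, Finsupp.sum_add_index' (fun x => by simp) (fun x a b => by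
    simp only [Finsupp.sum, ← Finset.sum_add_distrib]
    exact Finset.sum_congr rfl fun y _ => by ring)]
  rfl

lemma bil_smul_left (k : V → V → ℝ) (c : ℝ) (f g : V →₀ ℝ) :
    bil k (c • f) g = c * bil k f g := by
  rw [bil, Finsupp.sum_smul_index fun x => by simp, bil, Finsupp.mul_sum]
  refine Finsupp.sum_congr fun x _ => ?_
  rw [Finsupp.mul_sum]
  exact Finsupp.sum_congr fun y _ => by ring

lemma bil_comm (k : V → V → ℝ) (hk : ∀ a b, k a b = k b a) (f g : V →₀ ℝ) :
    bil k f g = bil k g f := by
  rw [bil, Finsupp.sum_comm, bil]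
  refine Finsupp.sum_congr fun y _ => Finsupp.sum_congr fun x _ => ?_
  rw [hk x y]
  ring

lemma bil_sum_left {ι : Type*} (k : V → V → ℝ) (s : Finset ι) (f : ι → V →₀ ℝ) (g : V →₀ ℝ) :
    bil k (∑ i ∈ s, f i) g = ∑ i ∈ s, bil k (f i) g :=
  map_sum (AddMonoidHom.mk' (fun u => bil k u g) fun a b => bil_add_left k a b g) _ _

lemma bil_map (k : V → V → ℝ) (σ : G ≃g G) (hk : ∀ a b, k (σ a) (σ b) = k a b) (f g : V →₀ ℝ) :
    bil k (Finsupp.mapDomain σ f) (Finsupp.mapDomain σ g) = bil k f g := by
  simp only [bil]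
  rw [Finsupp.sum_mapDomain_index_inj σ.injective]
  refine Finsupp.sum_congr fun x _ => ?_
  rw [Finsupp.sum_mapDomain_index_inj σ.injective]
  exact Finsupp.sum_congr fun y _ => by rw [hk]

/-- The identity kernel. -/
noncomputable def eqKer (a b : V) : ℝ := if a = b then 1 else 0

lemma bil_eqKer (f g : V →₀ ℝ) : bil eqKer f g = f.sum fun x a => a * g x := by
  refine Finsupp.sum_congr fun x _ => ?_
  rw [Finsupp.sum, Finset.sum_eq_single x]
  · simp [eqKer]
  · intro y _ hyx; simp [eqKer, Ne.symm hyx]
  · intro h; simp [Finsupp.notMem_support_iff.1 h]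

lemma bil_eqKer_nonneg (f : V →₀ ℝ) : 0 ≤ bil eqKer f f := by
  rw [bil_eqKer]; exact Finset.sum_nonneg fun x _ => mul_self_nonneg _

lemma bil_eqKer_definite (f : V →₀ ℝ) (h : bil eqKer f f = 0) : f = 0 := by
  rw [bil_eqKer, Finsupp.sum, Finset.sum_eq_zero_iff_of_nonneg fun x _ => mul_self_nonneg _] at h
  exact Finsupp.ext fun x => by
    by_contra hx
    exact hx (mul_self_eq_zero.1 (h x (Finsupp.mem_support_iff.2 hx)))

/-- An invariant symmetric positive semidefinite kernel. -/
structure QKer (G : SimpleGraph V) where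
  k : V → V → ℝ
  symm : ∀ a b, k a b = k b a
  inv : ∀ (σ : G ≃g G) a b, k (σ a) (σ b) = k a b
  pos : ∀ f : V →₀ ℝ, 0 ≤ bil k f f

/-- The kernel plus the identity. -/
noncomputable def qbil (K : QKer G) (f g : V →₀ ℝ) : ℝ := bil K.k f g + bil eqKer f g

lemma qbil_comm (K : QKer G) (f g : V →₀ ℝ) : qbil K f g = qbil K g f := by
  simp only [qbil]
  rw [bil_comm K.k K.symm, bil_comm eqKer fun a b => by simp [eqKer, eq_comm]]

lemma qbil_nonneg (K : QKer G) (f : V →₀ ℝ) : 0 ≤ qbil K f f :=
  add_nonneg (K.pos f) (bil_eqKer_nonneg f)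

lemma qbil_add_left (K : QKer G) (f f' g : V →₀ ℝ) :
    qbil K (f + f') g = qbil K f g + qbil K f' g := by
  simp only [qbil, bil_add_left]; ring

lemma qbil_smul_left (K : QKer G) (c : ℝ) (f g : V →₀ ℝ) :
    qbil K (c • f) g = c * qbil K f g := by
  simp only [qbil, bil_smul_left]; ring

lemma qbil_sum_left {ι : Type*} (K : QKer G) (s : Finset ι) (f : ι → V →₀ ℝ) (g : V →₀ ℝ) :
    qbil K (∑ i ∈ s, f i) g = ∑ i ∈ s, qbil K (f i) g := by
  simp only [qbil, bil_sum_left, Finset.sum_add_distrib]

lemma qbil_map (K : QKer G) (σ : G ≃g G) (f g : V →₀ ℝ) :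
    qbil K (Finsupp.mapDomain σ f) (Finsupp.mapDomain σ g) = qbil K f g := by
  simp only [qbil]
  rw [bil_map K.k σ (K.inv σ), bil_map eqKer σ fun a b => by simp [eqKer, σ.injective.eq_iff]]

lemma qbil_cross (K : QKer G) (a b : V →₀ ℝ) : 2 * qbil K a b ≤ qbil K a a + qbil K b b := by
  have h := qbil_nonneg K (a + (-1 : ℝ) • b)
  rw [qbil_add_left, qbil_smul_left, qbil_comm K a (a + (-1 : ℝ) • b),
    qbil_comm K b (a + (-1 : ℝ) • b), qbil_add_left, qbil_add_left, qbil_smul_left,
    qbil_smul_left, qbil_comm K b a] at h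
  linarith

lemma qbil_sum_sq {ι : Type*} (K : QKer G) (s : Finset ι) (f : ι → V →₀ ℝ) :
    qbil K (∑ i ∈ s, f i) (∑ i ∈ s, f i) ≤ (#s : ℝ) * ∑ i ∈ s, qbil K (f i) (f i) := by
  rw [qbil_sum_left]
  have h1 : ∀ i, qbil K (f i) (∑ j ∈ s, f j) = ∑ j ∈ s, qbil K (f i) (f j) := by
    intro i
    rw [qbil_comm, qbil_sum_left]
    exact Finset.sum_congr rfl fun j _ => qbil_comm K _ _
  simp only [h1]
  have h2 : 2 * ∑ i ∈ s, ∑ j ∈ s, qbil K (f i) (f j)
      ≤ ∑ i ∈ s, ∑ j ∈ s, (qbil K (f i) (f i) + qbil K (f j) (f j)) := by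
    rw [Finset.mul_sum]
    refine Finset.sum_le_sum fun i _ => ?_
    rw [Finset.mul_sum]
    exact Finset.sum_le_sum fun j _ => qbil_cross K _ _
  simp only [Finset.sum_add_distrib, Finset.sum_const, nsmul_eq_mul, ← Finset.mul_sum] at h2
  linarith

variable [G.LocallyFinite]

/-- The degree, as a real number. -/
noncomputable def deg (G : SimpleGraph V) [G.LocallyFinite] (x : V) : ℝ := #(G.neighborFinset x)

/-- One step of the random walk acting on fields. -/
noncomputable def stepOp (G : SimpleGraph V) [G.LocallyFinite] :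
    (V → V →₀ ℝ) →ₗ[ℝ] (V → V →₀ ℝ) where
  toFun f x := (1 / deg G x) • ∑ z ∈ G.neighborFinset x, f z
  map_add' f g := by
    funext x
    simp only [Pi.add_apply, Finset.sum_add_distrib, smul_add]
  map_smul' c f := by
    funext x
    simp only [Pi.smul_apply, ← Finset.smul_sum, RingHom.id_apply, smul_comm c]

lemma stepOp_apply (f : V → V →₀ ℝ) (x : V) :
    stepOp G f x = (1 / deg G x) • ∑ z ∈ G.neighborFinset x, f z := rfl

lemma neighborFinset_map (σ : G ≃g G) (x : V) :
    G.neighborFinset (σ x) = (G.neighborFinset x).image σ := by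
  ext y
  simp only [Finset.mem_image, mem_neighborFinset]
  constructor
  · intro h
    exact ⟨σ.symm y, by simpa using σ.symm.map_adj_iff.2 h, σ.apply_symm_apply y⟩
  · rintro ⟨z, hz, rfl⟩; exact σ.map_adj_iff.2 hz

lemma deg_map (σ : G ≃g G) (x : V) : deg G (σ x) = deg G x := by
  rw [deg, neighborFinset_map, Finset.card_image_of_injective _ σ.injective]; rfl

lemma stepOp_mem {f : V → V →₀ ℝ} (hf : f ∈ invSub G) : stepOp G f ∈ invSub G := by
  intro σ x
  rw [stepOp_apply, stepOp_apply, deg_map, neighborFinset_map,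
    Finset.sum_image σ.injective.injOn, Finsupp.mapDomain_smul, Finsupp.mapDomain_finsetSum]
  exact congrArg _ (Finset.sum_congr rfl fun z _ => hf σ z)

/-- The walk operator on invariant fields. -/
noncomputable def qA (G : SimpleGraph V) [G.LocallyFinite] : invSub G →ₗ[ℝ] invSub G :=
  (stepOp G).restrict fun _ hf => stepOp_mem hf

/-- The field of point masses. -/
noncomputable def pointField (x : V) : V →₀ ℝ := Finsupp.single x 1

lemma pointField_mem : (pointField : V → V →₀ ℝ) ∈ invSub G := by
  intro σ x; simp [pointField, Finsupp.mapDomain_single]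

/-- The point masses, as an invariant field. -/
noncomputable def unitField (G : SimpleGraph V) [G.LocallyFinite] : invSub G :=
  ⟨pointField, pointField_mem⟩

/-- The distribution of the walk. -/
noncomputable def row (G : SimpleGraph V) [G.LocallyFinite] (n : ℕ) (x : V) : V →₀ ℝ :=
  (stepOp G ^ n) pointField x

lemma coe_qA_pow (n : ℕ) (f : invSub G) :
    (((qA G ^ n) f : invSub G) : V → V →₀ ℝ) = (stepOp G ^ n) f := by
  induction n with
  | zero => rfl
  | succ n ih =>
    rw [pow_succ', Module.End.mul_apply, pow_succ', Module.End.mul_apply, ← ih]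
    rfl

lemma row_succ (n : ℕ) (x : V) :
    row G (n + 1) x = (1 / deg G x) • ∑ z ∈ G.neighborFinset x, row G n z := by
  rw [row, pow_succ', Module.End.mul_apply, stepOp_apply]; rfl

lemma row_eq_walkProb (n : ℕ) (x y : V) : row G n x y = walkProb G n x y := by
  induction n generalizing x with
  | zero => simp [row, pointField, walkProb, Finsupp.single_apply]
  | succ n ih =>
    rw [row_succ, walkProb, Finsupp.smul_apply, Finsupp.finsetSum_apply, smul_eq_mul]
    simp only [ih]
    rw [← coe_neighborFinset, Set.ncard_coe_finset, finsum_mem_coe_finset, deg]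
    ring

lemma row_nonneg (n : ℕ) (x y : V) : 0 ≤ row G n x y := by
  induction n generalizing x with
  | zero => simp only [row, pow_zero, Module.End.one_apply, pointField, Finsupp.single_apply]
            split_ifs <;> norm_num
  | succ n ih =>
    rw [row_succ, Finsupp.smul_apply, Finsupp.finsetSum_apply, smul_eq_mul]
    exact mul_nonneg (by unfold deg; positivity) (Finset.sum_nonneg fun z _ => ih z)

lemma pow_step_apply (m : ℕ) (f : V → V →₀ ℝ) (x : V) :
    (stepOp G ^ m) f x = Finsupp.linearCombination ℝ f (row G m x) := by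
  induction m generalizing x with
  | zero => simp [row, pointField]
  | succ m ih =>
    rw [pow_succ', Module.End.mul_apply, stepOp_apply, row_succ, map_smul, map_sum]
    simp only [ih]

lemma row_add (m n : ℕ) (x y : V) :
    row G (m + n) x y = (row G m x).sum fun z a => a * row G n z y := by
  conv_lhs => rw [row, pow_add, Module.End.mul_apply, pow_step_apply]
  rw [Finsupp.linearCombination_apply, Finsupp.sum_apply]
  rfl

variable (hdeg : ∀ x, 0 < deg G x)
include hdeg

lemma row_rev (n : ℕ) (x y : V) : deg G x * row G n x y = deg G y * row G n y x := by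
  induction n generalizing x y with
  | zero =>
    by_cases h : x = y
    · subst h; rfl
    · simp [row, pointField, Finsupp.single_eq_of_ne h, Finsupp.single_eq_of_ne (Ne.symm h)]
  | succ n ih =>
    have h1 : deg G x * row G (n + 1) x y = ∑ z ∈ G.neighborFinset x, row G n z y := by
      rw [row_succ, Finsupp.smul_apply, Finsupp.finsetSum_apply, smul_eq_mul, ← mul_assoc,
        mul_one_div, div_self (hdeg x).ne', one_mul]
    have h2 : deg G y * row G (n + 1) y x = ∑ z ∈ G.neighborFinset x, row G n z y := by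
      have hone : ∀ u, row G 1 u x = if G.Adj u x then 1 / deg G u else 0 := by
        intro u
        rw [row_succ, Finsupp.smul_apply, Finsupp.finsetSum_apply, smul_eq_mul]
        simp [row, pointField, Finsupp.single_apply]
      rw [row_add n 1 y x, Finsupp.sum, Finset.mul_sum]
      simp only [hone]
      rw [← Finset.sum_subset (Finset.inter_subset_right (s₁ := (row G n y).support)
          (s₂ := G.neighborFinset x)) ?_]
      · rw [← Finset.sum_subset (Finset.inter_subset_left (s₁ := (row G n y).support)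
          (s₂ := G.neighborFinset x)) ?_]
        · refine Finset.sum_congr rfl fun u hu => ?_
          have hadj := (G.mem_neighborFinset _ _).1 (Finset.mem_inter.1 hu).2
          rw [if_pos hadj.symm, ← mul_assoc, ← ih u y, mul_one_div, mul_comm,
            mul_div_assoc, div_self (hdeg u).ne', mul_one]
        · intro u hu hnot
          have : ¬G.Adj u x := fun h =>
            hnot (Finset.mem_inter.2 ⟨hu, (G.mem_neighborFinset _ _).2 h.symm⟩)
          simp [this]
      · intro u hu hnot
        have : row G n y u = 0 := by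
          by_contra h
          exact hnot (Finset.mem_inter.2 ⟨Finsupp.mem_support_iff.2 h, hu⟩)
        have h := ih u y
        rw [this, mul_zero] at h
        exact (mul_eq_zero.1 h).resolve_left (hdeg u).ne'
    rw [h1, h2]

/-- Transition probabilities at even times are bounded by return probabilities. -/
lemma row_le {d : ℝ} (hd : ∀ x, deg G x ≤ d) (h1 : ∀ x, 1 ≤ deg G x) (k : ℕ) {P : ℝ}
    (hP : ∀ x, row G (2 * k) x x ≤ P) (x y : V) : row G (2 * k) x y ≤ d * P := by
  have hab : ∀ a b : V, row G (2 * k) a b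
      = ∑ z ∈ (row G k x).support ∪ (row G k y).support ∪ (row G k a).support,
          deg G b * (row G k a z * row G k b z / deg G z) := by
    intro a b
    rw [two_mul, row_add, Finsupp.sum_of_support_subset _ Finset.subset_union_right _
      (fun z _ => zero_mul _)]
    refine Finset.sum_congr rfl fun z _ => ?_
    have h := row_rev hdeg k z b
    have hz := (hdeg z).ne'
    field_simp
    linear_combination row G k a z * h
  set U := (row G k x).support ∪ (row G k y).support with hU
  have hself : ∀ a, (row G k a).support ⊆ U → ∑ z ∈ U, row G k a z * row G k a z / deg G z ≤ P := by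
    intro a ha
    have h := hab a a
    rw [Finset.union_eq_left.2 ha, ← Finset.mul_sum] at h
    have h' := hP a
    rw [h] at h'
    refine le_trans ?_ h'
    exact le_mul_of_one_le_left (Finset.sum_nonneg fun z _ =>
      div_nonneg (mul_self_nonneg _) (hdeg z).le) (h1 a)
  have h := hab x y
  rw [Finset.union_eq_left.2 Finset.subset_union_left, ← Finset.mul_sum] at h
  rw [h]
  refine mul_le_mul (hd y) ?_ (Finset.sum_nonneg fun z _ =>
    div_nonneg (mul_nonneg (row_nonneg k x z) (row_nonneg k y z)) (hdeg z).le)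
    ((hdeg y).le.trans (hd y))
  have hle : 2 * ∑ z ∈ U, row G k x z * row G k y z / deg G z
      ≤ ∑ z ∈ U, row G k x z * row G k x z / deg G z
        + ∑ z ∈ U, row G k y z * row G k y z / deg G z := by
    rw [Finset.mul_sum, ← Finset.sum_add_distrib]
    refine Finset.sum_le_sum fun z _ => ?_
    rw [← add_div, ← mul_div_assoc]
    refine div_le_div_of_nonneg_right ?_ (hdeg z).le
    linarith [mul_self_nonneg (row G k x z - row G k y z)]
  linarith [hself x Finset.subset_union_left, hself y Finset.subset_union_right]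

/-- The inner product of invariant fields. -/
noncomputable def qin (Fr : Frame G) (K : QKer G) (f g : invSub G) : ℝ :=
  ∑ o ∈ Fr.reps, Fr.wt o * deg G o * qbil K ((f : V → V →₀ ℝ) o) ((g : V → V →₀ ℝ) o)

lemma qin_definite (Fr : Frame G) (K : QKer G) (f : invSub G) (h : qin Fr K f f = 0) : f = 0 := by
  have hrep : ∀ o ∈ Fr.reps, (f : V → V →₀ ℝ) o = 0 := by
    intro o ho
    have h' := (Finset.sum_eq_zero_iff_of_nonneg fun o _ => mul_nonneg
      (mul_nonneg (Fr.pos o).le (hdeg o).le) (qbil_nonneg K _)).1 h o ho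
    have h0 : qbil K ((f : V → V →₀ ℝ) o) ((f : V → V →₀ ℝ) o) = 0 :=
      (mul_eq_zero.1 h').resolve_left (mul_pos (Fr.pos o) (hdeg o)).ne'
    unfold qbil at h0
    exact bil_eqKer_definite _ (by
      have := K.pos ((f : V → V →₀ ℝ) o); have := bil_eqKer_nonneg ((f : V → V →₀ ℝ) o); linarith)
  refine Subtype.ext (funext fun x => ?_)
  obtain ⟨o, ho, φ, rfl⟩ := Fr.cover x
  rw [f.2 φ o, hrep o ho, Finsupp.mapDomain_zero]
  rfl

/-- The inner product core. -/
@[instance_reducible]
noncomputable def qCore (Fr : Frame G) (K : QKer G) : InnerProductSpace.Core ℝ (invSub G) where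
  inner f g := qin Fr K f g
  conj_inner_symm f g := by
    rw [conj_trivial]
    exact Finset.sum_congr rfl fun o _ => by rw [qbil_comm]
  re_inner_nonneg f := by
    rw [RCLike.re_to_real]
    exact Finset.sum_nonneg fun o _ =>
      mul_nonneg (mul_nonneg (Fr.pos o).le (hdeg o).le) (qbil_nonneg K _)
  add_left f g h := by
    simp only [qin, Submodule.coe_add, Pi.add_apply, qbil_add_left, mul_add, Finset.sum_add_distrib]
  smul_left f g c := by
    rw [conj_trivial]
    simp only [qin, Submodule.coe_smul, Pi.smul_apply, qbil_smul_left, Finset.mul_sum]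
    exact Finset.sum_congr rfl fun o _ => by ring
  definite f hf := qin_definite hdeg Fr K f hf

lemma qA_symm (Fr : Frame G) (K : QKer G) (f g : invSub G) :
    qin Fr K (qA G f) g = qin Fr K f (qA G g) := by
  have h : ∀ f g : invSub G, qin Fr K (qA G f) g
      = ∑ o ∈ Fr.reps, Fr.wt o * ∑ z ∈ G.neighborFinset o,
          qbil K ((f : V → V →₀ ℝ) z) ((g : V → V →₀ ℝ) o) := by
    intro f g
    refine Finset.sum_congr rfl fun o _ => ?_
    change Fr.wt o * deg G o * qbil K (stepOp G f o) _ = _
    rw [stepOp_apply, qbil_smul_left, qbil_sum_left]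
    field_simp [(hdeg o).ne']
  have hs : qin Fr K f (qA G g) = qin Fr K (qA G g) f :=
    Finset.sum_congr rfl fun o _ => by rw [qbil_comm]
  rw [hs, h, h, mass_transport_nbr Fr
    (fun o z => qbil K ((f : V → V →₀ ℝ) z) ((g : V → V →₀ ℝ) o)) fun σ x y => by
      rw [f.2 σ y, g.2 σ x, qbil_map]]
  exact Finset.sum_congr rfl fun o _ => congrArg _ (Finset.sum_congr rfl fun z _ => qbil_comm K _ _)

lemma qA_contract (Fr : Frame G) (K : QKer G) (f : invSub G) :
    qin Fr K (qA G f) (qA G f) ≤ qin Fr K f f := by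
  calc qin Fr K (qA G f) (qA G f)
      ≤ ∑ o ∈ Fr.reps, Fr.wt o * ∑ z ∈ G.neighborFinset o,
          qbil K ((f : V → V →₀ ℝ) z) ((f : V → V →₀ ℝ) z) := by
        refine Finset.sum_le_sum fun o _ => ?_
        change Fr.wt o * deg G o * qbil K (stepOp G f o) (stepOp G f o) ≤ _
        rw [mul_assoc]
        refine mul_le_mul_of_nonneg_left ?_ (Fr.pos o).le
        rw [stepOp_apply, qbil_smul_left, qbil_comm, qbil_smul_left]
        have := qbil_sum_sq K (G.neighborFinset o) fun z => (f : V → V →₀ ℝ) z
        rw [← mul_assoc, show deg G o * (1 / deg G o) = 1 by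
          rw [mul_one_div, div_self (hdeg o).ne'], one_mul, one_div, inv_mul_le_iff₀ (hdeg o)]
        exact this
    _ = ∑ o ∈ Fr.reps, Fr.wt o * ∑ _z ∈ G.neighborFinset o,
          qbil K ((f : V → V →₀ ℝ) o) ((f : V → V →₀ ℝ) o) :=
        mass_transport_nbr Fr (fun _ z => qbil K ((f : V → V →₀ ℝ) z) ((f : V → V →₀ ℝ) z))
          fun σ x y => by rw [f.2 σ y, qbil_map]
    _ = qin Fr K f f := by
        refine Finset.sum_congr rfl fun o _ => ?_
        rw [Finset.sum_const, nsmul_eq_mul, deg, mul_assoc]

end Vale.Agent.P151
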