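import Vale.Agent.P151.QGhost
import Vale.Agent.P151.QSpace

/-!
The filtered second moment of a middle-sized cluster on a unimodular quasi-transitive graph.
-/

namespace Vale.Agent.P151

open MeasureTheory SimpleGraph Finset Vale.Agent.P165
open scoped Classical InnerProductSpace

set_option linter.unusedSectionVars false
set_option maxSynthPendingDepth 3

variable {V : Type*} {G : SimpleGraph V} [G.LocallyFinite]

lemma ex_midConn_iso (p : unitInterval) (n : ℕ) (σ : G ≃g G) (x y : V) :
    Ex G p (midConn G n (σ x) (σ y)) = Ex G p (midConn G n x y) := by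
  rw [← ex_map p (loc_midConn n x y) σ]
  congr 1
  funext ω
  change _ = midConn G n x y (pull σ ω)
  simp only [midConn, mid_pull, conn_pull]

lemma ex_midInd_iso (p : unitInterval) (n : ℕ) (σ : G ≃g G) (x : V) :
    Ex G p (midInd G n (σ x)) = Ex G p (midInd G n x) := by
  rw [← ex_map p (loc_midInd n x) σ]
  congr 1
  funext ω
  change _ = midInd G n x (pull σ ω)
  simp only [midInd, mid_pull]

/-- Two points in one middle-sized cluster. -/
noncomputable def qTau (G : SimpleGraph V) [G.LocallyFinite] (p : unitInterval) (n : ℕ) : QKer G where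
  k a b := Ex G p (midConn G n a b)
  symm a b := by
    congr 1
    funext ω
    exact if_congr ⟨fun h => ⟨(mid_iff_of_conn h.2).2 h.1, Reachable.symm h.2⟩,
      fun h => ⟨(mid_iff_of_conn h.2).2 h.1, Reachable.symm h.2⟩⟩ rfl rfl
  inv σ a b := ex_midConn_iso p n σ a b
  pos f := by
    simp only [bil, Finsupp.sum]
    have hl : ∀ x y, Loc G (fun ω => f x * f y * midConn G n x y ω) := fun x y =>
      (loc_midConn n x y).comp fun r => f x * f y * r
    simp only [← ex_mul p (loc_midConn (G := G) n _ _)]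
    simp only [← ex_sum p f.support fun y _ => hl _ y]
    rw [← ex_sum p f.support fun x _ => Loc.sum f.support fun y _ => hl x y]
    refine ex_nonneg p (Loc.sum f.support fun x _ => Loc.sum f.support fun y _ => hl x y)
      fun ω => ?_
    set s := f.support.filter fun x => Mid G n ω x with hs
    have : ∑ x ∈ f.support, ∑ y ∈ f.support, f x * f y * midConn G n x y ω
        = ∑ C ∈ s.image (Cl G ω), (∑ x ∈ s with Cl G ω x = C, f x) ^ 2 := by
      have h2 : ∀ x ∈ f.support, ∑ y ∈ f.support, f x * f y * midConn G n x y ω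
          = if Mid G n ω x then f x * ∑ y ∈ s with Cl G ω y = Cl G ω x, f y else 0 := by
        intro x _
        by_cases hx : Mid G n ω x
        · rw [if_pos hx, Finset.mul_sum, hs, Finset.filter_filter, Finset.sum_filter]
          refine Finset.sum_congr rfl fun y _ => ?_
          simp only [midConn, hx, true_and]
          by_cases hc : Conn G ω x y
          · rw [if_pos hc, if_pos ⟨(mid_iff_of_conn hc).2 hx, cl_eq_of_conn hc⟩, mul_one]
          · rw [if_neg hc, mul_zero, if_neg]
            rintro ⟨-, h⟩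
            have : y ∈ Cl G ω y := Reachable.refl _
            rw [h] at this
            exact hc this
        · simp [midConn, hx]
      rw [Finset.sum_congr rfl h2, ← Finset.sum_filter, ← hs,
        ← Finset.sum_fiberwise_of_maps_to (g := Cl G ω) (t := s.image (Cl G ω))
          (fun x hx => Finset.mem_image_of_mem _ hx)]
      refine Finset.sum_congr rfl fun C _ => ?_
      rw [pow_two, Finset.sum_mul]
      refine Finset.sum_congr rfl fun x hx => ?_
      rw [(Finset.mem_filter.1 hx).2]
    rw [this]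
    exact Finset.sum_nonneg fun C _ => sq_nonneg _

/-- Every row is supported near its base point. -/
def Near (G : SimpleGraph V) (R : ℕ) (f : V → V →₀ ℝ) : Prop :=
  ∀ x, ∀ z ∈ (f x).support, ∃ w : G.Walk x z, w.length ≤ R

lemma near_step {R : ℕ} {f : V → V →₀ ℝ} (h : Near G R f) : Near G (R + 1) (stepOp G f) := by
  intro x z hz
  rw [Finsupp.mem_support_iff, stepOp_apply, Finsupp.smul_apply, Finsupp.finsetSum_apply,
    smul_eq_mul] at hz
  obtain ⟨u, hu, hne⟩ := Finset.exists_ne_zero_of_sum_ne_zero (right_ne_zero_of_mul hz)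
  obtain ⟨w, hw⟩ := h u z (Finsupp.mem_support_iff.2 hne)
  exact ⟨Walk.cons ((G.mem_neighborFinset _ _).1 hu) w, by rw [Walk.length_cons]; omega⟩

lemma near_mono {R R' : ℕ} (hR : R ≤ R') {f : V → V →₀ ℝ} (h : Near G R f) : Near G R' f :=
  fun x z hz => let ⟨w, hw⟩ := h x z hz; ⟨w, hw.trans hR⟩

lemma near_add {R : ℕ} {f g : V → V →₀ ℝ} (hf : Near G R f) (hg : Near G R g) :
    Near G R (f + g) := fun x z hz =>
  (Finset.mem_union.1 (Finsupp.support_add hz)).elim (hf x z) (hg x z)

lemma near_smul {R : ℕ} (c : ℝ) {f : V → V →₀ ℝ} (hf : Near G R f) : Near G R (c • f) :=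
  fun x z hz => hf x z (Finsupp.support_smul hz)

/-- `ℓ¹` norm. -/
noncomputable def qL1 (v : V →₀ ℝ) : ℝ := v.sum fun _ a => |a|

lemma qL1_nonneg (v : V →₀ ℝ) : 0 ≤ qL1 v := Finset.sum_nonneg fun _ _ => abs_nonneg _

lemma qL1_eq {v : V →₀ ℝ} {s : Finset V} (h : v.support ⊆ s) : qL1 v = ∑ z ∈ s, |v z| :=
  Finsupp.sum_of_support_subset v h _ fun _ _ => abs_zero

lemma qL1_add (u v : V →₀ ℝ) : qL1 (u + v) ≤ qL1 u + qL1 v := by
  rw [qL1_eq (Finsupp.support_add (g₁ := u) (g₂ := v)),
    qL1_eq (Finset.subset_union_left (s₁ := u.support) (s₂ := v.support)),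
    qL1_eq (Finset.subset_union_right (s₁ := u.support) (s₂ := v.support)),
    ← Finset.sum_add_distrib]
  exact Finset.sum_le_sum fun z _ => by rw [Finsupp.add_apply]; exact abs_add_le _ _

lemma qL1_smul (c : ℝ) (v : V →₀ ℝ) : qL1 (c • v) = |c| * qL1 v := by
  rw [qL1_eq (Finsupp.support_smul (b := c) (g := v)), qL1_eq (Finset.Subset.refl v.support),
    Finset.mul_sum]
  exact Finset.sum_congr rfl fun z _ => by simp [abs_mul]

lemma qL1_sum {ι : Type*} (s : Finset ι) (v : ι → V →₀ ℝ) :
    qL1 (∑ i ∈ s, v i) ≤ ∑ i ∈ s, qL1 (v i) := by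
  induction s using Finset.induction_on with
  | empty => simp [qL1]
  | insert a s ha ih =>
    rw [Finset.sum_insert ha, Finset.sum_insert ha]
    exact (qL1_add _ _).trans (add_le_add le_rfl ih)

lemma qL1_step (hdeg : ∀ x, 0 < deg G x) {f : V → V →₀ ℝ} {C : ℝ} (h : ∀ x, qL1 (f x) ≤ C)
    (x : V) : qL1 (stepOp G f x) ≤ C := by
  rw [stepOp_apply, qL1_smul, abs_of_pos (one_div_pos.2 (hdeg x)), one_div,
    inv_mul_le_iff₀ (hdeg x)]
  refine (qL1_sum _ _).trans ((Finset.sum_le_sum fun z _ => h z).trans (le_of_eq ?_))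
  rw [Finset.sum_const, nsmul_eq_mul]; rfl

/-- Weighted average of `M` over an invariant field. -/
noncomputable def avgVal (Fr : Frame G) (M : V → ℝ) : (V → V →₀ ℝ) →ₗ[ℝ] ℝ where
  toFun f := ∑ o ∈ Fr.reps, Fr.wt o * deg G o * Finsupp.linearCombination ℝ M (f o)
  map_add' f g := by
    simp only [Pi.add_apply, map_add, mul_add, Finset.sum_add_distrib]
  map_smul' c f := by
    simp only [Pi.smul_apply, map_smul, smul_eq_mul, RingHom.id_apply, Finset.mul_sum]
    exact Finset.sum_congr rfl fun o _ => by ring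

lemma avgVal_step (Fr : Frame G) (hdeg : ∀ x, 0 < deg G x) {M : V → ℝ}
    (hM : ∀ (σ : G ≃g G) x, M (σ x) = M x) (f : invSub G) :
    avgVal Fr M (stepOp G f) = avgVal Fr M f := by
  change ∑ o ∈ Fr.reps, _ = ∑ o ∈ Fr.reps, _
  calc ∑ o ∈ Fr.reps, Fr.wt o * deg G o * Finsupp.linearCombination ℝ M (stepOp G f o)
      = ∑ o ∈ Fr.reps, Fr.wt o * ∑ z ∈ G.neighborFinset o,
          Finsupp.linearCombination ℝ M ((f : V → V →₀ ℝ) z) := by
        refine Finset.sum_congr rfl fun o _ => ?_
        rw [stepOp_apply, map_smul, map_sum, smul_eq_mul]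
        field_simp [(hdeg o).ne']
    _ = ∑ o ∈ Fr.reps, Fr.wt o * ∑ _z ∈ G.neighborFinset o,
          Finsupp.linearCombination ℝ M ((f : V → V →₀ ℝ) o) :=
        mass_transport_nbr Fr (fun _ z => Finsupp.linearCombination ℝ M ((f : V → V →₀ ℝ) z))
          fun σ x y => by
            rw [f.2 σ y, Finsupp.linearCombination_mapDomain]
            congr 1
            exact congrArg (fun g => Finsupp.linearCombination ℝ g) (funext fun z => hM σ z)
    _ = _ := by
        refine Finset.sum_congr rfl fun o _ => ?_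
        rw [Finset.sum_const, nsmul_eq_mul, deg, mul_assoc]

lemma qcheb_field (Fr : Frame G) (hdeg : ∀ x, 0 < deg G x) {M : V → ℝ}
    (hM : ∀ (σ : G ≃g G) x, M (σ x) = M x) {c : ℝ} (hc0 : 0 ≤ c) (hc : c ≤ 4) (l : ℕ) :
    let v : V → V →₀ ℝ :=
      ((cheb (c • qA G ^ 2 - 1 : invSub G →ₗ[ℝ] invSub G) l) (unitField G) : invSub G)
    Near G (2 * l) v ∧ (∀ x, qL1 (v x) ≤ 11 ^ l) ∧
      avgVal Fr M v = cheb (c - 1) l * avgVal Fr M pointField := by
  set U : invSub G →ₗ[ℝ] invSub G := c • qA G ^ 2 - 1 with hU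
  have hUv : ∀ v : invSub G, ((U v : invSub G) : V → V →₀ ℝ)
      = c • stepOp G (stepOp G v) + (-1 : ℝ) • (v : V → V →₀ ℝ) := by
    intro v
    rw [hU, pow_two]
    simp only [LinearMap.sub_apply, LinearMap.smul_apply, Module.End.mul_apply,
      Module.End.one_apply, Submodule.coe_sub, Submodule.coe_smul, sub_eq_add_neg, neg_one_smul]
    rfl
  have hUn : ∀ (R : ℕ) (v : invSub G), Near G R v →
      Near G (R + 2) ((U v : invSub G) : V → V →₀ ℝ) := by
    intro R v hv
    rw [hUv]
    exact near_add (near_smul c (near_step (near_step hv)))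
      (near_smul _ (near_mono (by omega) hv))
  have hUl : ∀ (v : invSub G) (C : ℝ), (∀ x, qL1 ((v : V → V →₀ ℝ) x) ≤ C) →
      ∀ x, qL1 (((U v : invSub G) : V → V →₀ ℝ) x) ≤ 5 * C := by
    intro v C hv x
    have h0 : 0 ≤ C := le_trans (qL1_nonneg _) (hv x)
    rw [hUv, Pi.add_apply, Pi.smul_apply, Pi.smul_apply]
    refine (qL1_add _ _).trans ?_
    rw [qL1_smul, qL1_smul, abs_of_nonneg hc0]
    have := mul_le_mul_of_nonneg_left (qL1_step hdeg (qL1_step hdeg hv) x) hc0
    have := mul_le_mul_of_nonneg_right hc h0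
    have := hv x
    norm_num
    linarith
  have hUm : ∀ v : invSub G, avgVal Fr M ((U v : invSub G) : V → V →₀ ℝ)
      = (c - 1) * avgVal Fr M v := by
    intro v
    have h1 := avgVal_step Fr hdeg hM v
    have h2 := avgVal_step Fr hdeg hM (qA G v)
    rw [hUv, map_add, map_smul, map_smul]
    change c • avgVal Fr M (stepOp G ((qA G v : invSub G) : V → V →₀ ℝ)) + _ = _
    rw [h2]
    change c • avgVal Fr M (stepOp G (v : V → V →₀ ℝ)) + _ = _
    rw [h1]
    simp [smul_eq_mul]; ring
  have hbase : Near G 0 (pointField : V → V →₀ ℝ) := by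
    intro x z hz
    simp [pointField] at hz
    exact ⟨Walk.nil.copy rfl hz.symm, by simp⟩
  have hbase1 : ∀ x : V, qL1 (pointField x) ≤ 1 := fun x => by simp [pointField, qL1]
  induction l using Nat.twoStepInduction with
  | zero =>
    refine ⟨hbase, fun x => by rw [pow_zero]; exact hbase1 x, ?_⟩
    simp only [cheb, one_mul]
    rfl
  | one =>
    refine ⟨hUn 0 (unitField G) hbase, fun x => ?_, hUm (unitField G)⟩
    exact (hUl (unitField G) 1 hbase1 x).trans (by norm_num)
  | more m ih1 ih2 =>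
    obtain ⟨hw1, hl1, hm1⟩ := ih1
    obtain ⟨hw2, hl2, hm2⟩ := ih2
    simp only [cheb, two_mul, LinearMap.sub_apply, LinearMap.add_apply, Module.End.mul_apply,
      sub_eq_add_neg, LinearMap.neg_apply, Submodule.coe_add, Submodule.coe_neg]
    refine ⟨?_, fun x => ?_, ?_⟩
    · have h1' := near_mono (R' := 2 * (m + 2)) (by omega) (hUn _ _ hw2)
      have h2' := near_smul (-1) (near_mono (R' := 2 * (m + 2)) (by omega) hw1)
      rw [neg_one_smul, two_mul (m + 2)] at h2'
      rw [two_mul (m + 2)] at h1'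
      exact near_add (near_add h1' h1') h2'
    · have h5 := hUl _ _ hl2 x
      simp only [Pi.add_apply, Pi.neg_apply]
      rw [← neg_one_smul ℝ
        ((((cheb U m) (unitField G) : invSub G) : V → V →₀ ℝ) x)]
      refine (qL1_add _ _).trans ?_
      refine (add_le_add (qL1_add _ _) (le_of_eq (qL1_smul _ _))).trans ?_
      have := hl1 x
      have hm : (11 : ℝ) ^ m ≤ 11 ^ (m + 1) := pow_le_pow_right₀ (by norm_num) (by omega)
      rw [pow_succ (11 : ℝ) (m + 1)]
      norm_num
      linarith [pow_pos (by norm_num : (0 : ℝ) < 11) (m + 1)]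
    · rw [map_add, map_add, map_neg, hUm, hm1, hm2]
      ring

/-- The second moment bound. -/
theorem qmid_sq_le (Fr : Frame G) {d : ℕ} (hd : ∀ v, #(G.neighborFinset v) ≤ d)
    (hdeg1 : ∀ x, 1 ≤ deg G x) :
    ∃ κ : ℝ, 0 ≤ κ ∧ ∀ (p : unitInterval), 0 < (p : ℝ) → ∀ (n : ℕ) (B : ℝ), 0 ≤ B →
      (∀ a b, G.Adj a b → Ex G p (fun ω => if QGhost G n a b ω then 1 else 0) ≤ B) →
      ∀ (δ : ℝ), 0 < δ → δ ≤ 1 / 2 → ∀ (l k : ℕ) (P : ℝ), 0 ≤ P →
      (∀ x, row G (2 * k) x x ≤ P) → ∀ x,
      Ex G p (midInd G n x) ^ 2 ≤ κ * (8 * Real.exp (-(2 * l * Real.sqrt δ))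
        + (2 * n + 1) * ((d : ℝ) * P) / (1 - δ) ^ k
        + 121 ^ l * ((4 * l : ℕ) * (1 / (p : ℝ)) ^ (4 * l) * B)) := by
  have hdeg : ∀ x, 0 < deg G x := fun x => lt_of_lt_of_le one_pos (hdeg1 x)
  have hdd : ∀ x, deg G x ≤ (d : ℝ) := fun x => by unfold deg; exact_mod_cast hd x
  obtain ⟨w, hw, hwmin⟩ := Fr.exists_min
  set T := ∑ o ∈ Fr.reps, Fr.wt o * deg G o with hT
  have hwD : ∀ o, 0 ≤ Fr.wt o * deg G o := fun o => mul_nonneg (Fr.pos o).le (hdeg o).le
  have hT0 : 0 ≤ T := Finset.sum_nonneg fun o _ => hwD o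
  refine ⟨(T / w) ^ 2, sq_nonneg _, fun p hp n B hB hgB δ h0 h2 l k P hP0 hP x0 => ?_⟩
  set M := fun x => Ex G p (midInd G n x) with hM
  have hMinv : ∀ (σ : G ≃g G) x, M (σ x) = M x := fun σ x => ex_midInd_iso p n σ x
  have hM0 : ∀ x, 0 ≤ M x := fun x => ex_nonneg p (loc_midInd n x) fun ω => by
    unfold midInd; split_ifs <;> norm_num
  set c := 2 / (1 - δ) with hc
  have hδ : (0 : ℝ) < 1 - δ := by linarith
  have hc0 : 0 ≤ c := by positivity
  have hc4 : c ≤ 4 := by rw [hc, div_le_iff₀ hδ]; linarith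
  set K := qTau G p n with hK
  obtain ⟨hnear, hl1, hval⟩ := qcheb_field Fr hdeg hMinv hc0 hc4 l
  set vS : invSub G := (cheb (c • qA G ^ 2 - 1 : invSub G →ₗ[ℝ] invSub G) l) (unitField G) with hvS
  set v : V → V →₀ ℝ := (vS : V → V →₀ ℝ) with hv
  set C := cheb (c - 1) l with hC
  have hu : 1 ≤ c - 1 := by rw [hc, le_sub_iff_add_le, le_div_iff₀ hδ]; linarith
  have hC1 : 1 ≤ C := by
    rw [hC, ← Real.cosh_arcosh hu, cheb_cosh]
    exact Real.one_le_cosh _
  have hCpos : 0 < C := by linarith
  set W := fun o => (1 / C) • v o with hW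
  set g := fun o ω => ∑ y ∈ (W o).support, W o y * midInd G n y ω with hg
  have hlg : ∀ o, Loc G (g o) := fun o =>
    Loc.sum _ fun y _ => (loc_midInd n y).comp fun r => W o y * r
  set m := ∑ o ∈ Fr.reps, Fr.wt o * deg G o * M o with hm
  have hEg : ∑ o ∈ Fr.reps, Fr.wt o * deg G o * Ex G p (g o) = m := by
    have h1 : ∀ o, Ex G p (g o) = Finsupp.linearCombination ℝ M (W o) := by
      intro o
      rw [hg, ex_sum p _ fun y _ => (loc_midInd n y).comp fun r => W o y * r,
        Finsupp.linearCombination_apply]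
      exact Finset.sum_congr rfl fun y _ => ex_mul p (loc_midInd (G := G) n y) _
    simp only [h1]
    have h2 : avgVal Fr M ((1 / C) • v) = m := by
      rw [map_smul, hval, smul_eq_mul, ← mul_assoc, one_div_mul_cancel hCpos.ne', one_mul]
      change ∑ o ∈ Fr.reps, _ = _
      exact Finset.sum_congr rfl fun o _ => by simp [pointField]
    exact h2
  set D := (4 * l : ℕ) * (1 / (p : ℝ)) ^ (4 * l) * B with hD
  have hD0 : 0 ≤ D := by rw [hD]; positivity
  set sp := fun x y ω => if splitEvent G n x y ω then (1 : ℝ) else 0 with hsp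
  have hE2 : ∀ o, Ex G p (fun ω => g o ω ^ 2) ≤ bil K.k (W o) (W o) + qL1 (W o) ^ 2 * D := by
    intro o
    have hlT : ∀ x y, Loc G (fun ω => W o x * W o y * midConn G n x y ω
        + |W o x| * |W o y| * sp x y ω) :=
      fun x y => (loc_midConn n x y).comp₂ (loc_split n x y)
        fun a b => W o x * W o y * a + |W o x| * |W o y| * b
    have hpt : ∀ ω, g o ω ^ 2 ≤ ∑ x ∈ (W o).support, ∑ y ∈ (W o).support,
        (W o x * W o y * midConn G n x y ω + |W o x| * |W o y| * sp x y ω) := by
      intro ω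
      rw [hg, pow_two, Finset.sum_mul_sum]
      refine Finset.sum_le_sum fun x _ => Finset.sum_le_sum fun y _ => ?_
      simp only [midInd, midConn, hsp]
      by_cases hx : Mid G n ω x
      · by_cases hc : Conn G ω x y
        · have hy := (mid_iff_of_conn hc).2 hx
          have : ¬splitEvent G n x y ω := fun h => h.2.2 hc
          simp [hx, hy, hc, this]
        · by_cases hy : Mid G n ω y
          · have : splitEvent G n x y ω := ⟨hx.1, hy, hc⟩
            simp only [hx, hy, hc, this, and_false, if_true, if_false, mul_one, mul_zero, zero_add]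
            rw [← abs_mul]; exact le_abs_self _
          · simp only [hx, hy, hc, and_false, if_true, if_false, mul_one, mul_zero, zero_add]
            split_ifs <;> positivity
      · simp only [hx, false_and, if_false, mul_zero, zero_mul, zero_add]
        split_ifs <;> positivity
    have hpair : ∀ x ∈ (W o).support, ∀ y ∈ (W o).support, Ex G p (sp x y) ≤ D := by
      intro x hx y hy
      obtain ⟨wx, hwx⟩ := hnear o x (Finsupp.support_smul hx)
      obtain ⟨wy, hwy⟩ := hnear o y (Finsupp.support_smul hy)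
      set π := wx.reverse.append wy with hπ
      have hlen : π.length ≤ 4 * l := by
        rw [hπ, Walk.length_append, Walk.length_reverse]; omega
      refine (ex_qsplit_le p hp hB hgB π).trans ?_
      refine mul_le_mul_of_nonneg_right ?_ hB
      exact mul_le_mul (by exact_mod_cast hlen)
        (pow_le_pow_right₀ ((one_le_div hp).2 p.2.2) hlen) (by positivity) (by positivity)
    refine (ex_mono p ((hlg o).comp fun r => r ^ 2)
      (Loc.sum _ fun x _ => Loc.sum _ fun y _ => hlT x y) hpt).trans ?_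
    rw [ex_sum p _ fun x _ => Loc.sum _ fun y _ => hlT x y]
    simp only [ex_sum p (W o).support fun y _ => hlT _ y]
    have hterm : ∀ x ∈ (W o).support, ∀ y ∈ (W o).support,
        Ex G p (fun ω => W o x * W o y * midConn G n x y ω + |W o x| * |W o y| * sp x y ω)
          ≤ W o x * W o y * K.k x y + |W o x| * |W o y| * D := by
      intro x hx y hy
      rw [ex_add p ((loc_midConn n x y).comp fun r => W o x * W o y * r)
        ((loc_split n x y).comp fun r => |W o x| * |W o y| * r),
        ex_mul p (loc_midConn n x y), ex_mul p (loc_split n x y)]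
      have := mul_le_mul_of_nonneg_left (hpair x hx y hy)
        (show 0 ≤ |W o x| * |W o y| by positivity)
      change W o x * W o y * K.k x y + _ ≤ _
      linarith
    refine (Finset.sum_le_sum fun x hx => Finset.sum_le_sum fun y hy => hterm x hx y hy).trans
      (le_of_eq ?_)
    simp only [Finset.sum_add_distrib, ← Finset.sum_mul]
    rw [pow_two, ← Finset.sum_mul_sum]
    rfl
  -- the spectral estimate in the space of invariant fields
  letI : NormedAddCommGroup (invSub G) := (qCore hdeg Fr K).toNormedAddCommGroup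
  letI : InnerProductSpace ℝ (invSub G) := InnerProductSpace.ofCore (qCore hdeg Fr K).toCore
  have hinner : ∀ f g : invSub G, ⟪f, g⟫_ℝ = qin Fr K f g := fun _ _ => rfl
  have hsym : (qA G).IsSymmetric := fun f g => qA_symm hdeg Fr K f g
  have hnorm : ∀ u : invSub G, ‖qA G u‖ ≤ ‖u‖ := fun u => by
    rw [← sq_le_sq₀ (norm_nonneg _) (norm_nonneg _), ← real_inner_self_eq_norm_sq,
      ← real_inner_self_eq_norm_sq, hinner, hinner]
    exact qA_contract hdeg Fr K u
  have hfilt := norm_filter_le (qA G) hsym hnorm (unitField G) h0 h2 l k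
  rw [← real_inner_self_eq_norm_sq, ← real_inner_self_eq_norm_sq, hinner, hinner, hinner,
    show (2 / (1 - δ) - 1) = c - 1 from rfl, ← hC] at hfilt
  have hk1 : ∀ a b, K.k a b ≤ 1 := by
    intro a b
    change Ex G p (midConn G n a b) ≤ 1
    rw [← ex_const (G := G) p 1]
    exact ex_mono p (loc_midConn n a b) (loc_const _) fun ω => by
      unfold midConn; split_ifs <;> norm_num
  have hk0 : ∀ a b, 0 ≤ K.k a b := fun a b => ex_nonneg p (loc_midConn n a b) fun ω => by
    unfold midConn; split_ifs <;> norm_num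
  have hunit : qin Fr K (unitField G) (unitField G) ≤ T * 2 := by
    rw [hT, Finset.sum_mul]
    refine Finset.sum_le_sum fun o _ => mul_le_mul_of_nonneg_left ?_ (hwD o)
    change qbil K (Finsupp.single o 1) (Finsupp.single o 1) ≤ 2
    rw [qbil, bil, bil, Finsupp.sum_single_index (by simp), Finsupp.sum_single_index (by simp),
      Finsupp.sum_single_index (by simp), Finsupp.sum_single_index (by simp)]
    have := hk1 o o
    simp [eqKer]
    linarith
  have hmom : qin Fr K (unitField G) ((qA G ^ (2 * k)) (unitField G))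
      ≤ T * ((2 * n + 1) * ((d : ℝ) * P)) := by
    rw [hT, Finset.sum_mul]
    refine Finset.sum_le_sum fun o _ => mul_le_mul_of_nonneg_left ?_ (hwD o)
    rw [coe_qA_pow]
    change qbil K (Finsupp.single o 1) (row G (2 * k) o) ≤ _
    set f := row G (2 * k) o with hf
    have hfmax : ∀ z, f z ≤ (d : ℝ) * P := fun z => row_le hdeg hdd hdeg1 k hP o z
    have hone : bil eqKer (Finsupp.single o 1) f = f o := by
      rw [bil_eqKer, Finsupp.sum_single_index (by simp)]; simp
    rw [qbil, hone, bil, Finsupp.sum_single_index (by simp)]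
    have hstep : ∑ z ∈ f.support, K.k o z ≤ 2 * n := by
      change ∑ z ∈ f.support, Ex G p (midConn G n o z) ≤ _
      rw [← ex_sum p _ fun z _ => loc_midConn n o z, ← ex_const (G := G) p (2 * n : ℝ)]
      refine ex_mono p (Loc.sum _ fun z _ => loc_midConn n o z) (loc_const _) fun ω => ?_
      by_cases hm' : Mid G n ω o
      · simp only [midConn, hm', true_and, Finset.sum_boole]
        have hsub : ((f.support.filter fun z => Conn G ω o z : Finset V) : Set V) ⊆ Cl G ω o := by
          intro z hz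
          simp only [Finset.coe_filter, Set.mem_setOf_eq] at hz
          exact hz.2
        have := Set.ncard_le_ncard hsub hm'.2.1
        rw [Set.ncard_coe_finset] at this
        exact_mod_cast this.trans hm'.2.2.le
      · simp [midConn, hm']
    have hb : (f.sum fun z b => 1 * b * K.k o z) ≤ 2 * n * ((d : ℝ) * P) := by
      rw [Finsupp.sum]
      calc _ ≤ ∑ z ∈ f.support, (d : ℝ) * P * K.k o z :=
            Finset.sum_le_sum fun z _ => by
              rw [one_mul]; exact mul_le_mul_of_nonneg_right (hfmax z) (hk0 o z)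
        _ ≤ _ := by
            rw [← Finset.mul_sum, mul_comm (2 * (n : ℝ))]
            exact mul_le_mul_of_nonneg_left hstep (by positivity)
    have := hfmax o
    linarith
  have hform : ∑ o ∈ Fr.reps, Fr.wt o * deg G o * bil K.k (W o) (W o)
      ≤ qin Fr K vS vS / C ^ 2 := by
    rw [qin, Finset.sum_div]
    refine Finset.sum_le_sum fun o _ => ?_
    rw [mul_div_assoc]
    refine mul_le_mul_of_nonneg_left ?_ (hwD o)
    change bil K.k ((1 / C) • v o) ((1 / C) • v o) ≤ qbil K (v o) (v o) / C ^ 2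
    rw [bil_smul_left, bil_comm K.k K.symm, bil_smul_left, qbil, le_div_iff₀ (by positivity)]
    have := bil_eqKer_nonneg (v o)
    field_simp
    linarith
  have hW2 : ∀ o, qL1 (W o) ^ 2 ≤ 121 ^ l := by
    intro o
    have h1' : qL1 (W o) ≤ 11 ^ l := by
      rw [hW, qL1_smul, abs_of_pos (by positivity), one_div, inv_mul_le_iff₀ hCpos]
      exact (hl1 o).trans (le_mul_of_one_le_left (by positivity) hC1)
    rw [show (121 : ℝ) ^ l = ((11 : ℝ) ^ l) ^ 2 by rw [← pow_mul, mul_comm, pow_mul]; norm_num]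
    exact pow_le_pow_left₀ (qL1_nonneg _) h1' 2
  set S2 := ∑ o ∈ Fr.reps, Fr.wt o * deg G o * Ex G p (fun ω => g o ω ^ 2) with hS2
  have hS2b : S2 ≤ qin Fr K vS vS / C ^ 2 + T * (121 ^ l * D) := by
    rw [hT, Finset.sum_mul]
    calc S2 ≤ ∑ o ∈ Fr.reps,
          (Fr.wt o * deg G o * bil K.k (W o) (W o) + Fr.wt o * deg G o * (121 ^ l * D)) :=
          Finset.sum_le_sum fun o _ => by
            rw [← mul_add]
            refine mul_le_mul_of_nonneg_left ?_ (hwD o)
            exact (hE2 o).trans (add_le_add le_rfl (mul_le_mul_of_nonneg_right (hW2 o) hD0))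
      _ ≤ _ := by rw [Finset.sum_add_distrib]; exact add_le_add hform le_rfl
  -- Cauchy–Schwarz
  have hcs : m ^ 2 ≤ T * S2 := by
    have hsq : ∀ o, Ex G p (g o) ^ 2 ≤ Ex G p (fun ω => g o ω ^ 2) := by
      intro o
      set μ := Ex G p (g o) with hμ
      have h := ex_nonneg p ((hlg o).comp fun r => (r - μ) ^ 2) fun ω => sq_nonneg _
      have he : (fun ω => (g o ω - μ) ^ 2)
          = fun ω => g o ω ^ 2 + (-2 * μ * g o ω + μ ^ 2) := by
        funext ω; ring
      rw [he, ex_add p ((hlg o).comp fun r => r ^ 2) ((hlg o).comp fun r => -2 * μ * r + μ ^ 2),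
        ex_add p ((hlg o).comp fun r => -2 * μ * r) (loc_const _), ex_mul p (hlg o), ex_const,
        ← hμ] at h
      linarith
    have hS : S2 ≥ ∑ o ∈ Fr.reps, Fr.wt o * deg G o * Ex G p (g o) ^ 2 :=
      Finset.sum_le_sum fun o _ => mul_le_mul_of_nonneg_left (hsq o) (hwD o)
    refine le_trans ?_ (mul_le_mul_of_nonneg_left hS hT0)
    rw [← hEg, hT]
    refine Finset.sum_sq_le_sum_mul_sum_of_sq_le_mul Fr.reps (fun o _ => hwD o)
      (fun o _ => mul_nonneg (hwD o) (sq_nonneg _)) fun o _ => le_of_eq ?_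
    ring
  have hle : w * M x0 ≤ m := by
    obtain ⟨o, ho, φ, rfl⟩ := Fr.cover x0
    rw [hMinv]
    refine le_trans ?_ (Finset.single_le_sum (f := fun o => Fr.wt o * deg G o * M o)
      (fun o _ => mul_nonneg (hwD o) (hM0 o)) ho)
    refine mul_le_mul_of_nonneg_right ?_ (hM0 o)
    exact (hwmin o).trans (le_mul_of_one_le_right (Fr.pos o).le (hdeg1 o))
  have hfv : qin Fr K vS vS = qin Fr K (filterOp (qA G) δ l (unitField G))
      (filterOp (qA G) δ l (unitField G)) := rfl
  have h8 := mul_le_mul_of_nonneg_left hunit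
    (show 0 ≤ 4 * Real.exp (-(2 * (l : ℝ) * Real.sqrt δ)) by positivity)
  have hm2 : qin Fr K (unitField G) ((qA G ^ (2 * k)) (unitField G)) / (1 - δ) ^ k
      ≤ T * ((2 * n + 1) * ((d : ℝ) * P)) / (1 - δ) ^ k :=
    div_le_div_of_nonneg_right hmom (by positivity)
  have hS2c : S2 ≤ T * (8 * Real.exp (-(2 * l * Real.sqrt δ))
      + (2 * n + 1) * ((d : ℝ) * P) / (1 - δ) ^ k + 121 ^ l * D) := by
    rw [hfv] at hS2b
    rw [mul_div_assoc T] at hm2
    linarith
  have h1 : (w * M x0) ^ 2 ≤ m ^ 2 :=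
    pow_le_pow_left₀ (mul_nonneg hw.le (hM0 x0)) hle 2
  have h2' : (w * M x0) ^ 2 ≤ T ^ 2 * (8 * Real.exp (-(2 * l * Real.sqrt δ))
      + (2 * n + 1) * ((d : ℝ) * P) / (1 - δ) ^ k + 121 ^ l * D) := by
    refine h1.trans (hcs.trans ?_)
    rw [pow_two T, mul_assoc T T]
    exact mul_le_mul_of_nonneg_left hS2c hT0
  rw [div_pow, div_mul_eq_mul_div, le_div_iff₀ (by positivity)]
  linarith

end Vale.Agent.P151
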