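import Vale.Agent.P151.QDefs

/-!
Cayley graphs are unimodular and quasi-transitive, so the general theorem covers them.
-/

namespace Vale.Agent.P151

open SimpleGraph
open scoped Classical

variable {Γ : Type*} [Group Γ] (S : Set Γ)

/-- Left translation of a Cayley graph. -/
def translate (g : Γ) : mulCayley S ≃g mulCayley S where
  toEquiv := Equiv.mulLeft g
  map_rel_iff' := by intro a b; simp

lemma translate_apply (g x : Γ) : translate S g x = g * x := rfl

lemma image_stabOrbit (x : Γ) (φ : mulCayley S ≃g mulCayley S) :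
    (fun z => x⁻¹ * z) '' stabOrbit (mulCayley S) x (φ x) =
      {y | ∃ ψ : mulCayley S ≃g mulCayley S, ψ x = 1 ∧ ψ (φ x) = y} := by
  ext y
  constructor
  · rintro ⟨z, ⟨ψ, hx, rfl⟩, rfl⟩
    refine ⟨ψ.trans (translate S x⁻¹), ?_, rfl⟩
    change x⁻¹ * ψ x = 1
    rw [hx, inv_mul_cancel]
  · rintro ⟨ψ, hx, rfl⟩
    refine ⟨x * ψ (φ x), ⟨ψ.trans (translate S x), ?_, rfl⟩, inv_mul_cancel_left _ _⟩
    change x * ψ x = x
    rw [hx, mul_one]

theorem cayley_unimodular : Unimodular (mulCayley S) := by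
  intro φ x
  have h2 : (fun z => z⁻¹ * φ x) '' stabOrbit (mulCayley S) (φ x) x =
      {y | ∃ ψ : mulCayley S ≃g mulCayley S, ψ x = 1 ∧ ψ (φ x) = y} := by
    ext y
    constructor
    · rintro ⟨z, ⟨ψ, hfix, rfl⟩, rfl⟩
      refine ⟨ψ.trans (translate S (ψ x)⁻¹), ?_, ?_⟩
      · change (ψ x)⁻¹ * ψ x = 1
        rw [inv_mul_cancel]
      · change (ψ x)⁻¹ * ψ (φ x) = _
        rw [hfix]
    · rintro ⟨ψ, hx, rfl⟩
      refine ⟨φ x * (ψ (φ x))⁻¹, ⟨ψ.trans (translate S (φ x * (ψ (φ x))⁻¹)), ?_, ?_⟩, ?_⟩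
      · change φ x * (ψ (φ x))⁻¹ * ψ (φ x) = φ x
        rw [inv_mul_cancel_right]
      · change φ x * (ψ (φ x))⁻¹ * ψ x = _
        rw [hx, mul_one]
      · simp
  have hinj : Function.Injective fun z : Γ => z⁻¹ * φ x := fun a b h => by simpa using h
  rw [← Set.ncard_image_of_injective _ (mul_right_injective x⁻¹),
    ← Set.ncard_image_of_injective (stabOrbit (mulCayley S) (φ x) x) hinj, h2]
  exact congrArg Set.ncard (image_stabOrbit S x φ)

theorem cayley_one_orbit (v : Γ) : ∃ φ : mulCayley S ≃g mulCayley S, φ v = 1 :=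
  ⟨translate S v⁻¹, inv_mul_cancel v⟩

end Vale.Agent.P151
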