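import Mathlib

/-!
The simple random walk and unimodularity, as used in the statement.
-/

namespace Vale.Agent.P151

open SimpleGraph
open scoped Classical

variable {V : Type*} (G : SimpleGraph V)

/-- Transition probability of `n` steps of the simple random walk. -/
noncomputable def walkProb : ℕ → V → V → ℝ
  | 0, x, y => if x = y then 1 else 0
  | n + 1, x, y => (∑ᶠ z ∈ G.neighborSet x, walkProb n z y) / (G.neighborSet x).ncard

/-- The orbit of `y` under the automorphisms fixing `x`. -/
def stabOrbit (x y : V) : Set V := {z | ∃ φ : G ≃g G, φ x = x ∧ φ y = z}

/-- The automorphism group is unimodular: two vertices of one orbit see each other through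
stabilizer orbits of equal size. -/
def Unimodular : Prop :=
  ∀ (φ : G ≃g G) (x : V), (stabOrbit G x (φ x)).ncard = (stabOrbit G (φ x) x).ncard

end Vale.Agent.P151
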