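import Vale.Agent.P151.Local
import Vale.Agent.P151.QDefs

/-!
Weights and mass transport on a unimodular quasi-transitive graph.
-/

namespace Vale.Agent.P151

open SimpleGraph Finset Vale.Agent.P165
open scoped Classical

set_option linter.unusedSectionVars false

variable {V : Type*} {G : SimpleGraph V} [G.LocallyFinite]

lemma exists_walk_of_mem_ballF {n : ℕ} {x y : V} (h : y ∈ ballF G n x) :
    ∃ w : G.Walk x y, w.length ≤ n := by
  induction n generalizing y with
  | zero =>
    simp only [ballF, Finset.mem_singleton] at h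
    subst h; exact ⟨Walk.nil, le_rfl⟩
  | succ n ih =>
    simp only [ballF, Finset.mem_union, Finset.mem_biUnion, mem_neighborFinset] at h
    rcases h with h | ⟨z, hz, hzy⟩
    · obtain ⟨w, hw⟩ := ih h; exact ⟨w, hw.trans (Nat.le_succ n)⟩
    · obtain ⟨w, hw⟩ := ih hz
      exact ⟨w.concat hzy, by rw [Walk.length_concat]; omega⟩

lemma mem_ballF_symm {n : ℕ} {x y : V} (h : y ∈ ballF G n x) : x ∈ ballF G n y := by
  obtain ⟨w, hw⟩ := exists_walk_of_mem_ballF h
  refine ballF_mono ?_ y (mem_ballF_of_walk w.reverse)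
  rw [Walk.length_reverse]; exact hw

lemma mem_ballF_iso (φ : G ≃g G) {n : ℕ} {x y : V} (h : y ∈ ballF G n x) :
    φ y ∈ ballF G n (φ x) := by
  obtain ⟨w, hw⟩ := exists_walk_of_mem_ballF h
  refine ballF_mono ?_ _ (mem_ballF_of_walk (w.map φ.toHom))
  rw [Walk.length_map]; exact hw

/-- Two vertices in one orbit of the automorphism group. -/
def SameOrbit (G : SimpleGraph V) (x y : V) : Prop := ∃ φ : G ≃g G, φ x = y

lemma sameOrbit_refl (x : V) : SameOrbit G x x := ⟨RelIso.refl _, rfl⟩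

lemma SameOrbit.symm' {x y : V} (h : SameOrbit G x y) : SameOrbit G y x := by
  obtain ⟨φ, rfl⟩ := h; exact ⟨φ.symm, φ.symm_apply_apply x⟩

lemma SameOrbit.trans' {x y z : V} (h : SameOrbit G x y) (h' : SameOrbit G y z) :
    SameOrbit G x z := by
  obtain ⟨φ, rfl⟩ := h
  obtain ⟨ψ, rfl⟩ := h'
  exact ⟨φ.trans ψ, rfl⟩

section Weights

variable (hconn : G.Connected)
include hconn

lemma stabOrbit_finite (x y : V) : (stabOrbit G x y).Finite := by
  obtain ⟨w⟩ := hconn.preconnected x y
  refine (ballF G w.length x).finite_toSet.subset ?_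
  rintro z ⟨φ, hx, rfl⟩
  have := mem_ballF_iso φ (mem_ballF_of_walk w)
  rwa [hx] at this

lemma stabOrbit_pos (x y : V) : 0 < (stabOrbit G x y).ncard :=
  (Set.ncard_pos (stabOrbit_finite hconn x y)).2 ⟨y, RelIso.refl _, rfl, rfl⟩

omit hconn in
lemma ncard_stabOrbit_iso (φ : G ≃g G) (x y : V) :
    (stabOrbit G (φ x) (φ y)).ncard = (stabOrbit G x y).ncard := by
  have : stabOrbit G (φ x) (φ y) = φ '' stabOrbit G x y := by
    ext z
    constructor
    · rintro ⟨ψ, hx, rfl⟩
      refine ⟨φ.symm (ψ (φ y)), ⟨(φ.trans ψ).trans φ.symm, ?_, rfl⟩, φ.apply_symm_apply _⟩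
      change φ.symm (ψ (φ x)) = x
      rw [hx, φ.symm_apply_apply]
    · rintro ⟨w, ⟨ψ, hx, rfl⟩, rfl⟩
      refine ⟨(φ.symm.trans ψ).trans φ, ?_, ?_⟩
      · change φ (ψ (φ.symm (φ x))) = φ x
        rw [φ.symm_apply_apply, hx]
      · change φ (ψ (φ.symm (φ y))) = φ (ψ y)
        rw [φ.symm_apply_apply]
  rw [this, Set.ncard_image_of_injective _ φ.injective]

omit hconn in
/-- Orbit of a pair under the stabilizer of `x`. -/
def pairOrbit (G : SimpleGraph V) (x y z : V) : Set (V × V) :=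
  {q | ∃ φ : G ≃g G, φ x = x ∧ (φ y, φ z) = q}

omit hconn in
/-- Orbit of `z` under the automorphisms fixing `x` and `y`. -/
def twoStab (G : SimpleGraph V) (x y z : V) : Set V :=
  {w | ∃ φ : G ≃g G, φ x = x ∧ φ y = y ∧ φ z = w}

lemma ncard_pairOrbit (x y z : V) :
    (pairOrbit G x y z).ncard = (stabOrbit G x y).ncard * (twoStab G x y z).ncard := by
  have hfin : (pairOrbit G x y z).Finite := by
    refine ((stabOrbit_finite hconn x y).prod (stabOrbit_finite hconn x z)).subset ?_
    rintro q ⟨φ, hx, rfl⟩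
    exact ⟨⟨φ, hx, rfl⟩, ⟨φ, hx, rfl⟩⟩
  set P := hfin.toFinset with hP
  set O := (stabOrbit_finite hconn x y).toFinset with hO
  have hmaps : ∀ q ∈ P, q.1 ∈ O := by
    intro q hq
    rw [hP, Set.Finite.mem_toFinset] at hq
    obtain ⟨φ, hx, rfl⟩ := hq
    rw [hO, Set.Finite.mem_toFinset]
    exact ⟨φ, hx, rfl⟩
  have hfib : ∀ y' ∈ O, #(P.filter fun q => q.1 = y') = (twoStab G x y z).ncard := by
    intro y' hy'
    rw [hO, Set.Finite.mem_toFinset] at hy'
    obtain ⟨ψ, hψx, rfl⟩ := hy'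
    have : ((P.filter fun q => q.1 = ψ y : Finset (V × V)) : Set (V × V))
        = (fun w => (ψ y, ψ w)) '' twoStab G x y z := by
      ext q
      simp only [Finset.coe_filter, hP, Set.Finite.mem_toFinset, Set.mem_setOf_eq, Set.mem_image]
      constructor
      · rintro ⟨⟨φ, hx, rfl⟩, h1⟩
        simp only at h1
        refine ⟨ψ.symm (φ z), ⟨φ.trans ψ.symm, ?_, ?_, rfl⟩, ?_⟩
        · change ψ.symm (φ x) = x
          rw [hx]; conv_lhs => rw [← hψx]
          rw [ψ.symm_apply_apply]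
        · change ψ.symm (φ y) = y
          rw [h1, ψ.symm_apply_apply]
        · rw [ψ.apply_symm_apply, h1]
      · rintro ⟨w, ⟨φ, hx, hy, rfl⟩, rfl⟩
        refine ⟨⟨φ.trans ψ, ?_, ?_⟩, rfl⟩
        · change ψ (φ x) = x
          rw [hx, hψx]
        · change (ψ (φ y), ψ (φ z)) = (ψ y, ψ (φ z))
          rw [hy]
    rw [← Set.ncard_coe_finset, this, Set.ncard_image_of_injective]
    exact fun a b h => ψ.injective (Prod.ext_iff.1 h).2
  rw [Set.ncard_eq_toFinset_card _ hfin, ← hP, Finset.card_eq_sum_card_fiberwise hmaps,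
    Finset.sum_congr rfl hfib, Finset.sum_const, smul_eq_mul,
    Set.ncard_eq_toFinset_card _ (stabOrbit_finite hconn x y)]

omit hconn in
lemma twoStab_comm (x y z : V) : twoStab G x y z = twoStab G y x z := by
  ext w
  exact ⟨fun ⟨φ, a, b, c⟩ => ⟨φ, b, a, c⟩, fun ⟨φ, a, b, c⟩ => ⟨φ, b, a, c⟩⟩

omit hconn in
lemma ncard_pairOrbit_swap (x y z : V) :
    (pairOrbit G x y z).ncard = (pairOrbit G x z y).ncard := by
  have : pairOrbit G x y z = Prod.swap '' pairOrbit G x z y := by
    ext q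
    constructor
    · rintro ⟨φ, hx, rfl⟩; exact ⟨(φ z, φ y), ⟨φ, hx, rfl⟩, rfl⟩
    · rintro ⟨q, ⟨φ, hx, rfl⟩, rfl⟩; exact ⟨φ, hx, rfl⟩
  rw [this, Set.ncard_image_of_injective _ Prod.swap_injective]

/-- The modular ratio is a cocycle. -/
lemma cocycle (x y z : V) :
    (stabOrbit G x y).ncard * (stabOrbit G y z).ncard * (stabOrbit G z x).ncard
      = (stabOrbit G y x).ncard * (stabOrbit G z y).ncard * (stabOrbit G x z).ncard := by
  have hk : 0 < (twoStab G x y z).ncard :=
    (Set.ncard_pos ((stabOrbit_finite hconn x z).subset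
      fun w hw => by obtain ⟨φ, a, -, c⟩ := hw; exact ⟨φ, a, c⟩)).2 ⟨z, RelIso.refl _, rfl, rfl, rfl⟩
  have hj : 0 < (twoStab G x z y).ncard :=
    (Set.ncard_pos ((stabOrbit_finite hconn x y).subset
      fun w hw => by obtain ⟨φ, a, -, c⟩ := hw; exact ⟨φ, a, c⟩)).2 ⟨y, RelIso.refl _, rfl, rfl, rfl⟩
  have hi : 0 < (twoStab G y z x).ncard :=
    (Set.ncard_pos ((stabOrbit_finite hconn y x).subset
      fun w hw => by obtain ⟨φ, a, -, c⟩ := hw; exact ⟨φ, a, c⟩)).2 ⟨x, RelIso.refl _, rfl, rfl, rfl⟩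
  -- the three pair orbits, each computed in two ways
  have e1 := (ncard_pairOrbit_swap (G := G) x y z)
  rw [ncard_pairOrbit hconn, ncard_pairOrbit hconn] at e1
  have e2 := (ncard_pairOrbit_swap (G := G) y x z)
  rw [ncard_pairOrbit hconn, ncard_pairOrbit hconn, twoStab_comm y x z] at e2
  have e3 := (ncard_pairOrbit_swap (G := G) z x y)
  rw [ncard_pairOrbit hconn, ncard_pairOrbit hconn, twoStab_comm z x y, twoStab_comm z y x] at e3
  refine Nat.eq_of_mul_eq_mul_right (Nat.mul_pos (Nat.mul_pos hk hi) hj) ?_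
  calc (stabOrbit G x y).ncard * (stabOrbit G y z).ncard * (stabOrbit G z x).ncard
        * ((twoStab G x y z).ncard * (twoStab G y z x).ncard * (twoStab G x z y).ncard)
      = ((stabOrbit G x y).ncard * (twoStab G x y z).ncard)
        * ((stabOrbit G y z).ncard * (twoStab G y z x).ncard)
        * ((stabOrbit G z x).ncard * (twoStab G x z y).ncard) := by ring
    _ = ((stabOrbit G x z).ncard * (twoStab G x z y).ncard)
        * ((stabOrbit G y x).ncard * (twoStab G x y z).ncard)
        * ((stabOrbit G z y).ncard * (twoStab G y z x).ncard) := by rw [e1, ← e2, e3]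
    _ = _ := by ring

/-- Invariant weights compensating the sizes of stabilizer orbits. -/
theorem exists_weights (hU : Unimodular G) :
    ∃ W : V → ℝ, (∀ x, 0 < W x) ∧ (∀ (φ : G ≃g G) x, W (φ x) = W x) ∧
      ∀ x y, W x * (stabOrbit G x y).ncard = W y * (stabOrbit G y x).ncard := by
  obtain ⟨b⟩ := hconn.nonempty
  set W := fun x => ((stabOrbit G b x).ncard : ℝ) / (stabOrbit G x b).ncard with hW
  have hp : ∀ x y, (0 : ℝ) < (stabOrbit G x y).ncard := fun x y => by
    exact_mod_cast stabOrbit_pos hconn x y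
  have hrel : ∀ x y, W x * (stabOrbit G x y).ncard = W y * (stabOrbit G y x).ncard := by
    intro x y
    have h : ((stabOrbit G b x).ncard : ℝ) * (stabOrbit G x y).ncard * (stabOrbit G y b).ncard
        = (stabOrbit G x b).ncard * (stabOrbit G y x).ncard * (stabOrbit G b y).ncard := by
      exact_mod_cast cocycle hconn b x y
    simp only [hW]
    rw [div_mul_eq_mul_div, div_mul_eq_mul_div, div_eq_div_iff (hp _ _).ne' (hp _ _).ne']
    linear_combination h
  refine ⟨W, fun x => div_pos (hp _ _) (hp _ _), fun φ x => ?_, hrel⟩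
  have h := hrel x (φ x)
  rw [hU φ x] at h
  exact (mul_right_cancel₀ (hp _ _).ne' h).symm

end Weights

/-- One vertex in each orbit, with weights. -/
structure Frame (G : SimpleGraph V) [G.LocallyFinite] where
  reps : Finset V
  wt : V → ℝ
  cover : ∀ v : V, ∃ o ∈ reps, SameOrbit G o v
  unique : ∀ o ∈ reps, ∀ o' ∈ reps, SameOrbit G o o' → o = o'
  pos : ∀ x, 0 < wt x
  inv : ∀ (φ : G ≃g G) x, wt (φ x) = wt x
  rel : ∀ x y, wt x * (stabOrbit G x y).ncard = wt y * (stabOrbit G y x).ncard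
  conn : G.Connected

lemma exists_frame (hconn : G.Connected) (hQ : QuasiTransitive G) (hU : Unimodular G) :
    Nonempty (Frame G) := by
  obtain ⟨R, hR⟩ := hQ
  obtain ⟨W, hpos, hinv, hrel⟩ := exists_weights hconn hU
  let s : Setoid V := ⟨SameOrbit G, ⟨sameOrbit_refl, SameOrbit.symm', SameOrbit.trans'⟩⟩
  refine ⟨⟨R.image fun v => (Quotient.mk s v).out, W, fun v => ?_, ?_, hpos, hinv, hrel, hconn⟩⟩
  · obtain ⟨φ, hφ⟩ := hR v
    refine ⟨_, Finset.mem_image_of_mem _ hφ, ?_⟩
    exact (Quotient.mk_out (s := s) (φ v)).trans' ⟨φ.symm, φ.symm_apply_apply v⟩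
  · intro o ho o' ho' h
    obtain ⟨a, -, rfl⟩ := Finset.mem_image.1 ho
    obtain ⟨a', -, rfl⟩ := Finset.mem_image.1 ho'
    have : Quotient.mk s (Quotient.mk s a).out = Quotient.mk s (Quotient.mk s a').out :=
      Quotient.sound h
    rw [Quotient.out_eq, Quotient.out_eq] at this
    rw [this]

/-- The mass-transport principle for invariant finite-range functions. -/
theorem mass_transport (Fr : Frame G) (F : V → V → ℝ) (r : ℕ)
    (hF : ∀ (φ : G ≃g G) x y, F (φ x) (φ y) = F x y) :
    ∑ o ∈ Fr.reps, Fr.wt o * ∑ y ∈ ballF G r o, F o y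
      = ∑ o ∈ Fr.reps, Fr.wt o * ∑ y ∈ ballF G r o, F y o := by
  have hsplit : ∀ (T : V → ℝ) (o : V), ∑ y ∈ ballF G r o, T y
      = ∑ o' ∈ Fr.reps, ∑ y ∈ (ballF G r o).filter (SameOrbit G o'), T y := by
    intro T o
    simp only [Finset.sum_filter]
    rw [Finset.sum_comm]
    refine Finset.sum_congr rfl fun y _ => ?_
    obtain ⟨o', ho', hy⟩ := Fr.cover y
    rw [Finset.sum_eq_single o', if_pos hy]
    · intro a ha hne
      exact if_neg fun h => hne (Fr.unique a ha o' ho' (h.trans' hy.symm'))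
    · exact fun h => absurd ho' h
  simp only [hsplit, Finset.mul_sum]
  conv_rhs => rw [Finset.sum_comm]
  refine Finset.sum_congr rfl fun o _ => Finset.sum_congr rfl fun o' _ => ?_
  rw [← Finset.mul_sum, ← Finset.mul_sum]
  set Y := (ballF G r o).filter (SameOrbit G o') with hY
  set X := (ballF G r o').filter (SameOrbit G o) with hX
  -- `rel y x`: some automorphism sends `(o, y)` to `(x, o')`
  set rel := fun y x => ∃ φ : G ≃g G, φ o = x ∧ φ y = o' with hrel
  have hrowX : ∀ y ∈ Y, ((X.filter (rel y) : Finset V) : Set V) =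
      {x | rel y x} := by
    intro y hy
    ext x
    simp only [Finset.coe_filter, Set.mem_setOf_eq, and_iff_right_iff_imp]
    rintro ⟨φ, rfl, hφy⟩
    rw [hX, Finset.mem_filter]
    refine ⟨?_, φ, rfl⟩
    have := mem_ballF_iso φ (mem_ballF_symm (Finset.mem_filter.1 hy).1)
    rwa [hφy] at this
  have hcolY : ∀ x ∈ X, ((Y.filter (fun y => rel y x) : Finset V) : Set V) =
      {y | rel y x} := by
    intro x hx
    ext y
    simp only [Finset.coe_filter, Set.mem_setOf_eq, and_iff_right_iff_imp]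
    rintro ⟨φ, hφo, hφy⟩
    rw [hY, Finset.mem_filter]
    refine ⟨?_, ⟨φ.symm, by rw [← hφy, φ.symm_apply_apply]⟩⟩
    have := mem_ballF_iso φ.symm (mem_ballF_symm (Finset.mem_filter.1 hx).1)
    rw [← hφo, φ.symm_apply_apply, ← hφy, φ.symm_apply_apply] at this
    exact this
  have hrow : ∀ y ∈ Y, #(X.filter (rel y)) = (stabOrbit G y o).ncard := by
    intro y hy
    obtain ⟨ψ, hψ⟩ := (Finset.mem_filter.1 hy).2.symm'
    have : {x | rel y x} = stabOrbit G o' (ψ o) := by
      ext x
      constructor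
      · rintro ⟨φ, rfl, hφy⟩
        refine ⟨ψ.symm.trans φ, ?_, ?_⟩
        · change φ (ψ.symm o') = o'
          rw [← hψ, ψ.symm_apply_apply, hφy, hψ]
        · change φ (ψ.symm (ψ o)) = φ o
          rw [ψ.symm_apply_apply]
      · rintro ⟨φ, hfix, rfl⟩
        exact ⟨ψ.trans φ, rfl, by change φ (ψ y) = o'; rw [hψ, hfix]⟩
    rw [← Set.ncard_coe_finset, hrowX y hy, this, ← hψ, ncard_stabOrbit_iso]
  have hcol : ∀ x ∈ X, #(Y.filter fun y => rel y x) = (stabOrbit G x o').ncard := by
    intro x hx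
    obtain ⟨ψ, hψ⟩ := (Finset.mem_filter.1 hx).2
    have : {y | rel y x} = stabOrbit G o (ψ.symm o') := by
      ext y
      constructor
      · rintro ⟨φ, hφo, hφy⟩
        refine ⟨ψ.trans φ.symm, ?_, ?_⟩
        · change φ.symm (ψ o) = o
          rw [hψ, ← hφo, φ.symm_apply_apply]
        · change φ.symm (ψ (ψ.symm o')) = y
          rw [ψ.apply_symm_apply, ← hφy, φ.symm_apply_apply]
      · rintro ⟨φ, hfix, rfl⟩
        refine ⟨φ.symm.trans ψ, ?_, ?_⟩
        · change ψ (φ.symm o) = x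
          conv_lhs => rw [← hfix, φ.symm_apply_apply]
          rw [hψ]
        · change ψ (φ.symm (φ (ψ.symm o'))) = o'
          rw [φ.symm_apply_apply, ψ.apply_symm_apply]
    rw [← Set.ncard_coe_finset, hcolY x hx, this, ← ncard_stabOrbit_iso ψ, hψ,
      ψ.apply_symm_apply]
  have hpair : ∀ y ∈ Y, ∀ x ∈ X, rel y x →
      Fr.wt o * (F o y / (stabOrbit G y o).ncard)
        = Fr.wt o' * (F x o' / (stabOrbit G x o').ncard) := by
    rintro y hy x - ⟨φ, rfl, hφy⟩
    subst hφy
    rw [hF, Fr.inv, ncard_stabOrbit_iso]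
    have h := Fr.rel o y
    have h1 : (0 : ℝ) < (stabOrbit G y o).ncard := by exact_mod_cast stabOrbit_pos Fr.conn y o
    have h2 : (0 : ℝ) < (stabOrbit G o y).ncard := by exact_mod_cast stabOrbit_pos Fr.conn o y
    field_simp
    linear_combination F o y * h
  calc Fr.wt o * ∑ y ∈ Y, F o y
      = ∑ y ∈ Y, ∑ x ∈ X.filter (rel y), Fr.wt o * (F o y / (stabOrbit G y o).ncard) := by
        rw [Finset.mul_sum]
        refine Finset.sum_congr rfl fun y hy => ?_
        rw [Finset.sum_const, hrow y hy, nsmul_eq_mul]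
        have h1 : (0 : ℝ) < (stabOrbit G y o).ncard := by exact_mod_cast stabOrbit_pos Fr.conn y o
        field_simp
    _ = ∑ y ∈ Y, ∑ x ∈ X.filter (rel y), Fr.wt o' * (F x o' / (stabOrbit G x o').ncard) :=
        Finset.sum_congr rfl fun y hy => Finset.sum_congr rfl fun x hx =>
          hpair y hy x (Finset.mem_filter.1 hx).1 (Finset.mem_filter.1 hx).2
    _ = ∑ x ∈ X, ∑ _y ∈ Y.filter (fun y => rel y x),
          Fr.wt o' * (F x o' / (stabOrbit G x o').ncard) := by
        simp only [Finset.sum_filter]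
        exact Finset.sum_comm
    _ = Fr.wt o' * ∑ x ∈ X, F x o' := by
        rw [Finset.mul_sum]
        refine Finset.sum_congr rfl fun x hx => ?_
        rw [Finset.sum_const, hcol x hx, nsmul_eq_mul]
        have h1 : (0 : ℝ) < (stabOrbit G x o').ncard := by exact_mod_cast stabOrbit_pos Fr.conn x o'
        field_simp

/-- Mass transport along edges. -/
lemma mass_transport_nbr (Fr : Frame G) (F : V → V → ℝ)
    (hF : ∀ (φ : G ≃g G) x y, F (φ x) (φ y) = F x y) :
    ∑ o ∈ Fr.reps, Fr.wt o * ∑ y ∈ G.neighborFinset o, F o y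
      = ∑ o ∈ Fr.reps, Fr.wt o * ∑ y ∈ G.neighborFinset o, F y o := by
  have hb : ∀ o, (ballF G 1 o).filter (fun y => G.Adj o y) = G.neighborFinset o := by
    intro o
    ext y
    simp only [ballF, Finset.mem_filter, Finset.mem_union, Finset.mem_singleton,
      Finset.singleton_biUnion, mem_neighborFinset]
    exact ⟨fun h => h.2, fun h => ⟨Or.inr h, h⟩⟩
  have h := mass_transport Fr (fun x y => if G.Adj x y then F x y else 0) 1 (fun φ x y => by
    simp only [φ.map_adj_iff, hF φ x y])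
  have hr : ∀ o, (∑ y ∈ ballF G 1 o, if G.Adj y o then F y o else 0)
      = ∑ y ∈ G.neighborFinset o, F y o := by
    intro o
    simp only [G.adj_comm _ o]
    rw [← Finset.sum_filter, hb]
  simp only [hr] at h
  simp only [← Finset.sum_filter, hb] at h
  exact h

end Vale.Agent.P151
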