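import Vale.Agent.P151.Glue
import Vale.Agent.P151.QTransport

/-!
The two-ghost inequality and gluing on a unimodular quasi-transitive graph.
-/

namespace Vale.Agent.P151

open MeasureTheory SimpleGraph Finset Vale.Agent.P165
open scoped Classical

set_option linter.unusedSectionVars false

variable {V : Type*} {G : SimpleGraph V}

/-- A middle-sized cluster at `a` and a big one at `b`, not connected. -/
def QGhost (G : SimpleGraph V) (n : ℕ) (a b : V) (ω : Set (Sym2 V)) : Prop :=
  Mid G n ω a ∧ ¬Small G n ω b ∧ ¬Conn G ω a b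

/-- Half weight on internal edges. -/
noncomputable def qHalf (n : ℕ) (y : V) (C : Set V) : ℝ := psi n C * if y ∈ C then 1 / 2 else 1

/-- The weight of the dart `(x, z)`. -/
noncomputable def qDart (G : SimpleGraph V) (p : unitInterval) (n : ℕ) (x z : V)
    (ω : Set (Sym2 V)) : ℝ :=
  ((p : ℝ) - if s(x, z) ∈ ω then 1 else 0) * cl G (2 * n) x (qHalf n z) ω

variable [G.LocallyFinite]

/-- The weight of a vertex. -/
noncomputable def qVert (G : SimpleGraph V) [G.LocallyFinite] (p : unitInterval) (n : ℕ) (x : V)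
    (ω : Set (Sym2 V)) : ℝ := ∑ z ∈ G.neighborFinset x, qDart G p n x z ω

lemma loc_qDart (p : unitInterval) (n : ℕ) {x z : V} (h : G.Adj x z) :
    Loc G (qDart G p n x z) :=
  ((loc_mem (show s(x, z) ∈ G.edgeSet from h)).comp
    fun q : Prop => (p : ℝ) - if q then 1 else 0).comp₂ (loc_cl _ _ _) (· * ·)

lemma loc_qVert (p : unitInterval) (n : ℕ) (x : V) : Loc G (qVert G p n x) :=
  Loc.sum _ fun _ hz => loc_qDart p n ((G.mem_neighborFinset _ _).1 hz)

lemma qDart_pull (p : unitInterval) (n : ℕ) (σ : G ≃g G) (x z : V) (ω : Set (Sym2 V)) :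
    qDart G p n x z (pull σ ω) = qDart G p n (σ x) (σ z) ω := by
  have hF : qHalf n z (Cl G (pull σ ω) x) = qHalf n (σ z) (Cl G ω (σ x)) := by
    simp only [qHalf, psi, cl_pull, Set.mem_preimage, ncard_preimage_iso]
  simp only [qDart, mem_pull, cl, small_pull, hF]

lemma qVert_pull (p : unitInterval) (n : ℕ) (σ : G ≃g G) (x : V) (ω : Set (Sym2 V)) :
    qVert G p n x (pull σ ω) = qVert G p n (σ x) ω := by
  simp only [qVert, qDart_pull]
  refine Finset.sum_bij (fun z _ => σ z) ?_ ?_ ?_ ?_
  · intro z hz; rw [mem_neighborFinset] at hz ⊢; exact σ.map_adj_iff.2 hz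
  · exact fun a _ b _ h => σ.injective h
  · intro z hz
    refine ⟨σ.symm z, ?_, σ.apply_symm_apply z⟩
    rw [mem_neighborFinset] at hz ⊢
    simpa using σ.symm.map_adj_iff.2 hz
  · exact fun z _ => rfl

lemma ex_qDart_iso (p : unitInterval) (n : ℕ) (σ : G ≃g G) {x z : V} (h : G.Adj x z) :
    Ex G p (qDart G p n (σ x) (σ z)) = Ex G p (qDart G p n x z) := by
  rw [← ex_map p (loc_qDart p n h) σ]
  congr 1
  funext ω
  exact (qDart_pull p n σ x z ω).symm

lemma loc_qGhost (n : ℕ) (a b : V) :
    Loc G (fun ω => if QGhost G n a b ω then (1 : ℝ) else 0) := by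
  convert loc_split (G := G) n b a using 2 with ω
  exact if_congr ⟨fun h => ⟨h.2.1, h.1, fun c => h.2.2 c.symm⟩,
    fun h => ⟨h.2.1, h.1, fun c => h.2.2 c.symm⟩⟩ rfl rfl

lemma ex_qghost_le_dart (p : unitInterval) {n : ℕ} (hn : 0 < n) {a b : V} (hadj : G.Adj a b) :
    (p : ℝ) / 4 * Ex G p (fun ω => if QGhost G n a b ω then 1 else 0)
      ≤ Ex G p (qDart G p n a b) + Ex G p (qDart G p n b a) := by
  set e := s(a, b) with he
  have heG : e ∈ G.edgeSet := hadj
  have hlA := loc_qDart (G := G) p n hadj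
  have hlB := loc_qDart (G := G) p n hadj.symm
  have hlocT := loc_qGhost (G := G) n a b
  rw [← ex_add p hlA hlB, ex_edge p hlocT heG, ex_edge p (hlA.comp₂ hlB (· + ·)) heG]
  have hT1 : Ex G p (fun ω => if QGhost G n a b (insert e ω) then (1 : ℝ) else 0) = 0 := by
    have : ∀ ω, ¬QGhost G n a b (insert e ω) := fun ω h =>
      h.2.2 (openGraph_adj.2 ⟨Set.mem_insert _ _, hadj⟩).reachable
    simp [this, ex_const]
  rw [hT1, mul_zero, add_zero]
  set f := fun ω => qDart G p n a b ω + qDart G p n b a ω with hf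
  have hl : Loc G f := hlA.comp₂ hlB (· + ·)
  have key : (1 - (p : ℝ)) ≠ 0 → ∀ ω,
      (p : ℝ) / 4 * (if QGhost G n a b (ω \ {e}) then (1 : ℝ) else 0)
        ≤ f (ω \ {e}) + (p : ℝ) / (1 - p) * f (insert e ω) := by
    intro hq ω
    set ω0 := ω \ {e} with hω0
    have hne : e ∉ ω0 := fun h => h.2 rfl
    have hins : insert e ω = insert e ω0 := by simp [hω0]
    have hu : Cl G (insert e ω0) a = Cl G ω0 a ∪ Cl G ω0 b := cl_insert hadj hne
    have hc1 : Conn G (insert e ω0) a b :=
      (openGraph_adj.2 ⟨Set.mem_insert _ _, hadj⟩).reachable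
    have hf1 : f (insert e ω) = ((p : ℝ) - 1) * cl G (2 * n) a (psi n) (insert e ω0) := by
      rw [hins, hf]
      simp only [qDart]
      rw [show s(b, a) = e from Sym2.eq_swap, ← he, if_pos (Set.mem_insert _ _), cl_of_conn hc1]
      simp only [cl]
      split_ifs with h
      · simp only [qHalf, if_pos (show b ∈ Cl G (insert e ω0) a from hc1),
          if_pos (show a ∈ Cl G (insert e ω0) a from Reachable.refl _)]
        ring
      · ring
    have hf0 : f ω0 = (p : ℝ) * (cl G (2 * n) a (qHalf n b) ω0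
        + cl G (2 * n) b (qHalf n a) ω0) := by
      simp only [hf, qDart]
      rw [show s(b, a) = e from Sym2.eq_swap, ← he, if_neg hne]
      ring
    rw [hf1, hf0]
    have hsimp : (p : ℝ) / (1 - p) * (((p : ℝ) - 1) * cl G (2 * n) a (psi n) (insert e ω0))
        = -(p : ℝ) * cl G (2 * n) a (psi n) (insert e ω0) := by
      field_simp
      ring
    rw [hsimp]
    suffices hk : 1 / 4 * (if QGhost G n a b ω0 then (1 : ℝ) else 0) ≤
        cl G (2 * n) a (qHalf n b) ω0 + cl G (2 * n) b (qHalf n a) ω0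
          - cl G (2 * n) a (psi n) (insert e ω0) by
      have := mul_le_mul_of_nonneg_left hk p.2.1
      linarith
    by_cases hc : Conn G ω0 a b
    · have hT : ¬QGhost G n a b ω0 := fun h => h.2.2 hc
      have hueq : Cl G (insert e ω0) a = Cl G ω0 a := by
        rw [hu, cl_eq_of_conn hc, Set.union_self]
      rw [if_neg hT, cl_of_conn hc]
      have hsm' : Small G (2 * n) (insert e ω0) a ↔ Small G (2 * n) ω0 a := by
        simp only [Small, hueq]
      by_cases h : Small G (2 * n) ω0 a
      · simp only [cl, if_pos h, if_pos (hsm'.2 h), hueq, qHalf,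
          if_pos (show b ∈ Cl G ω0 a from hc),
          if_pos (show a ∈ Cl G ω0 a from Reachable.refl _)]
        linarith
      · simp only [cl, if_neg h, if_neg fun h' => h (hsm'.1 h')]
        linarith
    · have hb1 : b ∉ Cl G ω0 a := hc
      have ha1 : a ∉ Cl G ω0 b := fun h => hc (Reachable.symm h)
      have hh1 : qHalf n b (Cl G ω0 a) = psi n (Cl G ω0 a) := by simp [qHalf, hb1]
      have hh2 : qHalf n a (Cl G ω0 b) = psi n (Cl G ω0 b) := by simp [qHalf, ha1]
      have hA : 0 ≤ cl G (2 * n) a (qHalf n b) ω0 := by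
        simp only [cl]; split_ifs
        · rw [hh1]; exact psi_nonneg _ _
        · exact le_rfl
      have hB : 0 ≤ cl G (2 * n) b (qHalf n a) ω0 := by
        simp only [cl]; split_ifs
        · rw [hh2]; exact psi_nonneg _ _
        · exact le_rfl
      by_cases hbig : Small G (2 * n) (insert e ω0) a
      · have hsub := small_anti (Set.subset_insert e ω0) hbig
        have hsub2 : Small G (2 * n) ω0 b :=
          small_anti (Set.subset_insert e ω0) ((small_iff_of_conn hc1).2 hbig)
        have hdis : Disjoint (Cl G ω0 a) (Cl G ω0 b) := Set.disjoint_left.2 fun y hy hy' =>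
          hc (Reachable.trans hy (Reachable.symm hy'))
        simp only [cl, if_pos hbig, if_pos hsub, if_pos hsub2, hh1, hh2]
        have hcard : ((Cl G (insert e ω0) a).ncard : ℝ)
            = (Cl G ω0 a).ncard + (Cl G ω0 b).ncard := by
          rw [hu, Set.ncard_union_eq hdis hsub.1 hsub2.1]; push_cast; ring
        have hpsi : psi n (Cl G ω0 a) + psi n (Cl G ω0 b) - psi n (Cl G (insert e ω0) a)
            = psi n (Cl G ω0 a) * psi n (Cl G ω0 b) := by
          simp only [psi, hcard]
          rw [neg_add, add_div, Real.exp_add]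
          ring
        rw [hpsi]
        split_ifs with hT
        · obtain ⟨⟨hm, -⟩, hb, -⟩ := hT
          have ha' : n ≤ (Cl G ω0 a).ncard := not_lt.1 fun h => hm ⟨hsub.1, h⟩
          have hb' : n ≤ (Cl G ω0 b).ncard := not_lt.1 fun h => hb ⟨hsub2.1, h⟩
          have := mul_le_mul (half_le_psi hn ha') (half_le_psi hn hb') (by norm_num)
            (psi_nonneg _ _)
          linarith
        · simpa using mul_nonneg (psi_nonneg _ _) (psi_nonneg _ _)
      · have h0 : cl G (2 * n) a (psi n) (insert e ω0) = 0 := by simp [cl, hbig]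
        rw [h0, sub_zero]
        split_ifs with hT
        · obtain ⟨⟨hm, hsm1⟩, -, -⟩ := hT
          have ha' : n ≤ (Cl G ω0 a).ncard := not_lt.1 fun h => hm ⟨hsm1.1, h⟩
          have h1' := half_le_psi hn ha'
          have : cl G (2 * n) a (qHalf n b) ω0 = psi n (Cl G ω0 a) := by
            simp [cl, hsm1, hh1]
          linarith
        · linarith
  rcases eq_or_ne (1 - (p : ℝ)) 0 with hq | hq
  · rw [hq, zero_mul, mul_zero, zero_mul, zero_add]
    have hp : (p : ℝ) = 1 := by linarith
    refine mul_nonneg p.2.1 (ex_nonneg p (hl.comp_insert e) fun ω => ?_)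
    simp only [hf, qDart]
    rw [show s(b, a) = e from Sym2.eq_swap, ← he, if_pos (Set.mem_insert _ _), hp]
    simp
  · have hle : Ex G p (fun ω => (p : ℝ) / 4 *
        (if QGhost G n a b (ω \ {e}) then (1 : ℝ) else 0))
        ≤ Ex G p (fun ω => f (ω \ {e}) + (p : ℝ) / (1 - p) * f (insert e ω)) :=
      ex_mono p ((hlocT.comp_sdiff e).comp fun r => (p : ℝ) / 4 * r)
        ((hl.comp_sdiff e).comp₂ (hl.comp_insert e) fun a b => a + (p : ℝ) / (1 - p) * b)
        (key hq)
    rw [ex_mul p (hlocT.comp_sdiff e), ex_add p (hl.comp_sdiff e)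
      ((hl.comp_insert e).comp fun r => (p : ℝ) / (1 - p) * r), ex_mul p (hl.comp_insert e)] at hle
    have hpos : (0 : ℝ) < 1 - p := lt_of_le_of_ne (by linarith [p.2.2]) hq.symm
    have := mul_le_mul_of_nonneg_left hle hpos.le
    rw [mul_add, ← mul_assoc (1 - (p : ℝ)) ((p : ℝ) / (1 - p)), mul_div_cancel₀ _ hq] at this
    linarith

lemma sum_qDart (p : unitInterval) (n : ℕ) (ω : Set (Sym2 V)) (x : V) (hx : Small G (2 * n) ω x) :
    ∑ y ∈ clF G (2 * n) ω x, qVert G p n y ω
      = psi n (Cl G ω x) * imbalance G p (2 * n) x ω := by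
  set C := clF G (2 * n) ω x with hC
  have hmem : ∀ y, y ∈ C ↔ y ∈ Cl G ω x := fun y => by rw [← coe_clF hx, Finset.mem_coe]
  have hy : ∀ y ∈ C, ∀ z ∈ G.neighborFinset y, qDart G p n y z ω = psi n (Cl G ω x)
      * (((p : ℝ) - if s(y, z) ∈ ω then 1 else 0) * if z ∈ C then 1 / 2 else 1) := by
    intro y hy z _
    have hc : Conn G ω x y := (hmem y).1 hy
    simp only [qDart, cl_of_conn hc]
    simp only [cl, if_pos hx, qHalf, hmem]
    ring
  simp only [qVert]
  rw [Finset.sum_congr rfl fun y hyC => Finset.sum_congr rfl (hy y hyC)]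
  simp only [← Finset.mul_sum]
  congr 1
  rw [imbalance, if_pos hx, ← hC]
  set w : Sym2 V → ℝ := fun e => ((p : ℝ) - if e ∈ ω then 1 else 0)
    * if (∀ v ∈ e, v ∈ C) then 1 / 2 else 1 with hw
  have hdart : ∀ y ∈ C, (∑ z ∈ G.neighborFinset y, ((p : ℝ) - if s(y, z) ∈ ω then 1 else 0)
      * if z ∈ C then 1 / 2 else 1) = ∑ e ∈ (edgesAt G C).filter (fun e => y ∈ e), w e := by
    intro y hy
    refine Finset.sum_bij (fun z _ => s(y, z)) ?_ ?_ ?_ ?_
    · exact fun z hz => Finset.mem_filter.2
        ⟨(mem_edgesAt G).2 ⟨(G.mem_neighborFinset _ _).1 hz, Or.inl hy⟩, Sym2.mem_mk_left _ _⟩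
    · exact fun a _ b _ h => Sym2.congr_right.1 h
    · intro e he
      rw [Finset.mem_filter] at he
      obtain ⟨he, hye⟩ := he
      obtain ⟨z, rfl⟩ := hye
      exact ⟨z, (G.mem_neighborFinset _ _).2 ((mem_edgesAt G).1 he).1, rfl⟩
    · intro z _
      simp [hw, hy]
  rw [Finset.sum_congr rfl hdart]
  simp only [Finset.sum_filter]
  rw [Finset.sum_comm]
  refine Finset.sum_congr rfl fun e he => ?_
  revert he
  induction e using Sym2.ind with
  | h a b =>
    intro he
    rw [mem_edgesAt] at he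
    have hne : a ≠ b := G.ne_of_adj he.1
    rw [← Finset.sum_filter, Finset.sum_const, nsmul_eq_mul]
    by_cases ha : a ∈ C
    · by_cases hb : b ∈ C
      · have : C.filter (fun y => y ∈ s(a, b)) = {a, b} := by
          ext y; simp only [Finset.mem_filter, Sym2.mem_iff, Finset.mem_insert,
            Finset.mem_singleton]
          exact ⟨fun h => h.2, fun h => ⟨by rcases h with rfl | rfl <;> assumption, h⟩⟩
        rw [this, Finset.card_pair hne]
        simp [hw, ha, hb]
        ring
      · have : C.filter (fun y => y ∈ s(a, b)) = {a} := by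
          ext y; simp only [Finset.mem_filter, Sym2.mem_iff, Finset.mem_singleton]
          exact ⟨fun h => h.2.resolve_right fun h' => hb (h' ▸ h.1),
            fun h => ⟨h ▸ ha, Or.inl h⟩⟩
        rw [this, Finset.card_singleton]
        simp [hw, ha, hb]
    · have hb : b ∈ C := he.2.resolve_left ha
      have : C.filter (fun y => y ∈ s(a, b)) = {b} := by
        ext y; simp only [Finset.mem_filter, Sym2.mem_iff, Finset.mem_singleton]
        exact ⟨fun h => h.2.resolve_left fun h' => ha (h' ▸ h.1),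
          fun h => ⟨h ▸ hb, Or.inr h⟩⟩
      rw [this, Finset.card_singleton]
      simp [hw, ha, hb]

/-- Total weight of the representatives. -/
noncomputable def Frame.total (Fr : Frame G) : ℝ := ∑ o ∈ Fr.reps, Fr.wt o

lemma Frame.total_pos (Fr : Frame G) : 0 < Fr.total := by
  obtain ⟨v⟩ := Fr.conn.nonempty
  obtain ⟨o, ho, -⟩ := Fr.cover v
  exact Finset.sum_pos (fun x _ => Fr.pos x) ⟨o, ho⟩

lemma ex_qVert_le (Fr : Frame G) {d : ℕ} (hd : ∀ v, #(G.neighborFinset v) ≤ d)
    (p : unitInterval) (n : ℕ) :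
    ∑ o ∈ Fr.reps, Fr.wt o * Ex G p (qVert G p n o)
      ≤ Fr.total * (Real.sqrt (d * (2 * n : ℕ)) / n) := by
  set K : V → V → Set (Sym2 V) → ℝ := fun x y ω =>
    cl G (2 * n) x (fun C => if y ∈ C then 1 / (C.ncard : ℝ) else 0) ω * qVert G p n y ω with hK
  have hlK : ∀ x y, Loc G (K x y) := fun x y =>
    (loc_cl (2 * n) x _).comp₂ (loc_qVert p n y) (· * ·)
  have hKinv : ∀ (σ : G ≃g G) x y, Ex G p (K (σ x) (σ y)) = Ex G p (K x y) := by
    intro σ x y
    rw [← ex_map p (hlK x y) σ]
    congr 1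
    funext ω
    change _ = K x y (pull σ ω)
    simp only [hK, qVert_pull, cl, small_pull, cl_pull, Set.mem_preimage, ncard_preimage_iso]
  have hcf : ∀ o ω, Small G (2 * n) ω o →
      (ballF G (2 * n) o).filter (fun y => y ∈ Cl G ω o) = clF G (2 * n) ω o := fun o ω _ => rfl
  have hone : ∀ o ω, qVert G p n o ω = ∑ y ∈ ballF G (2 * n) o, K y o ω := by
    intro o ω
    simp only [hK, ← Finset.sum_mul]
    by_cases hs : Small G (2 * n) ω o
    · have : ∑ y ∈ ballF G (2 * n) o,
          cl G (2 * n) y (fun C => if o ∈ C then 1 / (C.ncard : ℝ) else 0) ω = 1 := by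
        have hterm : ∀ y ∈ ballF G (2 * n) o, cl G (2 * n) y
            (fun C => if o ∈ C then 1 / (C.ncard : ℝ) else 0) ω
            = if y ∈ Cl G ω o then 1 / ((Cl G ω o).ncard : ℝ) else 0 := by
          intro y _
          by_cases hy : Conn G ω o y
          · rw [cl_of_conn hy, if_pos (show y ∈ Cl G ω o from hy)]
            simp [cl, hs, show o ∈ Cl G ω o from Reachable.refl _]
          · have : o ∉ Cl G ω y := fun h => hy (Reachable.symm h)
            simp [cl, this, show y ∉ Cl G ω o from hy]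
        rw [Finset.sum_congr rfl hterm, ← Finset.sum_filter, hcf o ω hs, Finset.sum_const,
          nsmul_eq_mul, card_clF hs, mul_one_div, div_self]
        have : 0 < (Cl G ω o).ncard := (Set.ncard_pos hs.1).2 ⟨o, Reachable.refl _⟩
        exact_mod_cast this.ne'
      rw [this, one_mul]
    · have : qVert G p n o ω = 0 := by simp [qVert, qDart, cl, hs]
      rw [this, mul_zero]
  have hnn : ∀ o ω, ∑ y ∈ ballF G (2 * n) o, K o y ω
      ≤ 1 / (n : ℝ) * |imbalance G p (2 * n) o ω| := by
    intro o ω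
    by_cases hs : Small G (2 * n) ω o
    · have hterm : ∀ y ∈ ballF G (2 * n) o, K o y ω = if y ∈ Cl G ω o then
          1 / ((Cl G ω o).ncard : ℝ) * qVert G p n y ω else 0 := by
        intro y _
        simp only [hK, cl, if_pos hs]
        split_ifs <;> simp
      rw [Finset.sum_congr rfl hterm, ← Finset.sum_filter, hcf o ω hs, ← Finset.mul_sum,
        sum_qDart p n ω o hs, ← mul_assoc]
      have hpos : (0 : ℝ) < (Cl G ω o).ncard := by
        exact_mod_cast (Set.ncard_pos hs.1).2 ⟨o, Reachable.refl _⟩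
      have hcoef : 1 / ((Cl G ω o).ncard : ℝ) * psi n (Cl G ω o) ≤ 1 / (n : ℝ) := by
        refine (mul_le_mul_of_nonneg_left (psi_le n _) (by positivity)).trans (le_of_eq ?_)
        field_simp
      refine le_trans ?_ (mul_le_mul_of_nonneg_right hcoef (abs_nonneg _))
      exact mul_le_mul_of_nonneg_left (le_abs_self _)
        (mul_nonneg (by positivity) (psi_nonneg _ _))
    · simp only [hK, cl, if_neg hs, zero_mul, Finset.sum_const_zero]
      positivity
  have hmt := mass_transport Fr (fun x y => Ex G p (K x y)) (2 * n) hKinv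
  calc ∑ o ∈ Fr.reps, Fr.wt o * Ex G p (qVert G p n o)
      = ∑ o ∈ Fr.reps, Fr.wt o * ∑ y ∈ ballF G (2 * n) o, Ex G p (K y o) := by
        refine Finset.sum_congr rfl fun o _ => ?_
        rw [← ex_sum p _ fun y _ => hlK y o]
        exact congrArg (fun t => Fr.wt o * t) (congrArg (Ex G p) (funext (hone o)))
    _ = ∑ o ∈ Fr.reps, Fr.wt o * ∑ y ∈ ballF G (2 * n) o, Ex G p (K o y) := hmt.symm
    _ ≤ ∑ o ∈ Fr.reps, Fr.wt o * (Real.sqrt (d * (2 * n : ℕ)) / n) := by
        refine Finset.sum_le_sum fun o _ => mul_le_mul_of_nonneg_left ?_ (Fr.pos o).le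
        rw [← ex_sum p _ fun y _ => hlK o y]
        refine (ex_mono p (Loc.sum _ fun y _ => hlK o y)
          ((loc_imbalance p (2 * n) o).comp fun r => 1 / (n : ℝ) * |r|) (hnn o)).trans ?_
        rw [ex_mul p ((loc_imbalance p (2 * n) o).comp fun r => |r|), one_div, inv_mul_eq_div]
        gcongr
        exact ex_abs_imbalance_le hd p (2 * n) o
    _ = _ := by rw [Frame.total, Finset.sum_mul]

lemma Frame.exists_min (Fr : Frame G) : ∃ w : ℝ, 0 < w ∧ ∀ x, w ≤ Fr.wt x := by
  obtain ⟨v⟩ := Fr.conn.nonempty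
  obtain ⟨o, ho, -⟩ := Fr.cover v
  refine ⟨Fr.reps.inf' ⟨o, ho⟩ Fr.wt, ?_, fun x => ?_⟩
  · exact (Finset.lt_inf'_iff _).2 fun y _ => Fr.pos y
  · obtain ⟨o', ho', φ, rfl⟩ := Fr.cover x
    rw [Fr.inv]
    exact Finset.inf'_le _ ho'

/-- The two-ghost inequality: `p * P(ghost) ≤ κ / √n`. -/
theorem qtwo_ghost (Fr : Frame G) {d : ℕ} (hd : ∀ v, #(G.neighborFinset v) ≤ d) :
    ∃ κ : ℝ, 0 ≤ κ ∧ ∀ (p : unitInterval) (n : ℕ), 0 < n → ∀ a b, G.Adj a b →
      (p : ℝ) * Ex G p (fun ω => if QGhost G n a b ω then 1 else 0)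
        ≤ κ * (Real.sqrt (d * (2 * n : ℕ)) / n) := by
  obtain ⟨w, hw, hwmin⟩ := Fr.exists_min
  refine ⟨8 * Fr.total / w, div_nonneg (mul_nonneg (by norm_num) Fr.total_pos.le) hw.le,
    fun p n hn a b hab => ?_⟩
  obtain ⟨o, ho, φ, rfl⟩ := Fr.cover a
  set b' := φ.symm b with hb'
  have hb : φ b' = b := φ.apply_symm_apply b
  rw [← hb] at hab ⊢
  have hab' : G.Adj o b' := φ.map_adj_iff.1 hab
  have hinv : Ex G p (fun ω => if QGhost G n (φ o) (φ b') ω then 1 else 0)
      = Ex G p (fun ω => if QGhost G n o b' ω then 1 else 0) := by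
    rw [← ex_map p (loc_qGhost n o b') φ]
    congr 1
    funext ω
    change _ = if QGhost G n o b' (pull φ ω) then (1 : ℝ) else 0
    exact if_congr (by simp only [QGhost, mid_pull, small_pull, conn_pull]) rfl rfl
  rw [hinv]
  set T : V → V → ℝ := fun x z => Ex G p (fun ω => if QGhost G n x z ω then 1 else 0) with hT
  have hnn : ∀ x z, 0 ≤ T x z := fun x z =>
    ex_nonneg p (loc_qGhost n x z) fun ω => by split_ifs <;> norm_num
  have hsum : ∑ x ∈ Fr.reps, Fr.wt x * ∑ z ∈ G.neighborFinset x, ((p : ℝ) / 4 * T x z)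
      ≤ 2 * ∑ x ∈ Fr.reps, Fr.wt x * Ex G p (qVert G p n x) := by
    refine (Finset.sum_le_sum fun x _ => mul_le_mul_of_nonneg_left (Finset.sum_le_sum fun z hz =>
      ex_qghost_le_dart p hn ((G.mem_neighborFinset _ _).1 hz)) (Fr.pos x).le).trans (le_of_eq ?_)
    simp only [Finset.sum_add_distrib, mul_add]
    have h := mass_transport_nbr Fr
      (fun x z => if G.Adj x z then Ex G p (qDart G p n x z) else 0) (fun σ x z => by
        simp only [σ.map_adj_iff]
        split_ifs with h
        · exact ex_qDart_iso p n σ h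
        · rfl)
    have hl : ∀ x, (∑ z ∈ G.neighborFinset x, if G.Adj x z then Ex G p (qDart G p n x z) else 0)
        = ∑ z ∈ G.neighborFinset x, Ex G p (qDart G p n x z) := fun x =>
      Finset.sum_congr rfl fun z hz => if_pos ((G.mem_neighborFinset _ _).1 hz)
    have hr : ∀ x, (∑ z ∈ G.neighborFinset x, if G.Adj z x then Ex G p (qDart G p n z x) else 0)
        = ∑ z ∈ G.neighborFinset x, Ex G p (qDart G p n z x) := fun x =>
      Finset.sum_congr rfl fun z hz => if_pos ((G.mem_neighborFinset _ _).1 hz).symm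
    simp only [hl, hr] at h
    rw [← h, two_mul]
    have hv : ∀ x, ∑ z ∈ G.neighborFinset x, Ex G p (qDart G p n x z) = Ex G p (qVert G p n x) :=
      fun x => (ex_sum p _ fun z hz => loc_qDart p n ((G.mem_neighborFinset _ _).1 hz)).symm
    simp only [hv]
  have h1 : Fr.wt o * ((p : ℝ) / 4 * T o b')
      ≤ ∑ x ∈ Fr.reps, Fr.wt x * ∑ z ∈ G.neighborFinset x, ((p : ℝ) / 4 * T x z) := by
    refine le_trans ?_ (Finset.single_le_sum (fun x _ => mul_nonneg (Fr.pos x).le
      (Finset.sum_nonneg fun z _ => mul_nonneg (by linarith [p.2.1]) (hnn x z))) ho)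
    exact mul_le_mul_of_nonneg_left (Finset.single_le_sum
      (fun z _ => mul_nonneg (by linarith [p.2.1]) (hnn o z))
      ((G.mem_neighborFinset _ _).2 hab')) (Fr.pos o).le
  have h2 := ex_qVert_le Fr hd p n
  have h3 := mul_le_mul_of_nonneg_right (hwmin o)
    (mul_nonneg (show 0 ≤ (p : ℝ) / 4 by linarith [p.2.1]) (hnn o b'))
  have hT' : T o b' = Ex G p (fun ω => if QGhost G n o b' ω then 1 else 0) := rfl
  rw [← hT', div_mul_eq_mul_div, le_div_iff₀ hw]
  linarith

/-- Gluing along a walk. -/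
lemma ex_qsplit_le (p : unitInterval) (hp : 0 < (p : ℝ)) {n : ℕ} {B : ℝ} (hB : 0 ≤ B)
    (hg : ∀ a b, G.Adj a b → Ex G p (fun ω => if QGhost G n a b ω then 1 else 0) ≤ B) :
    ∀ {a b : V} (w : G.Walk a b),
      Ex G p (fun ω => if splitEvent G n a b ω then 1 else 0)
        ≤ w.length * (1 / (p : ℝ)) ^ w.length * B := by
  intro a b w
  induction w with
  | @nil u =>
    have : ∀ ω, ¬splitEvent G n u u ω := fun ω h => h.2.2 (Reachable.refl _)
    simp [this, ex_const]
  | @cons a c b hac q ih =>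
    set e := s(a, c) with he
    have hlg := loc_qGhost (G := G) n c a
    have hnn : ∀ P : Prop, [Decidable P] → (0 : ℝ) ≤ if P then 1 else 0 := fun P _ => by
      split_ifs <;> norm_num
    have hpt : ∀ ω, (if splitEvent G n a b ω then (1 : ℝ) else 0)
        ≤ (if QGhost G n c a ω then (1 : ℝ) else 0)
          + if splitEvent G n c b (insert e ω) then (1 : ℝ) else 0 := by
      intro ω
      by_cases h : splitEvent G n a b ω
      · obtain ⟨ha, hb, hc⟩ := h
        rw [if_pos ⟨ha, hb, hc⟩]
        by_cases hcb : Conn G ω c b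
        · have : QGhost G n c a ω := ⟨(mid_iff_of_conn hcb).1 hb, ha,
            fun h => hc (Reachable.trans (Reachable.symm h) hcb)⟩
          rw [if_pos this]
          exact le_add_of_nonneg_right (hnn _)
        · have hcl : Cl G (insert e ω) b = Cl G ω b := cl_congr fun u hu v huv => by
            refine ⟨Or.inr, fun h => h.resolve_left fun he' => ?_⟩
            rcases Sym2.eq_iff.1 he' with ⟨rfl, rfl⟩ | ⟨rfl, rfl⟩
            · exact hc (Reachable.symm hu)
            · exact hcb (Reachable.symm hu)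
          have hconn : Conn G (insert e ω) c a :=
            (openGraph_adj.2 ⟨Set.mem_insert _ _, hac⟩).reachable.symm
          have : splitEvent G n c b (insert e ω) := by
            refine ⟨fun hs => ha (small_anti (Set.subset_insert e ω)
              ((small_iff_of_conn hconn).2 hs)), ?_, fun h => ?_⟩
            · simpa [Mid, Small, hcl] using hb
            · have hmem : c ∈ Cl G (insert e ω) b := Reachable.symm h
              rw [hcl] at hmem
              exact hcb (Reachable.symm hmem)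
          rw [if_pos this]
          exact le_add_of_nonneg_left (hnn _)
      · rw [if_neg h]
        exact add_nonneg (hnn _) (hnn _)
    have hl2 := loc_split (G := G) n c b
    have hins : Ex G p (fun ω => if splitEvent G n c b (insert e ω) then (1 : ℝ) else 0)
        ≤ 1 / (p : ℝ) * (q.length * (1 / (p : ℝ)) ^ q.length * B) := by
      refine le_trans ?_ (mul_le_mul_of_nonneg_left ih (by positivity))
      rw [one_div, ← div_eq_inv_mul, le_div_iff₀ hp, mul_comm]
      exact ex_insert_le p hl2 (fun ω => hnn _) (show e ∈ G.edgeSet from hac)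
    calc Ex G p (fun ω => if splitEvent G n a b ω then (1 : ℝ) else 0)
        ≤ _ := ex_mono p (loc_split n a b) (hlg.comp₂ (hl2.comp_insert e) (· + ·)) hpt
      _ = Ex G p _ + Ex G p _ := ex_add p hlg (hl2.comp_insert e)
      _ ≤ B + 1 / (p : ℝ) * (q.length * (1 / (p : ℝ)) ^ q.length * B) :=
          add_le_add (hg c a hac.symm) hins
      _ ≤ _ := by
        rw [Walk.length_cons]
        have h1p : 1 ≤ (1 / (p : ℝ)) ^ (q.length + 1) := one_le_pow₀ ((one_le_div hp).2 p.2.2)
        have := mul_le_mul_of_nonneg_right h1p hB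
        push_cast
        rw [pow_succ] at this ⊢
        linarith

end Vale.Agent.P151
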