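import Vale.Agent.P151.QBound

/-!
From the tail bound to continuity of the percolation density on a unimodular quasi-transitive
graph.
-/

namespace Vale.Agent.P151

open MeasureTheory SimpleGraph Finset Vale.Agent.P165 Filter
open scoped Classical Topology

set_option linter.unusedSectionVars false

variable {V : Type*} (G : SimpleGraph V) [G.LocallyFinite]

/-- The probability that the cluster of `x` has at least `2 ^ m` vertices. -/
noncomputable def qbigProb (p : unitInterval) (m : ℕ) (x : V) : ℝ :=
  Ex G p fun ω => if Small G (2 ^ m) ω x then 0 else 1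

lemma qloc_notSmall (m : ℕ) (x : V) :
    Loc G fun ω => if Small G (2 ^ m) ω x then (0 : ℝ) else 1 :=
  (loc_small (2 ^ m) x).comp fun a : Prop => if a then (0 : ℝ) else 1

lemma qbigProb_succ (p : unitInterval) (m : ℕ) (x : V) :
    qbigProb G p m x = qbigProb G p (m + 1) x + Ex G p (midInd G (2 ^ m) x) := by
  rw [qbigProb, qbigProb, ← ex_add p (qloc_notSmall G (m + 1) x) (loc_midInd _ _)]
  congr 1
  funext ω
  rw [pow_succ, mul_comm]
  unfold midInd Mid
  by_cases h : Small G (2 ^ m) ω x
  · have : Small G (2 * 2 ^ m) ω x := ⟨h.1, h.2.trans_le (by omega)⟩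
    simp [h, this]
  · by_cases h' : Small G (2 * 2 ^ m) ω x <;> simp [h, h']

lemma qbigProb_eq_real (p : unitInterval) (m : ℕ) (x : V) :
    MeasurableSet {ω | ¬Small G (2 ^ m) ω x} ∧
    qbigProb G p m x = (percMeasure G p).real {ω | ¬Small G (2 ^ m) ω x} := by
  obtain ⟨E, hE, h⟩ := loc_small (G := G) (2 ^ m) x
  have heq : {ω | ¬Small G (2 ^ m) ω x}
      = {ω : Set (Sym2 V) | (fun A : Finset (Sym2 V) => ¬Small G (2 ^ m) (↑A) x) (tr E ω)} := by
    ext ω
    have := h ω (↑(tr E ω)) fun e he => by simp [mem_tr, he]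
    simp only at this
    simp only [Set.mem_setOf_eq, this]
  refine ⟨heq ▸ measurableSet_tr E (fun A : Finset (Sym2 V) => ¬Small G (2 ^ m) (↑A) x), ?_⟩
  rw [heq, real_tr p hE (fun A : Finset (Sym2 V) => ¬Small G (2 ^ m) (↑A) x), qbigProb,
    ex_eq p hE fun a b c => by
      have := h a b c
      simp only at this
      simp only [this]]
  exact expect_congr fun A _ => by by_cases hA : Small G (2 ^ m) (↑A) x <;> simp [hA]

/-- The percolation density at `x`. -/
noncomputable def qdensity (p : unitInterval) (x : V) : ℝ :=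
  (percMeasure G p).real (infAt G x)

lemma tendsto_qbigProb (p : unitInterval) (x : V) :
    Tendsto (fun m => qbigProb G p m x) atTop (𝓝 (qdensity G p x)) := by
  set A := fun m : ℕ => {ω | ¬Small G (2 ^ m) ω x} with hA
  have hanti : Antitone A := by
    intro a b hab ω hω hs
    exact hω ⟨hs.1, hs.2.trans_le (Nat.pow_le_pow_right (by norm_num) hab)⟩
  have hinter : ⋂ m, A m = infAt G x := by
    ext ω
    have hsupp : ((openGraph G ω).connectedComponentMk x).supp = Cl G ω x := by
      ext y
      simp only [ConnectedComponent.mem_supp_iff, ConnectedComponent.eq]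
      exact ⟨fun h => h.symm, fun h => h.symm⟩
    simp only [Set.mem_iInter, hA, Set.mem_setOf_eq, infAt, hsupp]
    constructor
    · intro h hfin
      exact h (Cl G ω x).ncard ⟨hfin, Nat.lt_two_pow_self⟩
    · exact fun h m hs => h hs.1
  have ht := tendsto_measure_iInter_atTop (μ := percMeasure G p)
    (fun m => (qbigProb_eq_real G p m x).1.nullMeasurableSet) hanti ⟨0, measure_ne_top _ _⟩
  rw [hinter] at ht
  have ht' := (ENNReal.tendsto_toReal (measure_ne_top _ _)).comp ht
  refine ht'.congr fun m => ?_
  rw [(qbigProb_eq_real G p m x).2]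
  rfl

lemma continuous_qbigProb (m : ℕ) (x : V) :
    Continuous fun p : unitInterval => qbigProb G p m x := by
  obtain ⟨E, hE, h⟩ := qloc_notSmall G m x
  have heq : (fun p : unitInterval => qbigProb G p m x) = fun p : unitInterval =>
      P165.expect (p : ℝ) E fun A => if Small G (2 ^ m) (↑A) x then 0 else 1 :=
    funext fun p => ex_eq p hE h
  rw [heq]
  unfold P165.expect
  exact continuous_finsetSum _ fun A _ => ((continuous_subtype_val.pow _).mul
    ((continuous_const.sub continuous_subtype_val).pow _)).mul continuous_const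

lemma qdensity_continuousOn (Fr : Frame G) {d : ℕ} (hd : ∀ v, #(G.neighborFinset v) ≤ d)
    (hdeg1 : ∀ x, 1 ≤ deg G x) {γ c : ℝ} (hγ : 1 / 3 < γ) (hγ2 : γ ≤ 1 / 2) (hc : 0 < c)
    (hret : ∀ᶠ k : ℕ in atTop, ∀ x, row G (2 * k) x x ≤ Real.exp (-(c * (k : ℝ) ^ γ))) (x : V) :
    ContinuousOn (fun p : unitInterval => qdensity G p x) {p | 0 < (p : ℝ)} := by
  have key : ∀ p0 : ℝ, 0 < p0 →
      ContinuousOn (fun p : unitInterval => qdensity G p x) {p | p0 ≤ (p : ℝ)} := by
    intro p0 hp0
    obtain ⟨ε, hs, hnn, hε⟩ := qmid_bound Fr hd hdeg1 hγ hγ2 hc hret hp0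
    have hunif : TendstoUniformlyOn (fun m (p : unitInterval) => qbigProb G p m x)
        (fun p => qdensity G p x) atTop {p | p0 ≤ (p : ℝ)} := by
      rw [Metric.tendstoUniformlyOn_iff]
      intro e he
      filter_upwards [(tendsto_sum_nat_add ε).eventually_lt_const he] with m hm p hp
      have hdiff : ∀ j, qbigProb G p m x - qbigProb G p (m + j) x
          = ∑ i ∈ range j, Ex G p (midInd G (2 ^ (i + m)) x) := by
        intro j
        induction j with
        | zero => simp
        | succ j ih =>
          rw [Finset.sum_range_succ, ← ih]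
          have h := qbigProb_succ G p (m + j) x
          rw [add_comm j m, ← add_assoc]
          linarith
      have hlim : Tendsto (fun j => qbigProb G p m x - qbigProb G p (m + j) x) atTop
          (𝓝 (qbigProb G p m x - qdensity G p x)) := by
        refine tendsto_const_nhds.sub ((tendsto_qbigProb G p x).comp ?_)
        exact tendsto_atTop_mono (fun j => Nat.le_add_left j m) tendsto_id
      have hsm : Summable fun i => ε (i + m) := (summable_nat_add_iff m).2 hs
      have hup : qbigProb G p m x - qdensity G p x ≤ ∑' i, ε (i + m) := by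
        refine le_of_tendsto' hlim fun j => ?_
        rw [hdiff]
        exact (Finset.sum_le_sum fun i _ => hε p hp (i + m) x).trans
          (hsm.sum_le_tsum _ fun i _ => hnn _)
      have hlow : 0 ≤ qbigProb G p m x - qdensity G p x := by
        refine ge_of_tendsto' hlim fun j => ?_
        rw [hdiff]
        exact Finset.sum_nonneg fun i _ => ex_nonneg p (loc_midInd _ _) fun ω => by
          unfold midInd; split_ifs <;> norm_num
      rw [Real.dist_eq, abs_sub_comm, abs_of_nonneg hlow]
      linarith
    exact hunif.continuousOn (Eventually.of_forall fun m =>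
      (continuous_qbigProb G m x).continuousOn).frequently
  intro p hp
  have hp' : 0 < (p : ℝ) := hp
  refine (key ((p : ℝ) / 2) (by linarith) p
    (show (p : ℝ) / 2 ≤ p by linarith)).mono_of_mem_nhdsWithin ?_
  refine mem_nhdsWithin_of_mem_nhds ?_
  exact mem_of_superset
    ((isOpen_lt continuous_const continuous_subtype_val).mem_nhds
      (show (p : ℝ) / 2 < p by linarith)) fun q hq => le_of_lt (show (p : ℝ) / 2 < (q : ℝ) from hq)

lemma countable_of_connected (hconn : G.Connected) : Countable V := by
  obtain ⟨x⟩ := hconn.nonempty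
  refine Set.countable_univ_iff.1 ((Set.countable_iUnion fun n : ℕ =>
    (ballF G n x).countable_toSet).mono fun y _ => ?_)
  obtain ⟨w⟩ := hconn.preconnected x y
  exact Set.mem_iUnion.2 ⟨w.length, Finset.mem_coe.2 (mem_ballF_of_walk w)⟩

lemma qdensity_one [Infinite V] (hconn : G.Connected) (x : V) :
    qdensity G (1 : unitInterval) x = 1 := by
  have := countable_of_connected G hconn
  have hbig : ∀ m, qbigProb G (1 : unitInterval) m x = 1 := by
    intro m
    rw [(qbigProb_eq_real G 1 m x).2]
    refine le_antisymm measureReal_le_one ?_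
    obtain ⟨T, hT⟩ := Infinite.exists_subset_card_eq V (2 ^ m)
    choose w hw using fun y : V => ((hconn.preconnected x y).elim fun q => ⟨q, trivial⟩ :
      ∃ _q : G.Walk x y, True)
    set Q := T.biUnion fun y => (w y).edges.toFinset with hQ
    have hQG : (Q : Set (Sym2 V)) ⊆ G.edgeSet := by
      intro e he
      obtain ⟨y, -, hy⟩ := Finset.mem_biUnion.1 he
      exact walk_edges_subset (w y) hy
    calc (1 : ℝ) = (percMeasure G 1).real (allOpen Q) := by
          rw [real_allOpen 1 hQG]; simp
      _ ≤ _ := measureReal_mono fun ω hω => by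
          intro hs
          have hsub : (T : Set V) ⊆ Cl G ω x := by
            intro y hy
            refine reachable_of_allOpen (w y) fun e he => hω ?_
            exact Finset.mem_coe.2 (Finset.mem_biUnion.2 ⟨y, hy, he⟩)
          have := Set.ncard_le_ncard hsub hs.1
          rw [Set.ncard_coe_finset, hT] at this
          exact absurd hs.2 (not_lt.2 this)
  exact tendsto_nhds_unique (tendsto_qbigProb G 1 x)
    (by simp only [hbig]; exact tendsto_const_nhds)

lemma qdensity_zero [Countable V] (x : V) : qdensity G (0 : unitInterval) x = 0 := by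
  refine le_antisymm ?_ measureReal_nonneg
  have hsub : infAt G x ⊆ ⋃ y ∈ G.neighborFinset x, allOpen {s(x, y)} := by
    intro ω hω
    obtain ⟨y, hy, hy1⟩ := hω.exists_notMem_finset {x}
    obtain ⟨r⟩ := (ConnectedComponent.exact hy).symm
    cases r with
    | nil => simp at hy1
    | @cons a b c hab q =>
      rw [openGraph_adj] at hab
      exact Set.mem_iUnion₂.2 ⟨b, (mem_neighborFinset _ _ _).2 hab.2,
        by simpa [allOpen] using hab.1⟩
  refine (measureReal_mono hsub (measure_ne_top _ _)).trans
    ((measureReal_biUnion_finset_le _ _).trans (le_of_eq ?_))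
  refine Finset.sum_eq_zero fun y hy => ?_
  have hsub' : (({s(x, y)} : Finset (Sym2 V)) : Set (Sym2 V)) ⊆ G.edgeSet := by
    intro e he
    rw [Finset.coe_singleton, Set.mem_singleton_iff] at he
    subst he
    exact (mem_neighborFinset _ _ _).1 hy
  rw [real_allOpen (0 : unitInterval) hsub']
  simp

lemma Frame.exists_degree_bound {G : SimpleGraph V} [G.LocallyFinite] (Fr : Frame G) :
    ∃ d : ℕ, ∀ v, #(G.neighborFinset v) ≤ d := by
  refine ⟨Fr.reps.sup fun o => #(G.neighborFinset o), fun v => ?_⟩
  obtain ⟨o, ho, φ, rfl⟩ := Fr.cover v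
  rw [neighborFinset_map φ o, Finset.card_image_of_injective _ φ.injective]
  exact Finset.le_sup (f := fun o => #(G.neighborFinset o)) ho

lemma one_le_deg [Infinite V] (hconn : G.Connected) (x : V) : 1 ≤ deg G x := by
  obtain ⟨y, hy⟩ := hconn.preconnected.exists_adj_of_nontrivial x
  rw [deg, Nat.one_le_cast]
  exact Finset.card_pos.2 ⟨y, (mem_neighborFinset _ _ _).2 hy⟩

theorem no_percolation_at_pc_unimodular [Infinite V] (hconn : G.Connected)
    (hQ : QuasiTransitive G) (hU : Unimodular G) {γ c : ℝ} (hγ : 1 / 3 < γ) (hc : 0 < c)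
    (hret : ∀ᶠ k : ℕ in atTop, ∀ x, walkProb G (2 * k) x x ≤ Real.exp (-(c * (k : ℝ) ^ γ))) :
    (∃ p : unitInterval, (p : ℝ) = pc G ∧ (p : ℝ) < 1 ∧
      ∀ x, percMeasure G p (infAt G x) = 0) ∧
    ∀ x, ContinuousOn (fun p : unitInterval => (percMeasure G p).real (infAt G x))
      {p | 0 < (p : ℝ)} := by
  obtain ⟨Fr⟩ := exists_frame hconn hQ hU
  obtain ⟨d, hd⟩ := Fr.exists_degree_bound
  have hcount := countable_of_connected G hconn
  set γ' := min γ (1 / 2) with hγ'
  have hret' : ∀ᶠ k : ℕ in atTop, ∀ x,
      row G (2 * k) x x ≤ Real.exp (-(c * (k : ℝ) ^ γ')) := by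
    filter_upwards [hret, eventually_ge_atTop 1] with k hk h1k x
    rw [row_eq_walkProb]
    refine (hk x).trans (Real.exp_le_exp.2 (neg_le_neg (mul_le_mul_of_nonneg_left ?_ hc.le)))
    exact Real.rpow_le_rpow_of_exponent_le (by exact_mod_cast h1k) (min_le_left _ _)
  have hcont := qdensity_continuousOn G Fr hd (one_le_deg G hconn) (lt_min hγ (by norm_num))
    (min_le_right _ _) hc hret'
  set A := {p : ℝ | ∃ hp : p ∈ Set.Icc (0 : ℝ) 1, 0 < percMeasure G ⟨p, hp⟩ (percolates G)} with hA
  have hsub : ∀ x, infAt G x ⊆ percolates G := fun x ω hω => ⟨_, hω⟩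
  obtain ⟨x₀⟩ := hconn.nonempty
  have hmem1 : (1 : ℝ) ∈ A := by
    refine ⟨⟨zero_le_one, le_rfl⟩, lt_of_lt_of_le ?_ (measure_mono (hsub x₀))⟩
    have h := qdensity_one G hconn x₀
    rw [pos_iff_ne_zero]
    intro h0
    have h0' : qdensity G (1 : unitInterval) x₀ = 0 := by
      rw [qdensity, measureReal_def]
      exact (congrArg ENNReal.toReal h0).trans ENNReal.toReal_zero
    rw [h] at h0'
    norm_num at h0'
  have hbdd : BddBelow A := ⟨0, fun q hq => hq.1.1⟩
  have hpc1 : pc G ≤ 1 := csInf_le hbdd hmem1
  have hpc0 : 0 ≤ pc G := le_csInf ⟨1, hmem1⟩ fun q hq => hq.1.1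
  set q : unitInterval := ⟨pc G, hpc0, hpc1⟩ with hq
  have hbelow : ∀ r : unitInterval, (r : ℝ) < pc G → ∀ x, qdensity G r x = 0 := by
    intro r hr x
    by_contra hd'
    refine absurd (csInf_le hbdd ⟨r.2, ?_⟩) (not_le.2 hr)
    rw [pos_iff_ne_zero]
    intro h0
    exact hd' (by
      rw [qdensity, measureReal_def, measure_mono_null (hsub x) h0, ENNReal.toReal_zero])
  have hzero : ∀ x, qdensity G q x = 0 := by
    intro x
    rcases hpc0.eq_or_lt with h0 | h0
    · have : q = 0 := Subtype.ext h0.symm
      rw [this]; exact qdensity_zero G x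
    · have hcw := hcont x q (show 0 < (q : ℝ) from h0)
      have hpos : ∀ n : ℕ, (0 : ℝ) < (n + 1) / (n + 2) ∧ ((n : ℝ) + 1) / (n + 2) < 1 := fun n =>
        ⟨by positivity, by rw [div_lt_one (by positivity)]; linarith⟩
      set u : ℕ → unitInterval := fun n => ⟨pc G * ((n + 1) / (n + 2)),
        mul_nonneg hpc0 (hpos n).1.le, by
          have := mul_le_mul_of_nonneg_left (hpos n).2.le hpc0
          linarith⟩ with hu
      have hmem : ∀ n, u n ∈ {p : unitInterval | 0 < (p : ℝ)} := fun n => mul_pos h0 (hpos n).1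
      have htq : Tendsto u atTop (𝓝 q) := by
        rw [tendsto_subtype_rng]
        have h2 : Tendsto (fun n : ℕ => (1 : ℝ) - 1 / ((n : ℝ) + 2)) atTop (𝓝 (1 - 0)) := by
          refine tendsto_const_nhds.sub ?_
          simp only [one_div]
          exact tendsto_inv_atTop_zero.comp
            (tendsto_atTop_add_const_right _ 2 tendsto_natCast_atTop_atTop)
        have h3 := h2.const_mul (pc G)
        simp only [sub_zero, mul_one] at h3
        refine h3.congr fun n => ?_
        simp only [hu]
        field_simp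
        ring
      have ht := hcw.tendsto.comp
        (tendsto_nhdsWithin_iff.2 ⟨htq, Eventually.of_forall hmem⟩)
      refine tendsto_nhds_unique ht (tendsto_const_nhds.congr fun n => (hbelow (u n) ?_ x).symm)
      exact lt_of_lt_of_eq (mul_lt_mul_of_pos_left (hpos n).2 h0) (mul_one _)
  refine ⟨⟨q, rfl, ?_, fun x => ?_⟩, fun x => hcont x⟩
  · refine lt_of_le_of_ne hpc1 fun he => ?_
    have hq1 : q = 1 := Subtype.ext he
    have := hzero x₀
    rw [hq1, qdensity_one G hconn x₀] at this
    norm_num at this
  · have h := hzero x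
    rw [qdensity, measureReal_def, ENNReal.toReal_eq_zero_iff] at h
    exact h.resolve_right (measure_ne_top _ _)

end Vale.Agent.P151
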