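import Vale.Agent.P151.Local
import Vale.Agent.P151.Cheb

/-!
The averaging operator of a Cayley graph and positive definite kernels on the group.
-/

namespace Vale.Agent.P151

open SimpleGraph Finset
open scoped Classical InnerProductSpace

set_option linter.unusedSectionVars false

variable {Γ : Type*} [Group Γ] (S : Finset Γ)

noncomputable instance cayleyLocallyFinite :
    (mulCayley (S : Set Γ)).LocallyFinite := fun x => by
  refine Set.Finite.fintype (((S ∪ S.image fun s => s⁻¹).image fun s => x * s).finite_toSet.subset ?_)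
  intro y hy
  rw [mem_neighborSet, mulCayley_adj] at hy
  simp only [coe_image, Set.mem_image, coe_union, Set.mem_union, mem_coe]
  rcases hy.2 with h | h
  · exact ⟨x⁻¹ * y, Or.inl h, by group⟩
  · exact ⟨x⁻¹ * y, Or.inr ⟨y⁻¹ * x, h, by group⟩, by group⟩

lemma cayley_adj (hS : ∀ s ∈ S, s⁻¹ ∈ S) (h1 : (1 : Γ) ∉ S) {x y : Γ} :
    (mulCayley (S : Set Γ)).Adj x y ↔ x⁻¹ * y ∈ S := by
  rw [mulCayley_adj]
  constructor
  · rintro ⟨_, h | h⟩
    · exact h
    · simpa using hS _ h
  · intro h
    refine ⟨fun he => h1 ?_, Or.inl h⟩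
    subst he
    simpa using h

/-- Left translation as an automorphism of the Cayley graph. -/
def leftIso (g : Γ) : mulCayley (S : Set Γ) ≃g mulCayley (S : Set Γ) where
  toEquiv := Equiv.mulLeft g
  map_rel_iff' := by intro a b; simp

lemma leftIso_apply (g x : Γ) : leftIso S g x = g * x := rfl

/-- Left translation of a finitely supported function. -/
noncomputable def shiftL (g : Γ) : (Γ →₀ ℝ) →ₗ[ℝ] (Γ →₀ ℝ) :=
  Finsupp.lmapDomain ℝ ℝ fun x => g * x

/-- The averaging operator. -/
noncomputable def avg : (Γ →₀ ℝ) →ₗ[ℝ] (Γ →₀ ℝ) :=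
  (1 / (#S : ℝ)) • ∑ s ∈ S, shiftL s

/-- The distribution of the random walk after `n` steps. -/
noncomputable def walkDist (n : ℕ) : Γ →₀ ℝ := (avg S ^ n) (Finsupp.single 1 1)

lemma shiftL_apply (g z : Γ) (f : Γ →₀ ℝ) : shiftL g f z = f (g⁻¹ * z) := by
  conv_lhs => rw [show z = g * (g⁻¹ * z) by group]
  exact Finsupp.mapDomain_apply (mul_right_injective g) f _

lemma avg_apply (f : Γ →₀ ℝ) (z : Γ) :
    avg S f z = (1 / (#S : ℝ)) * ∑ s ∈ S, f (s⁻¹ * z) := by
  simp [avg, shiftL_apply, Finsupp.finsetSum_apply]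

lemma walkDist_succ (n : ℕ) : walkDist S (n + 1) = avg S (walkDist S n) := by
  simp [walkDist, pow_succ', Module.End.mul_apply]

lemma walkDist_nonneg (n : ℕ) (z : Γ) : 0 ≤ walkDist S n z := by
  induction n generalizing z with
  | zero =>
    simp only [walkDist, pow_zero, Module.End.one_apply, Finsupp.single_apply]
    split_ifs <;> norm_num
  | succ n ih =>
    rw [walkDist_succ, avg_apply]
    exact mul_nonneg (by positivity) (Finset.sum_nonneg fun s _ => ih _)

lemma card_walks (hS : ∀ s ∈ S, s⁻¹ ∈ S) (h1 : (1 : Γ) ∉ S) (hne : S.Nonempty) (n : ℕ)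
    (x y : Γ) :
    (#((mulCayley (S : Set Γ)).finsetWalkLength n x y) : ℝ)
      = (#S : ℝ) ^ n * walkDist S n (x⁻¹ * y) := by
  have hd : (#S : ℝ) ≠ 0 := by exact_mod_cast (card_pos.2 hne).ne'
  induction n generalizing x with
  | zero =>
    by_cases h : x = y
    · subst h; simp [finsetWalkLength, walkDist]
    · have : x⁻¹ * y ≠ 1 := fun he => h (inv_mul_eq_one.1 he)
      simp [finsetWalkLength, h, walkDist, Finsupp.single_eq_of_ne, this]
  | succ n ih =>
    rw [finsetWalkLength, Finset.card_biUnion]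
    · simp only [Finset.card_map, Nat.cast_sum, ih]
      rw [← Finset.mul_sum, walkDist_succ, avg_apply, pow_succ]
      have : ∑ w : (mulCayley (S : Set Γ)).neighborSet x, walkDist S n ((w : Γ)⁻¹ * y)
          = ∑ s ∈ S, walkDist S n (s⁻¹ * (x⁻¹ * y)) := by
        refine Finset.sum_bij (fun w _ => x⁻¹ * (w : Γ)) ?_ ?_ ?_ ?_
        · exact fun w _ => (cayley_adj S hS h1).1 w.2
        · exact fun a _ b _ h => Subtype.ext (mul_left_cancel h)
        · intro s hs
          exact ⟨⟨x * s, (cayley_adj S hS h1).2 (by simpa using hs)⟩, Finset.mem_univ _, by simp⟩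
        · intro w _
          congr 1
          group
      rw [this]
      field_simp
    · intro a _ b _ hab
      simp only [Function.onFun, Finset.disjoint_left, Finset.mem_map,
        not_exists, not_and]
      rintro w ⟨u, -, rfl⟩ v - h
      change Walk.cons _ v = Walk.cons _ u at h
      have h2 := congrArg (fun q => q.getVert 1) h
      have h3 : (b : Γ) = (a : Γ) :=
        (v.getVert_zero.symm.trans (h2 : v.getVert 0 = u.getVert 0)).trans u.getVert_zero
      exact hab (Subtype.ext h3.symm)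

/-- The bilinear form of a kernel. -/
noncomputable def form (K : Γ → ℝ) (f g : Γ →₀ ℝ) : ℝ :=
  f.sum fun x a => g.sum fun y b => a * b * K (x⁻¹ * y)

lemma form_add_left (K : Γ → ℝ) (f f' g : Γ →₀ ℝ) :
    form K (f + f') g = form K f g + form K f' g := by
  rw [form, Finsupp.sum_add_index' (fun x => by simp) (fun x a b => by
    simp only [Finsupp.sum, ← Finset.sum_add_distrib]
    exact Finset.sum_congr rfl fun y _ => by ring)]
  rfl

lemma form_smul_left (K : Γ → ℝ) (c : ℝ) (f g : Γ →₀ ℝ) :
    form K (c • f) g = c * form K f g := by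
  rw [form, Finsupp.sum_smul_index fun x => by simp, form, Finsupp.mul_sum]
  refine Finsupp.sum_congr fun x _ => ?_
  rw [Finsupp.mul_sum]
  exact Finsupp.sum_congr fun y _ => by ring

lemma form_comm (K : Γ → ℝ) (hK : ∀ z, K z⁻¹ = K z) (f g : Γ →₀ ℝ) :
    form K f g = form K g f := by
  rw [form, Finsupp.sum_comm, form]
  refine Finsupp.sum_congr fun y _ => Finsupp.sum_congr fun x _ => ?_
  rw [← hK (y⁻¹ * x), mul_inv_rev, inv_inv]
  ring

lemma form_shiftL (K : Γ → ℝ) (g : Γ) (f f' : Γ →₀ ℝ) :
    form K (shiftL g f) (shiftL g f') = form K f f' := by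
  simp only [form, shiftL, Finsupp.lmapDomain_apply]
  rw [Finsupp.sum_mapDomain_index_inj (mul_right_injective g)]
  refine Finsupp.sum_congr fun x _ => ?_
  rw [Finsupp.sum_mapDomain_index_inj (mul_right_injective g)]
  refine Finsupp.sum_congr fun y _ => ?_
  simp [mul_assoc]

/-- The kernel of the standard inner product. -/
noncomputable def idKer : Γ → ℝ := fun z => if z = 1 then 1 else 0

lemma form_idKer (f g : Γ →₀ ℝ) : form idKer f g = f.sum fun x a => a * g x := by
  refine Finsupp.sum_congr fun x _ => ?_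
  rw [Finsupp.sum, Finset.sum_eq_single x]
  · simp [idKer]
  · intro y _ hyx
    simp [idKer, inv_mul_eq_one, Ne.symm hyx]
  · intro h; simp [Finsupp.notMem_support_iff.1 h]

lemma form_idKer_self_nonneg (f : Γ →₀ ℝ) : 0 ≤ form idKer f f := by
  rw [form_idKer]
  exact Finset.sum_nonneg fun x _ => mul_self_nonneg _

lemma form_idKer_single (f : Γ →₀ ℝ) (z : Γ) : form idKer (Finsupp.single z 1) f = f z := by
  rw [form_idKer, Finsupp.sum_single_index] <;> simp

/-- A symmetric positive semidefinite kernel. -/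
structure Ker (Γ : Type*) [Group Γ] where
  k : Γ → ℝ
  symm : ∀ z, k z⁻¹ = k z
  pos : ∀ f : Γ →₀ ℝ, 0 ≤ form k f f

/-- Finitely supported functions with the form of `K` plus the standard inner product. -/
def KSp (_K : Ker Γ) := Γ →₀ ℝ

noncomputable instance (K : Ker Γ) : AddCommGroup (KSp K) :=
  inferInstanceAs (AddCommGroup (Γ →₀ ℝ))

noncomputable instance (K : Ker Γ) : Module ℝ (KSp K) :=
  inferInstanceAs (Module ℝ (Γ →₀ ℝ))

/-- The inner product of `K` plus the standard one. -/
noncomputable def kin (K : Ker Γ) (f g : Γ →₀ ℝ) : ℝ := form K.k f g + form idKer f g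

lemma idKer_symm (z : Γ) : idKer z⁻¹ = idKer z := by simp [idKer]

lemma form_avg (hS : ∀ s ∈ S, s⁻¹ ∈ S) (K : Γ → ℝ) (hK : ∀ z, K z⁻¹ = K z) (f g : Γ →₀ ℝ) :
    form K (avg S f) g = form K f (avg S g) := by
  have hsum : ∀ f g : Γ →₀ ℝ,
      form K (avg S f) g = (1 / (#S : ℝ)) * ∑ s ∈ S, form K (shiftL s f) g := by
    intro f g
    rw [avg, LinearMap.smul_apply, form_smul_left, LinearMap.sum_apply]
    congr 1
    exact map_sum (AddMonoidHom.mk' (fun u => form K u g) fun a b => form_add_left K a b g) _ _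
  rw [hsum, form_comm K hK f, hsum]
  congr 1
  refine Finset.sum_bij (fun s _ => s⁻¹) (fun s hs => hS s hs) (fun a _ b _ h => inv_injective h)
    (fun s hs => ⟨s⁻¹, hS s hs, inv_inv s⟩) fun s _ => ?_
  rw [← form_shiftL K s⁻¹ (shiftL s f) g, form_comm K hK]
  congr 1
  ext z
  simp [shiftL_apply]

lemma kin_comm (K : Ker Γ) (f g : Γ →₀ ℝ) : kin K f g = kin K g f := by
  simp only [kin]
  rw [form_comm K.k K.symm, form_comm idKer idKer_symm]

lemma kin_add_left (K : Ker Γ) (f g h : Γ →₀ ℝ) : kin K (f + g) h = kin K f h + kin K g h := by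
  simp only [kin, form_add_left]
  ring

lemma kin_smul_left (K : Ker Γ) (c : ℝ) (f g : Γ →₀ ℝ) : kin K (c • f) g = c * kin K f g := by
  simp only [kin, form_smul_left]
  ring

lemma kin_nonneg (K : Ker Γ) (f : Γ →₀ ℝ) : 0 ≤ kin K f f :=
  add_nonneg (K.pos f) (form_idKer_self_nonneg f)

lemma kin_definite (K : Ker Γ) (f : Γ →₀ ℝ) (hf : kin K f f = 0) : f = 0 := by
  unfold kin at hf
  have h1 := K.pos f
  have h2 := form_idKer_self_nonneg f
  have h3 : form idKer f f = 0 := by linarith
  rw [form_idKer, Finsupp.sum, Finset.sum_eq_zero_iff_of_nonneg fun x _ => mul_self_nonneg _] at h3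
  exact Finsupp.ext fun x => by
    by_contra hx
    exact hx (mul_self_eq_zero.1 (h3 x (Finsupp.mem_support_iff.2 hx)))

lemma kin_shiftL (K : Ker Γ) (g : Γ) (f f' : Γ →₀ ℝ) :
    kin K (shiftL g f) (shiftL g f') = kin K f f' := by
  simp only [kin, form_shiftL]

lemma kin_avg (hS : ∀ s ∈ S, s⁻¹ ∈ S) (K : Ker Γ) (f g : Γ →₀ ℝ) :
    kin K (avg S f) g = kin K f (avg S g) := by
  simp only [kin, form_avg S hS K.k K.symm, form_avg S hS idKer idKer_symm]

/-- The inner product core. -/
@[instance_reducible]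
noncomputable def kCore (K : Ker Γ) : InnerProductSpace.Core ℝ (KSp K) where
  inner f g := kin K f g
  conj_inner_symm f g := by simpa using kin_comm K g f
  re_inner_nonneg f := by simpa using kin_nonneg K f
  add_left f g h := kin_add_left K f g h
  smul_left f g c := by rw [conj_trivial]; exact kin_smul_left K c f g
  definite f hf := kin_definite K f hf

noncomputable instance (K : Ker Γ) : NormedAddCommGroup (KSp K) :=
  (kCore K).toNormedAddCommGroup

noncomputable instance (K : Ker Γ) : InnerProductSpace ℝ (KSp K) :=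
  InnerProductSpace.ofCore (kCore K).toCore

lemma inner_eq (K : Ker Γ) (f g : KSp K) : ⟪f, g⟫_ℝ = kin K f g := rfl

/-- The averaging operator on `KSp K`. -/
noncomputable def avgK (K : Ker Γ) : KSp K →ₗ[ℝ] KSp K := avg S

lemma avgK_isSymmetric (hS : ∀ s ∈ S, s⁻¹ ∈ S) (K : Ker Γ) : (avgK S K).IsSymmetric :=
  fun f g => kin_avg S hS K f g

/-- Left translation on `KSp K`. -/
noncomputable def shiftK (K : Ker Γ) (g : Γ) : KSp K →ₗ[ℝ] KSp K := shiftL g

lemma avgK_norm_le (hne : S.Nonempty) (K : Ker Γ) (f : KSp K) : ‖avgK S K f‖ ≤ ‖f‖ := by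
  have hd : (0 : ℝ) < #S := by exact_mod_cast card_pos.2 hne
  have heq : avgK S K = (1 / (#S : ℝ)) • ∑ s ∈ S, shiftK K s := rfl
  have hiso : ∀ s, ‖shiftK K s f‖ = ‖f‖ := by
    intro s
    rw [← sq_eq_sq₀ (norm_nonneg _) (norm_nonneg _), ← real_inner_self_eq_norm_sq,
      ← real_inner_self_eq_norm_sq]
    exact kin_shiftL K s f f
  rw [heq, LinearMap.smul_apply, LinearMap.sum_apply, norm_smul, Real.norm_eq_abs,
    abs_of_pos (by positivity)]
  refine (mul_le_mul_of_nonneg_left (norm_sum_le _ _) (by positivity)).trans (le_of_eq ?_)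
  simp only [hiso, Finset.sum_const, nsmul_eq_mul]
  field_simp

lemma avg_pow_shiftR (n : ℕ) (z : Γ) :
    (avg S ^ n) (Finsupp.single z 1)
      = Finsupp.mapDomain (fun x => x * z) (walkDist S n) := by
  induction n with
  | zero => simp [walkDist, Finsupp.mapDomain_single]
  | succ n ih =>
    rw [pow_succ', Module.End.mul_apply, ih, walkDist_succ]
    ext y
    conv_rhs => rw [show y = (y * z⁻¹) * z by group]
    rw [Finsupp.mapDomain_apply (mul_left_injective z), avg_apply, avg_apply]
    congr 1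
    refine Finset.sum_congr rfl fun s _ => ?_
    conv_lhs => rw [show s⁻¹ * y = (s⁻¹ * (y * z⁻¹)) * z by group]
    rw [Finsupp.mapDomain_apply (mul_left_injective z)]

lemma form_idKer_pow (hS : ∀ s ∈ S, s⁻¹ ∈ S) (k : ℕ) (f g : Γ →₀ ℝ) :
    form idKer ((avg S ^ k) f) g = form idKer f ((avg S ^ k) g) := by
  induction k generalizing f g with
  | zero => simp
  | succ k ih =>
    rw [pow_succ', Module.End.mul_apply, form_avg S hS idKer idKer_symm, ih,
      ← Module.End.mul_apply, ← pow_succ, ← pow_succ']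

/-- The return probability dominates all transition probabilities at even times. -/
lemma walkDist_le (hS : ∀ s ∈ S, s⁻¹ ∈ S) (k : ℕ) (z : Γ) :
    walkDist S (2 * k) z ≤ walkDist S (2 * k) 1 := by
  set a := (avg S ^ k) (Finsupp.single (1 : Γ) (1 : ℝ)) with ha
  set b := (avg S ^ k) (Finsupp.single z (1 : ℝ)) with hb
  have hab : form idKer a b = ((avg S ^ (2 * k)) (Finsupp.single z 1)) 1 := by
    rw [ha, form_idKer_pow S hS, hb, ← Module.End.mul_apply, ← pow_add, ← two_mul, form_idKer_single]
  have hba : form idKer b a = walkDist S (2 * k) z := by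
    rw [hb, form_idKer_pow S hS, ha, ← Module.End.mul_apply, ← pow_add, ← two_mul, form_idKer_single]
    rfl
  have haa : form idKer a a = walkDist S (2 * k) 1 := by
    rw [ha, form_idKer_pow S hS, ← Module.End.mul_apply, ← pow_add, ← two_mul, form_idKer_single]
    rfl
  have hbb : form idKer b b = walkDist S (2 * k) 1 := by
    rw [hb, form_idKer_pow S hS, ← Module.End.mul_apply, ← pow_add, ← two_mul, form_idKer_single,
      avg_pow_shiftR]
    exact (congrArg _ (one_mul z).symm).trans
      (Finsupp.mapDomain_apply (mul_left_injective z) (walkDist S (2 * k)) 1)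
  have hneg : ∀ f g : Γ →₀ ℝ, form idKer (f + (-1 : ℝ) • g) (f + (-1 : ℝ) • g)
      = form idKer f f - 2 * form idKer g f + form idKer g g := by
    intro f g
    rw [form_add_left, form_smul_left, form_comm idKer idKer_symm f (f + (-1 : ℝ) • g),
      form_comm idKer idKer_symm g (f + (-1 : ℝ) • g), form_add_left, form_add_left,
      form_smul_left, form_smul_left, form_comm idKer idKer_symm f g]
    ring
  have := form_idKer_self_nonneg (a + (-1 : ℝ) • b)
  rw [hneg, haa, hba, hbb] at this
  linarith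

end Vale.Agent.P151
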