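import Vale.Agent.P151.Explore
import Vale.Agent.P151.Walk

/-!
The two-ghost inequality on a Cayley graph, in a form with one small cluster.
-/

namespace Vale.Agent.P151

open MeasureTheory SimpleGraph Finset Vale.Agent.P165
open scoped Classical

set_option linter.unusedSectionVars false

variable {V : Type*} {G : SimpleGraph V}

/-- Configuration pulled back by an automorphism. -/
def pull (σ : G ≃g G) (ω : Set (Sym2 V)) : Set (Sym2 V) := Sym2.map σ ⁻¹' ω

lemma mem_pull (σ : G ≃g G) (ω : Set (Sym2 V)) (a b : V) :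
    s(a, b) ∈ pull σ ω ↔ s(σ a, σ b) ∈ ω := by simp [pull]

lemma conn_pull (σ : G ≃g G) (ω : Set (Sym2 V)) (x y : V) :
    Conn G (pull σ ω) x y ↔ Conn G ω (σ x) (σ y) := by
  constructor
  · rintro ⟨r⟩
    induction r with
    | nil => exact Reachable.refl _
    | @cons a b c hab q ih =>
      rw [openGraph_adj, mem_pull] at hab
      exact Reachable.trans (openGraph_adj.2 ⟨hab.1, σ.map_adj_iff.2 hab.2⟩).reachable ih
  · rintro ⟨r⟩
    have : ∀ a b, (openGraph G ω).Walk a b → Conn G (pull σ ω) (σ.symm a) (σ.symm b) := by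
      intro a b r
      induction r with
      | nil => exact Reachable.refl _
      | @cons a b c hab q ih =>
        rw [openGraph_adj] at hab
        refine Reachable.trans (openGraph_adj.2 ⟨?_, σ.symm.map_adj_iff.2 hab.2⟩).reachable ih
        rw [mem_pull]; simpa using hab.1
    simpa using this _ _ r

lemma cl_pull (σ : G ≃g G) (ω : Set (Sym2 V)) (x : V) :
    Cl G (pull σ ω) x = σ ⁻¹' Cl G ω (σ x) := by
  ext y; exact conn_pull σ ω x y

lemma ncard_preimage_iso (σ : G ≃g G) (T : Set V) : (σ ⁻¹' T).ncard = T.ncard := by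
  refine Set.ncard_preimage_of_injective_subset_range σ.injective ?_
  intro y _; exact ⟨σ.symm y, by simp⟩

lemma ncard_cl_pull (σ : G ≃g G) (ω : Set (Sym2 V)) (x : V) :
    (Cl G (pull σ ω) x).ncard = (Cl G ω (σ x)).ncard := by
  rw [cl_pull, ncard_preimage_iso]

lemma small_pull (σ : G ≃g G) (n : ℕ) (ω : Set (Sym2 V)) (x : V) :
    Small G n (pull σ ω) x ↔ Small G n ω (σ x) := by
  have hfin : (Cl G (pull σ ω) x).Finite ↔ (Cl G ω (σ x)).Finite := by
    rw [cl_pull]
    exact ⟨fun h => h.of_preimage σ.surjective, fun h => h.preimage σ.injective.injOn⟩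
  simp only [Small, hfin, ncard_cl_pull]

/-- A function of a small cluster. -/
noncomputable def cl (G : SimpleGraph V) (m : ℕ) (x : V) (F : Set V → ℝ) (ω : Set (Sym2 V)) : ℝ :=
  if Small G m ω x then F (Cl G ω x) else 0

lemma cl_of_conn {ω : Set (Sym2 V)} {x y : V} (h : Conn G ω x y) (m : ℕ) (F : Set V → ℝ) :
    cl G m y F ω = cl G m x F ω := by
  simp only [cl, cl_eq_of_conn h, small_iff_of_conn h]

lemma cl_insert {ω : Set (Sym2 V)} {a b : V} (hab : G.Adj a b) (h : s(a, b) ∉ ω) :
    Cl G (insert s(a, b) ω) a = Cl G ω a ∪ Cl G ω b := by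
  apply Set.Subset.antisymm
  · refine cl_subset_of_closed (Or.inl (Reachable.refl _)) fun u hu v huv hm => ?_
    rcases Set.mem_insert_iff.1 hm with he | hm
    · rcases Sym2.eq_iff.1 he with ⟨rfl, rfl⟩ | ⟨rfl, rfl⟩
      · exact Or.inr (Reachable.refl _)
      · exact Or.inl (Reachable.refl _)
    · exact hu.imp
        (fun hu => Reachable.trans hu (openGraph_adj.2 ⟨hm, huv⟩).reachable)
        fun hu => Reachable.trans hu (openGraph_adj.2 ⟨hm, huv⟩).reachable
  · rintro y (hy | hy)
    · exact cl_mono (Set.subset_insert _ _) a hy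
    · exact Reachable.trans (openGraph_adj.2 ⟨Set.mem_insert _ _, hab⟩).reachable
        (cl_mono (Set.subset_insert _ _) b hy)

/-- `1 - exp (- size / n)`. -/
noncomputable def psi (n : ℕ) (C : Set V) : ℝ := 1 - Real.exp (-(C.ncard : ℝ) / n)

lemma psi_nonneg (n : ℕ) (C : Set V) : 0 ≤ psi n C := by
  have : Real.exp (-(C.ncard : ℝ) / n) ≤ 1 := Real.exp_le_one_iff.2
    (div_nonpos_of_nonpos_of_nonneg (by simp) (Nat.cast_nonneg n))
  unfold psi; linarith

lemma psi_le (n : ℕ) (C : Set V) : psi n C ≤ (C.ncard : ℝ) / n := by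
  have := Real.add_one_le_exp (-(C.ncard : ℝ) / n)
  unfold psi
  rw [neg_div] at this ⊢
  linarith

lemma half_le_psi {n : ℕ} (hn : 0 < n) {C : Set V} (h : n ≤ C.ncard) : 1 / 2 ≤ psi n C := by
  have h1 : -(C.ncard : ℝ) / n ≤ -1 := by
    rw [div_le_iff₀ (by exact_mod_cast hn)]
    have : (n : ℝ) ≤ C.ncard := by exact_mod_cast h
    linarith
  have := Real.exp_le_exp.2 h1
  have := Real.exp_neg_one_lt_d9
  unfold psi; linarith

variable [G.LocallyFinite]

lemma loc_cl (m : ℕ) (x : V) (F : Set V → ℝ) : Loc G (cl G m x F) := loc_cluster m x F 0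

section Cayley

variable {Γ : Type*} [Group Γ] (S : Finset Γ)

/-- Half weight on internal edges. -/
noncomputable def halfF (n : ℕ) (y : Γ) (C : Set Γ) : ℝ :=
  psi n C * if y ∈ C then 1 / 2 else 1

/-- The weight of the dart `(x, x * s)`. -/
noncomputable def dartW (p : unitInterval) (n : ℕ) (x s : Γ) (ω : Set (Sym2 Γ)) : ℝ :=
  ((p : ℝ) - if s(x, x * s) ∈ ω then 1 else 0)
    * cl (mulCayley (S : Set Γ)) (2 * n) x (halfF n (x * s)) ω

/-- The weight of a vertex. -/
noncomputable def vertW (p : unitInterval) (n : ℕ) (x : Γ) (ω : Set (Sym2 Γ)) : ℝ :=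
  ∑ s ∈ S, dartW S p n x s ω

/-- Two big distinct clusters at the ends of an edge, one of them small enough. -/
noncomputable def ghostEvent (n : ℕ) (a b : Γ) (ω : Set (Sym2 Γ)) : Prop :=
  Mid (mulCayley (S : Set Γ)) n ω a ∧ ¬Small (mulCayley (S : Set Γ)) n ω b ∧
    ¬Conn (mulCayley (S : Set Γ)) ω a b

variable (hS : ∀ s ∈ S, s⁻¹ ∈ S) (h1 : (1 : Γ) ∉ S)
include hS h1

lemma adj_mul {x s : Γ} (hs : s ∈ S) : (mulCayley (S : Set Γ)).Adj x (x * s) :=
  (cayley_adj S hS h1).2 (by simpa using hs)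

lemma degree_le (v : Γ) : #((mulCayley (S : Set Γ)).neighborFinset v) ≤ #S := by
  refine Finset.card_le_card_of_injOn (fun w => v⁻¹ * w) (fun w hw => ?_)
    fun a _ b _ h => mul_left_cancel h
  rw [Finset.mem_coe, mem_neighborFinset] at hw
  exact (cayley_adj S hS h1).1 hw

lemma loc_dartW (p : unitInterval) (n : ℕ) (x : Γ) {s : Γ} (hs : s ∈ S) :
    Loc (mulCayley (S : Set Γ)) (dartW S p n x s) :=
  ((loc_mem (adj_mul S hS h1 (x := x) hs : s(x, x * s) ∈ (mulCayley (S : Set Γ)).edgeSet)).comp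
    fun q : Prop => (p : ℝ) - if q then 1 else 0).comp₂ (loc_cl _ _ _) (· * ·)

lemma loc_vertW (p : unitInterval) (n : ℕ) (x : Γ) :
    Loc (mulCayley (S : Set Γ)) (vertW S p n x) :=
  Loc.sum S fun _ hs => loc_dartW S hS h1 p n x hs

lemma dartW_pull (p : unitInterval) (n : ℕ) (g x s : Γ) (ω : Set (Sym2 Γ)) :
    dartW S p n x s (pull (leftIso S g) ω) = dartW S p n (g * x) s ω := by
  have hF : ∀ y, halfF n y (Cl (mulCayley (S : Set Γ)) (pull (leftIso S g) ω) x)
      = halfF n (g * y) (Cl (mulCayley (S : Set Γ)) ω (g * x)) := by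
    intro y
    simp only [halfF, psi, cl_pull, Set.mem_preimage, leftIso_apply, ncard_preimage_iso]
  simp only [dartW, mem_pull, leftIso_apply, cl, small_pull, hF, mul_assoc]

lemma ex_ghost_le_dart (p : unitInterval) {n : ℕ} (hn : 0 < n) {s : Γ} (hs : s ∈ S) :
    Loc (mulCayley (S : Set Γ)) (fun ω => if ghostEvent S n 1 s ω then (1 : ℝ) else 0) ∧
    (p : ℝ) / 4 * Ex (mulCayley (S : Set Γ)) p (fun ω => if ghostEvent S n 1 s ω then 1 else 0)
      ≤ Ex (mulCayley (S : Set Γ)) p (dartW S p n 1 s)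
        + Ex (mulCayley (S : Set Γ)) p (dartW S p n s s⁻¹) := by
  set G := mulCayley (S : Set Γ) with hG
  have hlocT : Loc G (fun ω => if ghostEvent S n 1 s ω then (1 : ℝ) else 0) := by
    have h := (loc_cluster (G := G) (2 * n) 1 (fun C => n ≤ C.ncard ∧ s ∉ C) False).comp₂
      (loc_small (G := G) n s) fun a b : Prop => if a ∧ ¬b then (1 : ℝ) else 0
    convert h using 2 with ω
    unfold ghostEvent Mid
    by_cases hb : Small G (2 * n) ω 1
    · have : ¬Small G n ω 1 ↔ n ≤ (Cl G ω 1).ncard := by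
        simp only [Small, hb.1, true_and, not_lt]
      simp only [hb, if_true, this, and_true, ← hG]
      exact if_congr ⟨fun h => ⟨⟨h.1, h.2.2⟩, h.2.1⟩, fun h => ⟨h.1.1, h.2, h.1.2⟩⟩ rfl rfl
    · simp [hb, ← hG]
  refine ⟨hlocT, ?_⟩
  have hadj : G.Adj 1 s := by simpa using adj_mul S hS h1 (x := 1) hs
  set e := s((1 : Γ), s) with he
  have heG : e ∈ G.edgeSet := hadj
  have hs' : s⁻¹ ∈ S := hS s hs
  have hlA := loc_dartW S hS h1 p n 1 hs
  have hlB := loc_dartW S hS h1 p n s hs'
  rw [← ex_add p hlA hlB, ex_edge p hlocT heG, ex_edge p (hlA.comp₂ hlB (· + ·)) heG]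
  have hT1 : Ex G p (fun ω => if ghostEvent S n 1 s (insert e ω) then (1 : ℝ) else 0) = 0 := by
    have : ∀ ω, ¬ghostEvent S n 1 s (insert e ω) := fun ω h =>
      h.2.2 (openGraph_adj.2 ⟨Set.mem_insert _ _, hadj⟩).reachable
    simp [this, ex_const]
  rw [hT1, mul_zero, add_zero]
  set f := fun ω => dartW S p n 1 s ω + dartW S p n s s⁻¹ ω with hf
  have hl : Loc G f := hlA.comp₂ hlB (· + ·)
  have key : (1 - (p : ℝ)) ≠ 0 → ∀ ω,
      (p : ℝ) / 4 * (if ghostEvent S n 1 s (ω \ {e}) then (1 : ℝ) else 0)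
        ≤ f (ω \ {e}) + (p : ℝ) / (1 - p) * f (insert e ω) := by
    intro hq ω
    set ω0 := ω \ {e} with hω0
    have hne : e ∉ ω0 := fun h => h.2 rfl
    have hins : insert e ω = insert e ω0 := by simp [hω0]
    have hu : Cl G (insert e ω0) 1 = Cl G ω0 1 ∪ Cl G ω0 s := cl_insert hadj hne
    have hc1 : Conn G (insert e ω0) 1 s :=
      (openGraph_adj.2 ⟨Set.mem_insert _ _, hadj⟩).reachable
    have hsm : Cl G (insert e ω0) s = Cl G (insert e ω0) 1 := cl_eq_of_conn hc1
    have hf1 : f (insert e ω)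
        = ((p : ℝ) - 1) * cl G (2 * n) 1 (psi n) (insert e ω0) := by
      rw [hins, hf]
      simp only [dartW, one_mul, mul_inv_cancel, ← hG]
      rw [show s(s, (1 : Γ)) = e from Sym2.eq_swap, ← he, if_pos (Set.mem_insert _ _),
        cl_of_conn hc1]
      simp only [cl]
      split_ifs with h
      · simp only [halfF, if_pos (show s ∈ Cl G (insert e ω0) 1 from hc1),
          if_pos (show (1 : Γ) ∈ Cl G (insert e ω0) 1 from Reachable.refl _)]
        ring
      · ring
    rw [hf1]
    have hf0 : f ω0 = (p : ℝ) * (cl G (2 * n) 1 (halfF n s) ω0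
        + cl G (2 * n) s (halfF n 1) ω0) := by
      simp only [hf, dartW, one_mul, mul_inv_cancel, ← hG]
      rw [show s(s, (1 : Γ)) = e from Sym2.eq_swap, ← he, if_neg hne]
      ring
    rw [hf0]
    have hsimp : (p : ℝ) / (1 - p) * (((p : ℝ) - 1) * cl G (2 * n) 1 (psi n) (insert e ω0))
        = -(p : ℝ) * cl G (2 * n) 1 (psi n) (insert e ω0) := by
      field_simp
      ring
    rw [hsimp]
    suffices hk : 1 / 4 * (if ghostEvent S n 1 s ω0 then (1 : ℝ) else 0) ≤
        cl G (2 * n) 1 (halfF n s) ω0 + cl G (2 * n) s (halfF n 1) ω0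
          - cl G (2 * n) 1 (psi n) (insert e ω0) by
      have := mul_le_mul_of_nonneg_left hk p.2.1
      linarith
    by_cases hc : Conn G ω0 1 s
    · have hT : ¬ghostEvent S n 1 s ω0 := fun h => h.2.2 hc
      have hueq : Cl G (insert e ω0) 1 = Cl G ω0 1 := by
        rw [hu, cl_eq_of_conn hc, Set.union_self]
      rw [if_neg hT, cl_of_conn hc]
      have hsm' : Small G (2 * n) (insert e ω0) 1 ↔ Small G (2 * n) ω0 1 := by
        simp only [Small, hueq]
      by_cases h : Small G (2 * n) ω0 1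
      · simp only [cl, if_pos h, if_pos (hsm'.2 h), hueq, halfF,
          if_pos (show s ∈ Cl G ω0 1 from hc),
          if_pos (show (1 : Γ) ∈ Cl G ω0 1 from Reachable.refl _)]
        linarith
      · simp only [cl, if_neg h, if_neg fun h' => h (hsm'.1 h')]
        linarith
    · have hs1 : s ∉ Cl G ω0 1 := hc
      have h1s : (1 : Γ) ∉ Cl G ω0 s := fun h => hc (Reachable.symm h)
      have hh1 : halfF n s (Cl G ω0 1) = psi n (Cl G ω0 1) := by simp [halfF, hs1]
      have hh2 : halfF n 1 (Cl G ω0 s) = psi n (Cl G ω0 s) := by simp [halfF, h1s]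
      have hA : 0 ≤ cl G (2 * n) 1 (halfF n s) ω0 := by
        simp only [cl]; split_ifs
        · rw [hh1]; exact psi_nonneg _ _
        · exact le_rfl
      have hB : 0 ≤ cl G (2 * n) s (halfF n 1) ω0 := by
        simp only [cl]; split_ifs
        · rw [hh2]; exact psi_nonneg _ _
        · exact le_rfl
      by_cases hbig : Small G (2 * n) (insert e ω0) 1
      · have hsub := small_anti (Set.subset_insert e ω0) hbig
        have hsub2 : Small G (2 * n) ω0 s :=
          small_anti (Set.subset_insert e ω0) ((small_iff_of_conn hc1).2 hbig)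
        have hdis : Disjoint (Cl G ω0 1) (Cl G ω0 s) := Set.disjoint_left.2 fun y hy hy' =>
          hc (Reachable.trans hy (Reachable.symm hy'))
        simp only [cl, if_pos hbig, if_pos hsub, if_pos hsub2, hh1, hh2]
        have hcard : ((Cl G (insert e ω0) 1).ncard : ℝ)
            = (Cl G ω0 1).ncard + (Cl G ω0 s).ncard := by
          rw [hu, Set.ncard_union_eq hdis hsub.1 hsub2.1]; push_cast; ring
        have hpsi : psi n (Cl G ω0 1) + psi n (Cl G ω0 s) - psi n (Cl G (insert e ω0) 1)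
            = psi n (Cl G ω0 1) * psi n (Cl G ω0 s) := by
          simp only [psi, hcard]
          rw [neg_add, add_div, Real.exp_add]
          ring
        rw [hpsi]
        split_ifs with hT
        · obtain ⟨⟨hm, -⟩, hb, -⟩ := hT
          have ha' : n ≤ (Cl G ω0 1).ncard := not_lt.1 fun h => hm ⟨hsub.1, h⟩
          have hb' : n ≤ (Cl G ω0 s).ncard := not_lt.1 fun h => hb ⟨hsub2.1, h⟩
          have := mul_le_mul (half_le_psi hn ha') (half_le_psi hn hb') (by norm_num)
            (psi_nonneg _ _)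
          linarith
        · simpa using mul_nonneg (psi_nonneg _ _) (psi_nonneg _ _)
      · have h0 : cl G (2 * n) 1 (psi n) (insert e ω0) = 0 := by simp [cl, hbig]
        rw [h0, sub_zero]
        split_ifs with hT
        · obtain ⟨⟨hm, hsm1⟩, -, -⟩ := hT
          have hsm1 : Small G (2 * n) ω0 1 := hsm1
          have ha' : n ≤ (Cl G ω0 1).ncard := not_lt.1 fun h => hm ⟨hsm1.1, h⟩
          have h1' := half_le_psi hn ha'
          have : cl G (2 * n) 1 (halfF n s) ω0 = psi n (Cl G ω0 1) := by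
            simp [cl, hsm1, hh1]
          linarith
        · linarith
  rcases eq_or_ne (1 - (p : ℝ)) 0 with hq | hq
  · rw [hq, zero_mul, mul_zero, zero_mul, zero_add]
    have hp : (p : ℝ) = 1 := by linarith
    refine mul_nonneg p.2.1 (ex_nonneg p (hl.comp_insert e) fun ω => ?_)
    simp only [hf, dartW, one_mul, mul_inv_cancel]
    rw [show s(s, (1 : Γ)) = e from Sym2.eq_swap, ← he, if_pos (Set.mem_insert _ _), hp]
    simp
  · have hle : Ex G p (fun ω => (p : ℝ) / 4 *
        (if ghostEvent S n 1 s (ω \ {e}) then (1 : ℝ) else 0))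
        ≤ Ex G p (fun ω => f (ω \ {e}) + (p : ℝ) / (1 - p) * f (insert e ω)) := by
      refine ex_mono p ((hlocT.comp_sdiff e).comp fun r => (p : ℝ) / 4 * r)
        ((hl.comp_sdiff e).comp₂ (hl.comp_insert e) fun a b => a + (p : ℝ) / (1 - p) * b)
        (key hq)
    rw [ex_mul p (hlocT.comp_sdiff e), ex_add p (hl.comp_sdiff e)
      ((hl.comp_insert e).comp fun r => (p : ℝ) / (1 - p) * r), ex_mul p (hl.comp_insert e)] at hle
    have hpos : (0 : ℝ) < 1 - p := lt_of_le_of_ne (by linarith [p.2.2]) hq.symm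
    have := mul_le_mul_of_nonneg_left hle hpos.le
    rw [mul_add, ← mul_assoc (1 - (p : ℝ)) ((p : ℝ) / (1 - p)), mul_div_cancel₀ _ hq] at this
    linarith

lemma ex_dartW_left (p : unitInterval) (n : ℕ) (g x : Γ) {s : Γ} (hs : s ∈ S) :
    Ex (mulCayley (S : Set Γ)) p (dartW S p n (g * x) s)
      = Ex (mulCayley (S : Set Γ)) p (dartW S p n x s) := by
  rw [← ex_map p (loc_dartW S hS h1 p n x hs) (leftIso S g)]
  congr 1
  funext ω
  exact (dartW_pull S hS h1 p n g x s ω).symm

lemma ex_vertW_left (p : unitInterval) (n : ℕ) (g : Γ) (x y : Γ) :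
    Ex (mulCayley (S : Set Γ)) p (fun ω => cl (mulCayley (S : Set Γ)) (2 * n) (g * x)
        (fun C => if g * y ∈ C then 1 / (C.ncard : ℝ) else 0) ω * vertW S p n (g * y) ω)
      = Ex (mulCayley (S : Set Γ)) p (fun ω => cl (mulCayley (S : Set Γ)) (2 * n) x
        (fun C => if y ∈ C then 1 / (C.ncard : ℝ) else 0) ω * vertW S p n y ω) := by
  rw [← ex_map p ((loc_cl (2 * n) x _).comp₂ (loc_vertW S hS h1 p n y) (· * ·)) (leftIso S g)]
  congr 1
  funext ω
  change _ = cl (mulCayley (S : Set Γ)) (2 * n) x _ (pull (leftIso S g) ω)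
    * vertW S p n y (pull (leftIso S g) ω)
  simp only [vertW, dartW_pull S hS h1, cl, small_pull, cl_pull, Set.mem_preimage,
    leftIso_apply, ncard_preimage_iso]

lemma sum_dartW (p : unitInterval) (n : ℕ) (ω : Set (Sym2 Γ)) (x : Γ)
    (hx : Small (mulCayley (S : Set Γ)) (2 * n) ω x) :
    ∑ y ∈ clF (mulCayley (S : Set Γ)) (2 * n) ω x, vertW S p n y ω
      = psi n (Cl (mulCayley (S : Set Γ)) ω x)
        * imbalance (mulCayley (S : Set Γ)) p (2 * n) x ω := by
  set G := mulCayley (S : Set Γ) with hG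
  set C := clF G (2 * n) ω x with hC
  have hmem : ∀ y, y ∈ C ↔ y ∈ Cl G ω x := fun y => by rw [← coe_clF hx, Finset.mem_coe]
  have hy : ∀ y ∈ C, ∀ s ∈ S, dartW S p n y s ω = psi n (Cl G ω x)
      * (((p : ℝ) - if s(y, y * s) ∈ ω then 1 else 0) * if y * s ∈ C then 1 / 2 else 1) := by
    intro y hy s _
    have hc : Conn G ω x y := (hmem y).1 hy
    simp only [dartW, ← hG, cl_of_conn hc]
    simp only [cl, if_pos hx, halfF, hmem]
    ring
  simp only [vertW]
  rw [Finset.sum_congr rfl fun y hyC => Finset.sum_congr rfl (hy y hyC)]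
  simp only [← Finset.mul_sum]
  congr 1
  rw [imbalance, if_pos hx, ← hC]
  set w : Sym2 Γ → ℝ := fun e => ((p : ℝ) - if e ∈ ω then 1 else 0)
    * if (∀ v ∈ e, v ∈ C) then 1 / 2 else 1 with hw
  have hdart : ∀ y ∈ C, (∑ s ∈ S, ((p : ℝ) - if s(y, y * s) ∈ ω then 1 else 0)
      * if y * s ∈ C then 1 / 2 else 1) = ∑ e ∈ (edgesAt G C).filter (fun e => y ∈ e), w e := by
    intro y hy
    refine Finset.sum_bij (fun s _ => s(y, y * s)) ?_ ?_ ?_ ?_
    · exact fun s hs => Finset.mem_filter.2
        ⟨(mem_edgesAt G).2 ⟨adj_mul S hS h1 hs, Or.inl hy⟩, Sym2.mem_mk_left _ _⟩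
    · intro a _ b _ h
      exact mul_left_cancel (Sym2.congr_right.1 h)
    · intro e he
      rw [Finset.mem_filter] at he
      obtain ⟨he, hye⟩ := he
      obtain ⟨z, rfl⟩ := hye
      have hadj := ((mem_edgesAt G).1 he).1
      exact ⟨y⁻¹ * z, (cayley_adj S hS h1).1 hadj, by simp⟩
    · intro s _
      simp [hw, hy]
  rw [Finset.sum_congr rfl hdart]
  simp only [Finset.sum_filter]
  rw [Finset.sum_comm]
  refine Finset.sum_congr rfl fun e he => ?_
  revert he
  induction e using Sym2.ind with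
  | h a b =>
    intro he
    rw [mem_edgesAt] at he
    have hne : a ≠ b := G.ne_of_adj he.1
    rw [← Finset.sum_filter, Finset.sum_const, nsmul_eq_mul]
    rcases he.2 with ha | hb
    · by_cases hb : b ∈ C
      · have : C.filter (fun y => y ∈ s(a, b)) = {a, b} := by
          ext y; simp only [Finset.mem_filter, Sym2.mem_iff, Finset.mem_insert,
            Finset.mem_singleton]
          exact ⟨fun h => h.2, fun h => ⟨by rcases h with rfl | rfl <;> assumption, h⟩⟩
        rw [this, Finset.card_pair hne]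
        simp [hw, ha, hb]
        ring
      · have : C.filter (fun y => y ∈ s(a, b)) = {a} := by
          ext y; simp only [Finset.mem_filter, Sym2.mem_iff, Finset.mem_singleton]
          exact ⟨fun h => h.2.resolve_right fun h' => hb (h' ▸ h.1),
            fun h => ⟨h ▸ ha, Or.inl h⟩⟩
        rw [this, Finset.card_singleton]
        simp [hw, ha, hb]
    · by_cases ha : a ∈ C
      · have : C.filter (fun y => y ∈ s(a, b)) = {a, b} := by
          ext y; simp only [Finset.mem_filter, Sym2.mem_iff, Finset.mem_insert,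
            Finset.mem_singleton]
          exact ⟨fun h => h.2, fun h => ⟨by rcases h with rfl | rfl <;> assumption, h⟩⟩
        rw [this, Finset.card_pair hne]
        simp [hw, ha, hb]
        ring
      · have : C.filter (fun y => y ∈ s(a, b)) = {b} := by
          ext y; simp only [Finset.mem_filter, Sym2.mem_iff, Finset.mem_singleton]
          exact ⟨fun h => h.2.resolve_left fun h' => ha (h' ▸ h.1),
            fun h => ⟨h ▸ hb, Or.inr h⟩⟩
        rw [this, Finset.card_singleton]
        simp [hw, ha, hb]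

lemma ex_vertW_le (p : unitInterval) (n : ℕ) :
    Ex (mulCayley (S : Set Γ)) p (vertW S p n 1)
      ≤ Real.sqrt (#S * (2 * n : ℕ)) / n := by
  set G := mulCayley (S : Set Γ) with hG
  set B0 := ballF G (2 * n) (1 : Γ) with hB0
  set B := B0 ∪ B0.image (fun y => y⁻¹) with hB
  set K : Γ → Γ → Set (Sym2 Γ) → ℝ := fun x y ω =>
    cl G (2 * n) x (fun C => if y ∈ C then 1 / (C.ncard : ℝ) else 0) ω * vertW S p n y ω with hK
  have hlK : ∀ x y, Loc G (K x y) := fun x y =>
    (loc_cl (2 * n) x _).comp₂ (loc_vertW S hS h1 p n y) (· * ·)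
  have hcf : ∀ ω, Small G (2 * n) ω 1 →
      B.filter (fun y => y ∈ Cl G ω 1) = clF G (2 * n) ω 1 := by
    intro ω hs
    ext y
    simp only [clF, Finset.mem_filter, hB, ← hB0, Finset.mem_union]
    exact ⟨fun h => ⟨cl_subset_ball hs y h.2, h.2⟩, fun h => ⟨Or.inl h.1, h.2⟩⟩
  have hone : ∀ ω, vertW S p n 1 ω = ∑ y ∈ B, K y 1 ω := by
    intro ω
    simp only [hK, ← Finset.sum_mul]
    by_cases hs : Small G (2 * n) ω 1
    · have : ∑ y ∈ B, cl G (2 * n) y (fun C => if (1 : Γ) ∈ C then 1 / (C.ncard : ℝ) else 0) ω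
          = 1 := by
        have hterm : ∀ y ∈ B, cl G (2 * n) y
            (fun C => if (1 : Γ) ∈ C then 1 / (C.ncard : ℝ) else 0) ω
            = if y ∈ Cl G ω 1 then 1 / ((Cl G ω 1).ncard : ℝ) else 0 := by
          intro y _
          by_cases hy : Conn G ω 1 y
          · rw [cl_of_conn hy, if_pos (show y ∈ Cl G ω 1 from hy)]
            simp [cl, hs, show (1 : Γ) ∈ Cl G ω 1 from Reachable.refl _]
          · have : (1 : Γ) ∉ Cl G ω y := fun h => hy (Reachable.symm h)
            simp [cl, this, show y ∉ Cl G ω 1 from hy]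
        rw [Finset.sum_congr rfl hterm, ← Finset.sum_filter, hcf ω hs, Finset.sum_const,
          nsmul_eq_mul, card_clF hs, mul_one_div, div_self]
        have : 0 < (Cl G ω 1).ncard := (Set.ncard_pos hs.1).2 ⟨1, Reachable.refl _⟩
        exact_mod_cast this.ne'
      rw [this, one_mul]
    · have : vertW S p n 1 ω = 0 := by
        simp [vertW, dartW, cl, ← hG, hs]
      rw [this, mul_zero]
  have hinv : ∀ y ∈ B, y⁻¹ ∈ B := by
    intro y hy
    simp only [hB, Finset.mem_union, Finset.mem_image] at hy ⊢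
    rcases hy with h | ⟨z, hz, rfl⟩
    · exact Or.inr ⟨y, h, rfl⟩
    · exact Or.inl (by simpa using hz)
  have htr : ∀ y, Ex G p (K y 1) = Ex G p (K 1 y⁻¹) := by
    intro y
    simp only [hK]
    conv_lhs => rw [show y = y * 1 by group, show (1 : Γ) = y * y⁻¹ by group]
    have := ex_vertW_left S hS h1 p n y 1 y⁻¹
    simp only [← hG] at this
    simpa using this
  have hnn : ∀ ω, ∑ y ∈ B, K 1 y ω ≤ 1 / (n : ℝ) * |imbalance G p (2 * n) 1 ω| := by
    intro ω
    by_cases hs : Small G (2 * n) ω 1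
    · have hterm : ∀ y ∈ B, K 1 y ω = if y ∈ Cl G ω 1 then
          1 / ((Cl G ω 1).ncard : ℝ) * vertW S p n y ω else 0 := by
        intro y _
        simp only [hK, cl, if_pos hs]
        split_ifs <;> simp
      rw [Finset.sum_congr rfl hterm, ← Finset.sum_filter, hcf ω hs, ← Finset.mul_sum,
        sum_dartW S hS h1 p n ω 1 hs, ← mul_assoc]
      have hpos : (0 : ℝ) < (Cl G ω 1).ncard := by
        exact_mod_cast (Set.ncard_pos hs.1).2 ⟨1, Reachable.refl _⟩
      have hcoef : 1 / ((Cl G ω 1).ncard : ℝ) * psi n (Cl G ω 1) ≤ 1 / (n : ℝ) := by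
        refine (mul_le_mul_of_nonneg_left (psi_le n _) (by positivity)).trans (le_of_eq ?_)
        field_simp
      refine le_trans ?_ (mul_le_mul_of_nonneg_right hcoef (abs_nonneg _))
      exact mul_le_mul_of_nonneg_left (le_abs_self _)
        (mul_nonneg (by positivity) (psi_nonneg _ _))
    · simp only [hK, cl, if_neg hs, zero_mul, Finset.sum_const_zero]
      positivity
  calc Ex G p (vertW S p n 1) = Ex G p (fun ω => ∑ y ∈ B, K y 1 ω) :=
        congrArg (Ex G p) (funext hone)
    _ = ∑ y ∈ B, Ex G p (K 1 y⁻¹) := by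
        rw [ex_sum p B fun y _ => hlK y 1]
        exact Finset.sum_congr rfl fun y _ => htr y
    _ = ∑ y ∈ B, Ex G p (K 1 y) :=
        Finset.sum_nbij' (fun y => y⁻¹) (fun y => y⁻¹) hinv hinv (fun y _ => inv_inv y)
          (fun y _ => inv_inv y) fun y _ => rfl
    _ = Ex G p (fun ω => ∑ y ∈ B, K 1 y ω) := (ex_sum p B fun y _ => hlK 1 y).symm
    _ ≤ Ex G p (fun ω => 1 / (n : ℝ) * |imbalance G p (2 * n) 1 ω|) :=
        ex_mono p (Loc.sum B fun y _ => hlK 1 y)
          ((loc_imbalance p (2 * n) 1).comp fun r => 1 / (n : ℝ) * |r|) hnn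
    _ ≤ _ := by
        rw [ex_mul p ((loc_imbalance p (2 * n) 1).comp fun r => |r|), one_div, inv_mul_eq_div]
        gcongr
        exact ex_abs_imbalance_le (degree_le S hS h1) p (2 * n) 1

/-- The two-ghost inequality. -/
theorem two_ghost (p : unitInterval) {n : ℕ} (hn : 0 < n) {s : Γ} (hs : s ∈ S) :
    (p : ℝ) * Ex (mulCayley (S : Set Γ)) p (fun ω => if ghostEvent S n 1 s ω then 1 else 0)
      ≤ 8 * (Real.sqrt (#S * (2 * n : ℕ)) / n) := by
  set G := mulCayley (S : Set Γ) with hG
  have h := fun t ht => (ex_ghost_le_dart S hS h1 p hn (s := t) ht).2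
  have hsum : ∑ t ∈ S, (Ex G p (dartW S p n 1 t) + Ex G p (dartW S p n t t⁻¹))
      = 2 * Ex G p (vertW S p n 1) := by
    rw [Finset.sum_add_distrib, two_mul]
    have h1' : ∑ t ∈ S, Ex G p (dartW S p n 1 t) = Ex G p (vertW S p n 1) := by
      rw [show vertW S p n 1 = fun ω => ∑ t ∈ S, dartW S p n 1 t ω from rfl,
        ex_sum p S fun t ht => loc_dartW S hS h1 p n 1 ht]
    rw [← h1']
    congr 1
    refine Finset.sum_nbij' (fun t => t⁻¹) (fun t => t⁻¹) hS hS (fun y _ => inv_inv y)
      (fun y _ => inv_inv y) fun t ht => ?_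
    conv_lhs => rw [show t = t * 1 by group]
    rw [ex_dartW_left S hS h1 p n t 1 (by simpa using hS t ht), mul_one]
  have hnn : ∀ t ∈ S, 0 ≤ (p : ℝ) / 4 * Ex G p (fun ω => if ghostEvent S n 1 t ω then 1 else 0) :=
    fun t ht => mul_nonneg (by linarith [p.2.1]) (ex_nonneg p (ex_ghost_le_dart S hS h1 p hn ht).1
      fun ω => by split_ifs <;> norm_num)
  have := (Finset.single_le_sum hnn hs).trans ((Finset.sum_le_sum h).trans hsum.le)
  have := ex_vertW_le S hS h1 p n
  linarith

end Cayley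

end Vale.Agent.P151
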